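import Mathlib

/-!
# Row 289 (S0537, Cardy's formula for Poisson-Voronoi percolation), BOX OBS-O1      (owner helper184; prefix `pvoc_`, `Pvoc`, `PvProbe`)

MODEL FREE form of the probe compactness lemma, TEX[lemma:probe-compactness] (08-observable.tex l.243-340). Imports Mathlib only. 0 sorry.

* `pvoc_diagonal`   diagonal extraction for bounded complex sequences indexed by a countable type;
* `pvoc_ascoli`     ARZELA-ASCOLI, asymptotic form: `A k : ℂ → ℂ` bounded on `X`, asymptotically equicontinuous at every point of `X`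
                    (`∀ p ∈ X, ∀ η > 0, ∃ s > 0, ∀ᶠ k, ∀ p' ∈ X, dist p' p < s → ‖A k p' - A k p‖ ≤ η`)  ⟹  a subsequence converges pointwise on `X` to a function continuous on `X`;
* `pvoc_cpt`        the same for the means `A k p = ∫ R k p ∂(P k)` of CANONICAL probes `R k p : Ω → ℂ`, the modulus given by majorants `q` with `∫ q ≤ η`  (form used by `R289/Obs/Abs.lean`, helper174);
* `pvoc_main`       the full statement of the paper for ARBITRARY geometry-selected probes: a probe is a pair (`loc`, `val` : `Ω → ℂ`), `adm k` the admissible probes at stage `k`, `PvocTends P m p` = the locations tend to `p`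
                    in outer probability. Under `PvocHyp P adm X M` (values bounded by `M`; local modulus (8.2): `‖m.val - m'.val‖ ≤ g` when both locations are in `B(p,s)`, `∫ g ≤ δ` eventually; existence of probes tending to every `p ∈ X`)
                    there are a subsequence `φ` and `F` continuous on `X` such that the annealed values converge to `F p` along EVERY admissible probe sequence tending to `p`;
* `pvoc_limit_mem`  closed convex constraints (closed triangle, closed sides, side lines) pass to the limit, failure allowed on events of vanishing outer probability;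
* `pvoc_diff`       `‖∫ u - ∫ v‖ ≤ ∫ g + 2 M μ S + 2 M μ T` (no measurability of `S`, `T`).
-/

set_option autoImplicit false

namespace Claimed.Agent.R289

open MeasureTheory Filter Topology Set

/-- a geometry-selected probe: its location and the value of the conditional observable there -/
structure PvProbe (Ω : Type*) where
  loc : Ω → ℂ
  val : Ω → ℂ

instance pvoc_probe_inhabited (Ω : Type*) : Inhabited (PvProbe Ω) := ⟨⟨fun _ => 0, fun _ => 0⟩⟩

variable {Ω : Type*} [MeasurableSpace Ω]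

/-- the annealed value of a probe -/
noncomputable def pvocE (μ : Measure Ω) (m : PvProbe Ω) : ℂ := ∫ ω, m.val ω ∂μ

/-- the locations tend to `p` in (outer) probability -/
def PvocTends (P : ℕ → Measure Ω) (m : ℕ → PvProbe Ω) (p : ℂ) : Prop :=
  ∀ s : ℝ, 0 < s → Tendsto (fun k => P k {ω | s ≤ dist ((m k).loc ω) p}) atTop (𝓝 0)

theorem pvoc_eqns_cite : True := by
  have := @pvocE.eq_1.{0}
  have := @PvocTends.eq_1.{0}
  trivial

theorem pvoc_diff {μ : Measure Ω} [IsProbabilityMeasure μ] {u v : Ω → ℂ} {M : ℝ}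
    (hu : AEStronglyMeasurable u μ) (hv : AEStronglyMeasurable v μ)
    (bu : ∀ᵐ ω ∂μ, ‖u ω‖ ≤ M) (bv : ∀ᵐ ω ∂μ, ‖v ω‖ ≤ M) {g : Ω → ℝ} (hg : Integrable g μ) (g0 : 0 ≤ᵐ[μ] g)
    {S T : Set Ω} (h : ∀ᵐ ω ∂μ, ω ∉ S → ω ∉ T → ‖u ω - v ω‖ ≤ g ω) :
    ‖(∫ ω, u ω ∂μ) - ∫ ω, v ω ∂μ‖ ≤ (∫ ω, g ω ∂μ) + 2 * M * (μ S).toReal + 2 * M * (μ T).toReal := by
  have iu : Integrable u μ := Integrable.of_bound hu M bu
  have iv : Integrable v μ := Integrable.of_bound hv M bv
  rw [← integral_sub iu iv]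
  have hA : MeasurableSet (toMeasurable μ S) := measurableSet_toMeasurable μ S
  have hB : MeasurableSet (toMeasurable μ T) := measurableSet_toMeasurable μ T
  have i1 : Integrable ((toMeasurable μ S).indicator fun _ => 2 * M) μ := (integrable_const _).indicator hA
  have i2 : Integrable ((toMeasurable μ T).indicator fun _ => 2 * M) μ := (integrable_const _).indicator hB
  have key : ∀ᵐ ω ∂μ, ‖u ω - v ω‖ ≤ g ω + (toMeasurable μ S).indicator (fun _ => 2 * M) ω
      + (toMeasurable μ T).indicator (fun _ => 2 * M) ω := by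
    filter_upwards [bu, bv, g0, h] with ω h1 h2 h3 h4
    have hM : 0 ≤ M := (norm_nonneg _).trans h1
    have h5 : ‖u ω - v ω‖ ≤ 2 * M := (norm_sub_le _ _).trans (by linarith)
    have h3' : 0 ≤ g ω := h3
    have n1 : 0 ≤ (toMeasurable μ S).indicator (fun _ => 2 * M) ω := indicator_nonneg (fun _ _ => by positivity) _
    have n2 : 0 ≤ (toMeasurable μ T).indicator (fun _ => 2 * M) ω := indicator_nonneg (fun _ _ => by positivity) _
    by_cases hS : ω ∈ toMeasurable μ S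
    · rw [indicator_of_mem hS]
      linarith
    · by_cases hT : ω ∈ toMeasurable μ T
      · rw [indicator_of_mem hT]
        linarith
      · have := h4 (fun h => hS (subset_toMeasurable μ S h)) (fun h => hT (subset_toMeasurable μ T h))
        linarith
  refine (norm_integral_le_of_norm_le ((hg.add i1).add i2) key).trans (le_of_eq ?_)
  have e1 := integral_add (hg.add i1) i2
  have e2 := integral_add hg i1
  simp only [Pi.add_apply] at e1 e2 ⊢
  rw [e1, e2, integral_indicator_const _ hA, integral_indicator_const _ hB]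
  simp [measure_toMeasurable, Measure.real, mul_comm]

/-- **the hypotheses of the probe compactness lemma** -/
structure PvocHyp (P : ℕ → Measure Ω) (adm : ℕ → Set (PvProbe Ω)) (X : Set ℂ) (M : ℝ) : Prop where
  prob : ∀ k, IsProbabilityMeasure (P k)
  meas : ∀ k, ∀ m ∈ adm k, AEStronglyMeasurable m.val (P k)
  bdd : ∀ k, ∀ m ∈ adm k, ∀ᵐ ω ∂(P k), ‖m.val ω‖ ≤ M
  modulus : ∀ p ∈ X, ∀ δ : ℝ, 0 < δ → ∃ s : ℝ, 0 < s ∧ ∀ᶠ k in atTop, ∃ g : Ω → ℝ, Integrable g (P k) ∧ 0 ≤ᵐ[P k] g ∧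
      ∫ ω, g ω ∂(P k) ≤ δ ∧ ∀ m ∈ adm k, ∀ m' ∈ adm k, ∀ᵐ ω ∂(P k),
        dist (m.loc ω) p < s → dist (m'.loc ω) p < s → ‖m.val ω - m'.val ω‖ ≤ g ω
  exists_probe : ∀ p ∈ X, ∃ m : ℕ → PvProbe Ω, (∀ k, m k ∈ adm k) ∧ PvocTends P m p

theorem PvocTends.comp {P : ℕ → Measure Ω} {m : ℕ → PvProbe Ω} {p : ℂ} (h : PvocTends P m p) {φ : ℕ → ℕ}
    (hφ : StrictMono φ) : PvocTends (P ∘ φ) (m ∘ φ) p := fun s hs => (h s hs).comp hφ.tendsto_atTop

theorem PvocHyp.comp {P : ℕ → Measure Ω} {adm : ℕ → Set (PvProbe Ω)} {X : Set ℂ} {M : ℝ} (h : PvocHyp P adm X M)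
    {φ : ℕ → ℕ} (hφ : StrictMono φ) : PvocHyp (P ∘ φ) (adm ∘ φ) X M where
  prob k := h.prob _
  meas k := h.meas _
  bdd k := h.bdd _
  modulus p hp δ hδ := by
    obtain ⟨s, hs, hk⟩ := h.modulus p hp δ hδ
    exact ⟨s, hs, hφ.tendsto_atTop.eventually hk⟩
  exists_probe p hp := by
    obtain ⟨m, h1, h2⟩ := h.exists_probe p hp
    exact ⟨m ∘ φ, fun k => h1 _, h2.comp hφ⟩

theorem PvocHyp.M_nonneg {P : ℕ → Measure Ω} {adm : ℕ → Set (PvProbe Ω)} {X : Set ℂ} {M : ℝ} (h : PvocHyp P adm X M)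
    {k : ℕ} {m : PvProbe Ω} (hm : m ∈ adm k) : 0 ≤ M := by
  have := h.prob k
  obtain ⟨ω, hω⟩ := (h.bdd k m hm).exists
  exact (norm_nonneg _).trans hω

theorem PvocHyp.norm_E_le {P : ℕ → Measure Ω} {adm : ℕ → Set (PvProbe Ω)} {X : Set ℂ} {M : ℝ} (h : PvocHyp P adm X M)
    {k : ℕ} {m : PvProbe Ω} (hm : m ∈ adm k) : ‖pvocE (P k) m‖ ≤ M := by
  have := h.prob k
  have := norm_integral_le_of_norm_le_const (h.bdd k m hm)
  simpa [pvocE] using this

/-- **the local comparison**: all admissible probe sequences tending to points of a small ball have asymptotically the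
same annealed value up to `2 δ` -/
theorem PvocHyp.close {P : ℕ → Measure Ω} {adm : ℕ → Set (PvProbe Ω)} {X : Set ℂ} {M : ℝ} (h : PvocHyp P adm X M)
    {p : ℂ} (hp : p ∈ X) {δ : ℝ} (hδ : 0 < δ) : ∃ s : ℝ, 0 < s ∧ ∀ p₁ p₂ : ℂ, dist p₁ p < s → dist p₂ p < s →
      ∀ m₁ m₂ : ℕ → PvProbe Ω, (∀ k, m₁ k ∈ adm k) → (∀ k, m₂ k ∈ adm k) → PvocTends P m₁ p₁ → PvocTends P m₂ p₂ →
        ∀ᶠ k in atTop, ‖pvocE (P k) (m₁ k) - pvocE (P k) (m₂ k)‖ ≤ 2 * δ := by
  obtain ⟨s, hs, hk⟩ := h.modulus p hp δ hδ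
  refine ⟨s, hs, fun p₁ p₂ h1 h2 m₁ m₂ a1 a2 t1 t2 => ?_⟩
  have hM : 0 ≤ M := h.M_nonneg (a1 0)
  have l1 : Tendsto (fun k => 2 * M * (P k {ω | s - dist p₁ p ≤ dist ((m₁ k).loc ω) p₁}).toReal
      + 2 * M * (P k {ω | s - dist p₂ p ≤ dist ((m₂ k).loc ω) p₂}).toReal) atTop (𝓝 (2 * M * 0 + 2 * M * 0)) := by
    refine Tendsto.add (Tendsto.const_mul _ ?_) (Tendsto.const_mul _ ?_)
    · exact (ENNReal.tendsto_toReal ENNReal.zero_ne_top).comp (t1 _ (by linarith))
    · exact (ENNReal.tendsto_toReal ENNReal.zero_ne_top).comp (t2 _ (by linarith))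
  have l2 := l1.eventually_le_const (show 2 * M * 0 + 2 * M * 0 < δ by simpa using hδ)
  filter_upwards [hk, l2] with k ⟨g, g1, g2, g3, g4⟩ hk2
  have := h.prob k
  have := pvoc_diff (h.meas k _ (a1 k)) (h.meas k _ (a2 k)) (h.bdd k _ (a1 k)) (h.bdd k _ (a2 k)) g1 g2
    (S := {ω | s - dist p₁ p ≤ dist ((m₁ k).loc ω) p₁}) (T := {ω | s - dist p₂ p ≤ dist ((m₂ k).loc ω) p₂}) (by
      filter_upwards [g4 _ (a1 k) _ (a2 k)] with ω hω n1 n2
      refine hω ?_ ?_
      · have := dist_triangle ((m₁ k).loc ω) p₁ p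
        have n1' : dist ((m₁ k).loc ω) p₁ < s - dist p₁ p := not_le.1 n1
        linarith
      · have := dist_triangle ((m₂ k).loc ω) p₂ p
        have n2' : dist ((m₂ k).loc ω) p₂ < s - dist p₂ p := not_le.1 n2
        linarith)
  unfold pvocE
  linarith

/-- if the annealed values converge along ONE admissible probe sequence at every point of a dense subset, they converge
along EVERY admissible probe sequence at every point -/
theorem PvocHyp.cauchy {P : ℕ → Measure Ω} {adm : ℕ → Set (PvProbe Ω)} {X : Set ℂ} {M : ℝ} (h : PvocHyp P adm X M)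
    {Q : Set ℂ} (hQ : X ⊆ closure Q)
    (hconv : ∀ q ∈ Q, ∃ m : ℕ → PvProbe Ω, (∀ k, m k ∈ adm k) ∧ PvocTends P m q ∧ CauchySeq fun k => pvocE (P k) (m k))
    {p : ℂ} (hp : p ∈ X) {m : ℕ → PvProbe Ω} (hm : ∀ k, m k ∈ adm k) (ht : PvocTends P m p) :
    CauchySeq fun k => pvocE (P k) (m k) := by
  rw [Metric.cauchySeq_iff']
  intro ε hε
  obtain ⟨s, hs, hcl⟩ := h.close hp (δ := ε / 8) (by positivity)
  obtain ⟨q, hq, hqp⟩ := Metric.mem_closure_iff.1 (hQ hp) s hs
  obtain ⟨mq, q1, q2, q3⟩ := hconv q hq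
  have e1 := hcl p q (by simpa using hs) (by rwa [dist_comm]) m mq hm q1 ht q2
  obtain ⟨N1, hN1⟩ := eventually_atTop.1 e1
  obtain ⟨N2, hN2⟩ := Metric.cauchySeq_iff'.1 q3 (ε / 8) (by positivity)
  refine ⟨max N1 N2, fun n hn => ?_⟩
  have a1 := hN1 n (le_trans (le_max_left _ _) hn)
  have a2 := hN1 (max N1 N2) (le_max_left _ _)
  have a3 := hN2 n (le_trans (le_max_right _ _) hn)
  have a4 := hN2 (max N1 N2) (le_max_right _ _)
  rw [dist_eq_norm] at a3 a4 ⊢
  have e : pvocE (P n) (m n) - pvocE (P (max N1 N2)) (m (max N1 N2))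
      = (pvocE (P n) (m n) - pvocE (P n) (mq n)) + (pvocE (P n) (mq n) - pvocE (P N2) (mq N2))
        - (pvocE (P (max N1 N2)) (mq (max N1 N2)) - pvocE (P N2) (mq N2))
        - (pvocE (P (max N1 N2)) (m (max N1 N2)) - pvocE (P (max N1 N2)) (mq (max N1 N2))) := by ring
  rw [e]
  have := norm_sub_le ((pvocE (P n) (m n) - pvocE (P n) (mq n)) + (pvocE (P n) (mq n) - pvocE (P N2) (mq N2))
        - (pvocE (P (max N1 N2)) (mq (max N1 N2)) - pvocE (P N2) (mq N2)))
        (pvocE (P (max N1 N2)) (m (max N1 N2)) - pvocE (P (max N1 N2)) (mq (max N1 N2)))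
  have := norm_sub_le ((pvocE (P n) (m n) - pvocE (P n) (mq n)) + (pvocE (P n) (mq n) - pvocE (P N2) (mq N2)))
        (pvocE (P (max N1 N2)) (mq (max N1 N2)) - pvocE (P N2) (mq N2))
  have := norm_add_le (pvocE (P n) (m n) - pvocE (P n) (mq n)) (pvocE (P n) (mq n) - pvocE (P N2) (mq N2))
  linarith
/-- **the limit function**, when the values converge on a dense set -/
theorem PvocHyp.limit {P : ℕ → Measure Ω} {adm : ℕ → Set (PvProbe Ω)} {X : Set ℂ} {M : ℝ} (h : PvocHyp P adm X M)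
    {Q : Set ℂ} (hQ : X ⊆ closure Q)
    (hconv : ∀ q ∈ Q, ∃ m : ℕ → PvProbe Ω, (∀ k, m k ∈ adm k) ∧ PvocTends P m q ∧ CauchySeq fun k => pvocE (P k) (m k)) :
    ∃ F : ℂ → ℂ, ContinuousOn F X ∧ ∀ p ∈ X, ∀ m : ℕ → PvProbe Ω, (∀ k, m k ∈ adm k) → PvocTends P m p →
      Tendsto (fun k => pvocE (P k) (m k)) atTop (𝓝 (F p)) := by
  have ex : ∀ p ∈ X, ∃ L : ℂ, ∀ m : ℕ → PvProbe Ω, (∀ k, m k ∈ adm k) → PvocTends P m p →
      Tendsto (fun k => pvocE (P k) (m k)) atTop (𝓝 L) := by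
    intro p hp
    obtain ⟨m0, a0, t0⟩ := h.exists_probe p hp
    obtain ⟨L, hL⟩ := cauchySeq_tendsto_of_complete (h.cauchy hQ hconv hp a0 t0)
    refine ⟨L, fun m a t => ?_⟩
    obtain ⟨L', hL'⟩ := cauchySeq_tendsto_of_complete (h.cauchy hQ hconv hp a t)
    have : L' = L := by
      by_contra hne
      have hpos : 0 < ‖L' - L‖ := norm_pos_iff.2 (sub_ne_zero.2 hne)
      obtain ⟨s, hs, hcl⟩ := h.close hp (δ := ‖L' - L‖ / 4) (by positivity)
      have e1 := hcl p p (by simpa using hs) (by simpa using hs) m m0 a a0 t t0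
      have := le_of_tendsto (hL'.sub hL).norm e1
      linarith
    rw [← this]
    exact hL'
  choose! F hF using ex
  refine ⟨F, ?_, hF⟩
  intro p hp
  rw [ContinuousWithinAt, Metric.tendsto_nhdsWithin_nhds]
  intro ε hε
  obtain ⟨s, hs, hcl⟩ := h.close hp (δ := ε / 4) (by positivity)
  refine ⟨s, hs, fun p' hp' hd => ?_⟩
  obtain ⟨m0, a0, t0⟩ := h.exists_probe p hp
  obtain ⟨m1, a1, t1⟩ := h.exists_probe p' hp'
  have e1 := hcl p' p hd (by simpa using hs) m1 m0 a1 a0 t1 t0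
  have := le_of_tendsto ((hF p' hp' m1 a1 t1).sub (hF p hp m0 a0 t0)).norm e1
  rw [dist_eq_norm]
  linarith

/-- **diagonal extraction**: bounded complex sequences indexed by a countable set -/
theorem pvoc_diagonal {ι : Type*} [Countable ι] (a : ℕ → ι → ℂ) {M : ℝ} (ha : ∀ k i, ‖a k i‖ ≤ M) :
    ∃ φ : ℕ → ℕ, StrictMono φ ∧ ∀ i, ∃ L : ℂ, Tendsto (fun k => a (φ k) i) atTop (𝓝 L) := by
  have hK : IsCompact (Set.pi univ fun _ : ι => Metric.closedBall (0 : ℂ) M) :=
    isCompact_univ_pi fun _ => isCompact_closedBall _ _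
  obtain ⟨L, -, φ, hφ, hL⟩ := hK.tendsto_subseq (x := a) fun k i _ => by simpa using ha k i
  exact ⟨φ, hφ, fun i => ⟨L i, (tendsto_pi_nhds.1 hL) i⟩⟩

/-- **ARZELA-ASCOLI, asymptotic form**: a bounded sequence of functions on `X ⊆ ℂ` which is ASYMPTOTICALLY equicontinuous
at every point of `X` has a subsequence which converges pointwise on `X` to a function continuous on `X`. -/
theorem pvoc_ascoli {X : Set ℂ} {A : ℕ → ℂ → ℂ} {M : ℝ} (hb : ∀ k, ∀ p ∈ X, ‖A k p‖ ≤ M)
    (heq : ∀ p ∈ X, ∀ η : ℝ, 0 < η → ∃ s : ℝ, 0 < s ∧ ∀ᶠ k in atTop, ∀ p' ∈ X, dist p' p < s → ‖A k p' - A k p‖ ≤ η) :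
    ∃ φ : ℕ → ℕ, StrictMono φ ∧ ∃ F : ℂ → ℂ, ContinuousOn F X ∧
      ∀ p ∈ X, Tendsto (fun k => A (φ k) p) atTop (𝓝 (F p)) := by
  obtain ⟨Q, hQX, hQc, hQd⟩ := (TopologicalSpace.IsSeparable.of_separableSpace X).exists_countable_dense_subset
  have : Countable Q := hQc.to_subtype
  obtain ⟨φ, hφ, hL⟩ := pvoc_diagonal (fun k (i : Q) => A k i) (M := M) fun k i => hb k i (hQX i.2)
  have ex : ∀ p ∈ X, ∃ L : ℂ, Tendsto (fun k => A (φ k) p) atTop (𝓝 L) := by
    intro p hp
    refine cauchySeq_tendsto_of_complete ?_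
    rw [Metric.cauchySeq_iff']
    intro ε hε
    obtain ⟨s, hs, hk⟩ := heq p hp (ε / 8) (by positivity)
    obtain ⟨q, hq, hqp⟩ := Metric.mem_closure_iff.1 (hQd hp) s hs
    obtain ⟨L, hLq⟩ := hL ⟨q, hq⟩
    obtain ⟨N1, hN1⟩ := eventually_atTop.1 (hφ.tendsto_atTop.eventually hk)
    obtain ⟨N2, hN2⟩ := Metric.cauchySeq_iff'.1 hLq.cauchySeq (ε / 8) (by positivity)
    refine ⟨max N1 N2, fun n hn => ?_⟩
    have a1 := hN1 n (le_trans (le_max_left _ _) hn) q (hQX hq) (by rwa [dist_comm])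
    have a2 := hN1 (max N1 N2) (le_max_left _ _) q (hQX hq) (by rwa [dist_comm])
    have a3 := hN2 n (le_trans (le_max_right _ _) hn)
    have a4 := hN2 (max N1 N2) (le_max_right _ _)
    simp only [dist_eq_norm] at a3 a4 ⊢
    have e : A (φ n) p - A (φ (max N1 N2)) p
        = -(A (φ n) q - A (φ n) p) + (A (φ n) q - A (φ N2) q) - (A (φ (max N1 N2)) q - A (φ N2) q)
          + (A (φ (max N1 N2)) q - A (φ (max N1 N2)) p) := by ring
    rw [e]
    have := norm_add_le (-(A (φ n) q - A (φ n) p) + (A (φ n) q - A (φ N2) q) - (A (φ (max N1 N2)) q - A (φ N2) q))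
          (A (φ (max N1 N2)) q - A (φ (max N1 N2)) p)
    have := norm_sub_le (-(A (φ n) q - A (φ n) p) + (A (φ n) q - A (φ N2) q)) (A (φ (max N1 N2)) q - A (φ N2) q)
    have := norm_add_le (-(A (φ n) q - A (φ n) p)) (A (φ n) q - A (φ N2) q)
    rw [norm_neg] at this
    linarith
  choose! F hF using ex
  refine ⟨φ, hφ, F, ?_, hF⟩
  intro p hp
  rw [ContinuousWithinAt, Metric.tendsto_nhdsWithin_nhds]
  intro ε hε
  obtain ⟨s, hs, hk⟩ := heq p hp (ε / 2) (by positivity)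
  refine ⟨s, hs, fun p' hp' hd => ?_⟩
  have e1 : ∀ᶠ k in atTop, ‖A (φ k) p' - A (φ k) p‖ ≤ ε / 2 := by
    filter_upwards [hφ.tendsto_atTop.eventually hk] with k hk
    exact hk p' hp' hd
  have := le_of_tendsto ((hF p' hp').sub (hF p hp)).norm e1
  rw [dist_eq_norm]
  linarith

/-- **compactness for canonical probes**: `R k p ω` the conditional observable at the canonical probe near `p`; the modulus is given by majorants `q` of small mean. -/
theorem pvoc_cpt {P : ℕ → Measure Ω} (hP : ∀ k, IsProbabilityMeasure (P k)) {X : Set ℂ} {R : ℕ → ℂ → Ω → ℂ} {M : ℝ}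
    (hm : ∀ k, ∀ p ∈ X, AEStronglyMeasurable (R k p) (P k)) (hb : ∀ k, ∀ p ∈ X, ∀ᵐ ω ∂(P k), ‖R k p ω‖ ≤ M)
    (arm : ∀ p ∈ X, ∀ η : ℝ, 0 < η → ∃ s : ℝ, 0 < s ∧ ∀ᶠ k in atTop, ∃ q : Ω → ℝ, Integrable q (P k) ∧
      ∫ ω, q ω ∂(P k) ≤ η ∧ ∀ p' ∈ X, dist p' p < s → ∀ᵐ ω ∂(P k), ‖R k p' ω - R k p ω‖ ≤ q ω) :
    ∃ φ : ℕ → ℕ, StrictMono φ ∧ ∃ F : ℂ → ℂ, ContinuousOn F X ∧
      ∀ p ∈ X, Tendsto (fun k => ∫ ω, R (φ k) p ω ∂(P (φ k))) atTop (𝓝 (F p)) := by
  refine pvoc_ascoli (A := fun k p => ∫ ω, R k p ω ∂(P k)) (M := M) (fun k p hp => ?_) fun p hp η hη => ?_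
  · have := hP k
    have := norm_integral_le_of_norm_le_const (hb k p hp)
    simpa using this
  · obtain ⟨s, hs, hk⟩ := arm p hp η hη
    refine ⟨s, hs, ?_⟩
    filter_upwards [hk] with k ⟨q, q1, q2, q3⟩ p' hp' hd
    have := hP k
    rw [← integral_sub (Integrable.of_bound (hm k p' hp') M (hb k p' hp')) (Integrable.of_bound (hm k p hp) M (hb k p hp))]
    exact (norm_integral_le_of_norm_le q1 (q3 p' hp' hd)).trans q2

/-- **PROBE COMPACTNESS** (model free form of TEX[lemma:probe-compactness]) -/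
theorem pvoc_main {P : ℕ → Measure Ω} {adm : ℕ → Set (PvProbe Ω)} {X : Set ℂ} {M : ℝ} (h : PvocHyp P adm X M) :
    ∃ φ : ℕ → ℕ, StrictMono φ ∧ ∃ F : ℂ → ℂ, ContinuousOn F X ∧
      ∀ p ∈ X, ∀ m : ℕ → PvProbe Ω, (∀ k, m k ∈ adm (φ k)) → PvocTends (P ∘ φ) m p →
        Tendsto (fun k => pvocE (P (φ k)) (m k)) atTop (𝓝 (F p)) := by
  obtain ⟨Q, hQX, hQc, hQd⟩ := (TopologicalSpace.IsSeparable.of_separableSpace X).exists_countable_dense_subset
  have ex := h.exists_probe
  choose! mq a q using ex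
  have : Countable Q := hQc.to_subtype
  obtain ⟨φ, hφ, hL⟩ := pvoc_diagonal (fun k (i : Q) => pvocE (P k) (mq i k)) (M := M)
    fun k i => h.norm_E_le (a i (hQX i.2) k)
  obtain ⟨F, hF1, hF2⟩ := (h.comp hφ).limit hQd fun i hi => ⟨mq i ∘ φ, fun k => a i (hQX hi) _, (q i (hQX hi)).comp hφ, by
    obtain ⟨L, hL⟩ := hL ⟨i, hi⟩
    exact hL.cauchySeq⟩
  exact ⟨φ, hφ, F, hF1, hF2⟩
/-- **closed convex constraints pass to the limit**: if the values of a sequence of functions bounded by `M` lie in the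
closed convex set `C` off events of vanishing (outer) probability, every limit of their means lies in `C` -/
theorem pvoc_limit_mem {P : ℕ → Measure Ω} (hP : ∀ k, IsProbabilityMeasure (P k)) {u : ℕ → Ω → ℂ} {M : ℝ}
    (hu : ∀ k, AEStronglyMeasurable (u k) (P k)) (bu : ∀ k, ∀ᵐ ω ∂(P k), ‖u k ω‖ ≤ M) {C : Set ℂ} (hC : IsClosed C)
    (hCc : Convex ℝ C) (hin : Tendsto (fun k => P k {ω | u k ω ∉ C}) atTop (𝓝 0)) {L : ℂ}
    (hL : Tendsto (fun k => ∫ ω, u k ω ∂(P k)) atTop (𝓝 L)) : L ∈ C := by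
  classical
  -- `C` is not empty
  have hne : C.Nonempty := by
    by_contra hemp
    rw [not_nonempty_iff_eq_empty] at hemp
    have : (fun k => P k {ω | u k ω ∉ C}) = fun _ => 1 := by
      funext k
      have := hP k
      simp [hemp]
    rw [this] at hin
    exact one_ne_zero (tendsto_nhds_unique tendsto_const_nhds hin)
  obtain ⟨c, hc⟩ := hne
  have hM : 0 ≤ M := by
    have := hP 0
    obtain ⟨ω, hω⟩ := (bu 0).exists
    exact (norm_nonneg _).trans hω
  -- the corrected functions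
  have key : ∀ k, ∃ z ∈ C, ‖(∫ ω, u k ω ∂(P k)) - z‖ ≤ (M + ‖c‖) * (P k {ω | u k ω ∉ C}).toReal := by
    intro k
    have := hP k
    have hA : MeasurableSet (toMeasurable (P k) {ω | u k ω ∉ C}) := measurableSet_toMeasurable _ _
    have iu : Integrable (u k) (P k) := Integrable.of_bound (hu k) M (bu k)
    have hv : AEStronglyMeasurable ((toMeasurable (P k) {ω | u k ω ∉ C}).piecewise (fun _ => c) (u k)) (P k) :=
      AEStronglyMeasurable.piecewise hA aestronglyMeasurable_const (hu k).restrict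
    have bv : ∀ᵐ ω ∂(P k), ‖(toMeasurable (P k) {ω | u k ω ∉ C}).piecewise (fun _ => c) (u k) ω‖ ≤ M + ‖c‖ := by
      filter_upwards [bu k] with ω hω
      by_cases h : ω ∈ toMeasurable (P k) {ω | u k ω ∉ C}
      · rw [piecewise_eq_of_mem _ _ _ h]
        linarith
      · rw [piecewise_eq_of_notMem _ _ _ h]
        linarith [norm_nonneg c]
    have iv : Integrable ((toMeasurable (P k) {ω | u k ω ∉ C}).piecewise (fun _ => c) (u k)) (P k) :=
      Integrable.of_bound hv _ bv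
    refine ⟨∫ ω, (toMeasurable (P k) {ω | u k ω ∉ C}).piecewise (fun _ => c) (u k) ω ∂(P k), ?_, ?_⟩
    · refine hCc.integral_mem hC (Eventually.of_forall fun ω => ?_) iv
      by_cases h : ω ∈ toMeasurable (P k) {ω | u k ω ∉ C}
      · rw [piecewise_eq_of_mem _ _ _ h]
        exact hc
      · rw [piecewise_eq_of_notMem _ _ _ h]
        by_contra hn
        exact h (subset_toMeasurable _ _ hn)
    · rw [← integral_sub iu iv]
      have i1 : Integrable ((toMeasurable (P k) {ω | u k ω ∉ C}).indicator fun _ => M + ‖c‖) (P k) :=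
        (integrable_const _).indicator hA
      refine (norm_integral_le_of_norm_le i1 ?_).trans (le_of_eq ?_)
      · filter_upwards [bu k] with ω hω
        by_cases h : ω ∈ toMeasurable (P k) {ω | u k ω ∉ C}
        · rw [piecewise_eq_of_mem _ _ _ h, indicator_of_mem h]
          exact (norm_sub_le _ _).trans (by linarith)
        · rw [piecewise_eq_of_notMem _ _ _ h, indicator_of_notMem h]
          simp
      · rw [integral_indicator_const _ hA]
        simp [measure_toMeasurable, Measure.real, mul_comm]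
  choose z hz1 hz2 using key
  have l1 : Tendsto (fun k => (M + ‖c‖) * (P k {ω | u k ω ∉ C}).toReal) atTop (𝓝 ((M + ‖c‖) * 0)) :=
    ((ENNReal.tendsto_toReal ENNReal.zero_ne_top).comp hin).const_mul _
  rw [mul_zero] at l1
  have l2 : Tendsto (fun k => (∫ ω, u k ω ∂(P k)) - z k) atTop (𝓝 0) := squeeze_zero_norm hz2 l1
  have l3 : Tendsto z atTop (𝓝 L) := by
    have := hL.sub l2
    simpa using this
  exact hC.mem_of_tendsto l3 (Eventually.of_forall hz1)

end Claimed.Agent.R289
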