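-- KEEP
import Mathlib

/-!
# Row 289 (S0537, Cardy for Poisson-Voronoi), unit OBS, file Obs/Mean: A MEAN FOR NON-MEASURABLE FUNCTIONS      (architect helper174; prefix `pvom_`, defs `PvoDom`, `pvoMean`; imports Mathlib only)

WHY.   The quenched observable `F^η_m` of Sec. 8 is a function of the point geometry through the SELECTED discrete disc.   Its measurability = measurability of the selection: long, and never used by the mathematics.
Sec. 8 uses of `E` only: (1) linearity on finitely many terms, (2) `|E f| ≤ E g` for a measurable majorant `g`, (3) `E = ∫` on integrable functions.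
So `E := pvoMean μ`: a Hahn-Banach extension of the integral to all functions which are POINTWISE dominated by an integrable function (a finitely additive mean).

## Construction
* `pvomSub μ` : the submodule of `Ω → ℝ` of the dominated functions;
* `pvomN μ f = sInf {∫ g | g integrable, f ≤ g pointwise}` : the upper integral, sublinear and finite on `pvomSub μ`;
* `exists_extension_of_le_sublinear` applied to the zero map on `⊥`: a linear `L : pvomSub μ →ₗ[ℝ] ℝ` with `L ≤ N`;   then `-N(-f) ≤ L f ≤ N f`, so `L = ∫` on integrable functions;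
* `pvoMean μ f = L (re f) + i L (im f)` for dominated `f : Ω → ℂ`, `0` otherwise;   `‖pvoMean μ f‖ ≤ ∫ g`: rotate, `‖z‖ = re (conj θ z)`.
-/

set_option autoImplicit false

namespace Claimed.Agent.R289

open MeasureTheory Filter Topology Set Complex

variable {Ω : Type} [MeasurableSpace Ω]

/-- `f` is pointwise dominated by an integrable function -/
def PvoDom (μ : Measure Ω) (f : Ω → ℂ) : Prop := ∃ g : Ω → ℝ, Integrable g μ ∧ ∀ o, ‖f o‖ ≤ g o

/-- real form -/
def PvomDomR (μ : Measure Ω) (f : Ω → ℝ) : Prop := ∃ g : Ω → ℝ, Integrable g μ ∧ ∀ o, |f o| ≤ g o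

/-- the upper integral -/
noncomputable def pvomN (μ : Measure Ω) (f : Ω → ℝ) : ℝ := sInf {x : ℝ | ∃ g : Ω → ℝ, Integrable g μ ∧ (∀ o, f o ≤ g o) ∧ x = ∫ o, g o ∂μ}

theorem pvom_eqns_cite : True := by
  have := @PvoDom.eq_1
  have := @PvomDomR.eq_1
  have := @pvomN.eq_1
  trivial

/-! ## 1. dominated functions -/

theorem PvomDomR.add {μ : Measure Ω} {f g : Ω → ℝ} (hf : PvomDomR μ f) (hg : PvomDomR μ g) : PvomDomR μ (f + g) := by
  obtain ⟨a, ha, h1⟩ := hf
  obtain ⟨b, hb, h2⟩ := hg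
  exact ⟨a + b, ha.add hb, fun o => (abs_add_le _ _).trans (add_le_add (h1 o) (h2 o))⟩

theorem PvomDomR.smul {μ : Measure Ω} {f : Ω → ℝ} (c : ℝ) (hf : PvomDomR μ f) : PvomDomR μ (c • f) := by
  obtain ⟨a, ha, h1⟩ := hf
  refine ⟨fun o => |c| * a o, ha.const_mul _, fun o => ?_⟩
  simp only [Pi.smul_apply, smul_eq_mul, abs_mul]
  exact mul_le_mul_of_nonneg_left (h1 o) (abs_nonneg c)

theorem pvom_domR_zero (μ : Measure Ω) : PvomDomR μ 0 := ⟨0, integrable_zero _ _ _, fun o => by simp⟩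

/-- the submodule of the dominated real functions -/
def pvomSub (μ : Measure Ω) : Submodule ℝ (Ω → ℝ) where
  carrier := {f | PvomDomR μ f}
  add_mem' := fun ha hb => PvomDomR.add ha hb
  zero_mem' := pvom_domR_zero μ
  smul_mem' := fun c _ hf => PvomDomR.smul c hf

/-! ## 2. the upper integral -/

theorem pvom_N_bddBelow {μ : Measure Ω} {f : Ω → ℝ} (hf : PvomDomR μ f) :
    BddBelow {x : ℝ | ∃ g : Ω → ℝ, Integrable g μ ∧ (∀ o, f o ≤ g o) ∧ x = ∫ o, g o ∂μ} := by
  obtain ⟨a, ha, h1⟩ := hf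
  refine ⟨-∫ o, a o ∂μ, ?_⟩
  rintro x ⟨g, hg, h2, rfl⟩
  rw [← integral_neg]
  exact integral_mono ha.neg hg fun o => (neg_le.1 ((neg_le_abs _).trans (h1 o))).trans (h2 o)

theorem pvom_N_nonempty {μ : Measure Ω} {f : Ω → ℝ} (hf : PvomDomR μ f) :
    {x : ℝ | ∃ g : Ω → ℝ, Integrable g μ ∧ (∀ o, f o ≤ g o) ∧ x = ∫ o, g o ∂μ}.Nonempty := by
  obtain ⟨a, ha, h1⟩ := hf
  exact ⟨_, a, ha, fun o => (le_abs_self _).trans (h1 o), rfl⟩

theorem pvom_N_le {μ : Measure Ω} {f g : Ω → ℝ} (hf : PvomDomR μ f) (hg : Integrable g μ) (h : ∀ o, f o ≤ g o) : pvomN μ f ≤ ∫ o, g o ∂μ :=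
  csInf_le (pvom_N_bddBelow hf) ⟨g, hg, h, rfl⟩

theorem pvom_N_add {μ : Measure Ω} {f g : Ω → ℝ} (hf : PvomDomR μ f) (hg : PvomDomR μ g) : pvomN μ (f + g) ≤ pvomN μ f + pvomN μ g := by
  have key : ∀ a ∈ {x : ℝ | ∃ u : Ω → ℝ, Integrable u μ ∧ (∀ o, f o ≤ u o) ∧ x = ∫ o, u o ∂μ},
      ∀ b ∈ {x : ℝ | ∃ u : Ω → ℝ, Integrable u μ ∧ (∀ o, g o ≤ u o) ∧ x = ∫ o, u o ∂μ}, pvomN μ (f + g) ≤ a + b := by
    rintro a ⟨u, hu, h1, rfl⟩ b ⟨v, hv, h2, rfl⟩
    rw [← integral_add hu hv]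
    exact pvom_N_le (hf.add hg) (hu.add hv) fun o => add_le_add (h1 o) (h2 o)
  have h1 : ∀ b ∈ {x : ℝ | ∃ u : Ω → ℝ, Integrable u μ ∧ (∀ o, g o ≤ u o) ∧ x = ∫ o, u o ∂μ}, pvomN μ (f + g) - b ≤ pvomN μ f := by
    intro b hb
    refine le_csInf (pvom_N_nonempty hf) fun a ha => ?_
    have := key a ha b hb
    linarith
  have h2 : pvomN μ (f + g) - pvomN μ f ≤ pvomN μ g := by
    refine le_csInf (pvom_N_nonempty hg) fun b hb => ?_
    have := h1 b hb
    linarith
  linarith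

theorem pvom_N_smul {μ : Measure Ω} {f : Ω → ℝ} (hf : PvomDomR μ f) {c : ℝ} (hc : 0 < c) : pvomN μ (c • f) = c * pvomN μ f := by
  apply le_antisymm
  · have h1 : pvomN μ (c • f) / c ≤ pvomN μ f := by
      refine le_csInf (pvom_N_nonempty hf) ?_
      rintro a ⟨u, hu, h1, rfl⟩
      rw [div_le_iff₀ hc, mul_comm, ← integral_const_mul]
      exact pvom_N_le (hf.smul c) (hu.const_mul c) fun o => by
        simp only [Pi.smul_apply, smul_eq_mul]
        exact mul_le_mul_of_nonneg_left (h1 o) hc.le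
    rw [div_le_iff₀ hc] at h1
    linarith
  · refine le_csInf (pvom_N_nonempty (hf.smul c)) ?_
    rintro a ⟨u, hu, h1, rfl⟩
    have h2 : pvomN μ f ≤ ∫ o, c⁻¹ * u o ∂μ := by
      refine pvom_N_le hf (hu.const_mul c⁻¹) fun o => ?_
      have := h1 o
      simp only [Pi.smul_apply, smul_eq_mul] at this
      rw [inv_mul_eq_div, le_div_iff₀ hc]
      linarith
    rw [integral_const_mul, inv_mul_eq_div, le_div_iff₀ hc] at h2
    linarith

theorem pvom_N_zero (μ : Measure Ω) : pvomN μ 0 = 0 := by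
  apply le_antisymm
  · have := pvom_N_le (pvom_domR_zero μ) (integrable_zero Ω ℝ μ) (fun o => le_rfl)
    simpa using this
  · refine le_csInf (pvom_N_nonempty (pvom_domR_zero μ)) ?_
    rintro a ⟨u, hu, h1, rfl⟩
    exact integral_nonneg h1

/-! ## 3. Hahn-Banach -/

/-- **the real mean** -/
theorem pvom_exists (μ : Measure Ω) : ∃ L : pvomSub μ →ₗ[ℝ] ℝ, ∀ f : pvomSub μ, L f ≤ pvomN μ f := by
  obtain ⟨L, -, hL⟩ := exists_extension_of_le_sublinear (⊥ : pvomSub μ →ₗ.[ℝ] ℝ) (fun f => pvomN μ f.1)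
    (fun c hc f => pvom_N_smul f.2 hc) (fun f g => pvom_N_add f.2 g.2) (by
      rintro ⟨x, hx⟩
      have hx0 : x = 0 := (Submodule.mem_bot ℝ).1 hx
      subst hx0
      have h1 : (⊥ : pvomSub μ →ₗ.[ℝ] ℝ) ⟨0, hx⟩ = 0 := rfl
      rw [h1]
      exact (pvom_N_zero μ).ge)
  exact ⟨L, hL⟩

/-- the real mean -/
noncomputable def pvomL (μ : Measure Ω) : pvomSub μ →ₗ[ℝ] ℝ := Classical.choose (pvom_exists μ)

theorem pvom_L_le (μ : Measure Ω) (f : pvomSub μ) : pvomL μ f ≤ pvomN μ f := Classical.choose_spec (pvom_exists μ) f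

open Classical in
/-- the real mean, total form -/
noncomputable def pvomR (μ : Measure Ω) (f : Ω → ℝ) : ℝ := if h : PvomDomR μ f then pvomL μ ⟨f, h⟩ else 0

/-- **the mean** -/
noncomputable def pvoMean (μ : Measure Ω) (f : Ω → ℂ) : ℂ := ⟨pvomR μ fun o => (f o).re, pvomR μ fun o => (f o).im⟩

theorem pvom_eqns_cite2 : True := by
  have := @pvomSub.eq_1
  have := @pvomL.eq_1
  have := @pvomR.eq_1
  have := @pvoMean.eq_1
  trivial

/-! ## 4. the real mean: API -/

theorem pvom_R_add {μ : Measure Ω} {f g : Ω → ℝ} (hf : PvomDomR μ f) (hg : PvomDomR μ g) : pvomR μ (fun o => f o + g o) = pvomR μ f + pvomR μ g := by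
  have hfg : PvomDomR μ (fun o => f o + g o) := hf.add hg
  unfold pvomR
  rw [dif_pos hfg, dif_pos hf, dif_pos hg, ← map_add]
  rfl

theorem pvom_R_smul {μ : Measure Ω} {f : Ω → ℝ} (c : ℝ) (hf : PvomDomR μ f) : pvomR μ (fun o => c * f o) = c * pvomR μ f := by
  have hc : PvomDomR μ (fun o => c * f o) := hf.smul c
  unfold pvomR
  rw [dif_pos hc, dif_pos hf]
  have : (⟨fun o => c * f o, hc⟩ : pvomSub μ) = c • ⟨f, hf⟩ := rfl
  rw [this, map_smul, smul_eq_mul]

theorem pvom_R_le {μ : Measure Ω} {f g : Ω → ℝ} (hf : PvomDomR μ f) (hg : Integrable g μ) (h : ∀ o, f o ≤ g o) : pvomR μ f ≤ ∫ o, g o ∂μ := by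
  unfold pvomR
  rw [dif_pos hf]
  exact (pvom_L_le μ ⟨f, hf⟩).trans (pvom_N_le hf hg h)

theorem pvom_R_ge {μ : Measure Ω} {f g : Ω → ℝ} (hf : PvomDomR μ f) (hg : Integrable g μ) (h : ∀ o, g o ≤ f o) : ∫ o, g o ∂μ ≤ pvomR μ f := by
  have h1 : pvomR μ (fun o => (-1 : ℝ) * f o) ≤ ∫ o, -g o ∂μ :=
    pvom_R_le (hf.smul (-1)) hg.neg fun o => by simpa using h o
  rw [pvom_R_smul (-1) hf, integral_neg] at h1
  linarith

theorem pvom_R_integral {μ : Measure Ω} {f : Ω → ℝ} (hf : Integrable f μ) : pvomR μ f = ∫ o, f o ∂μ := by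
  have hd : PvomDomR μ f := ⟨fun o => |f o|, hf.abs, fun _ => le_rfl⟩
  exact le_antisymm (pvom_R_le hd hf fun _ => le_rfl) (pvom_R_ge hd hf fun _ => le_rfl)

/-! ## 5. dominated complex functions -/

theorem PvoDom.re {μ : Measure Ω} {f : Ω → ℂ} (hf : PvoDom μ f) : PvomDomR μ fun o => (f o).re := by
  obtain ⟨g, hg, h⟩ := hf
  exact ⟨g, hg, fun o => (Complex.abs_re_le_norm _).trans (h o)⟩

theorem PvoDom.im {μ : Measure Ω} {f : Ω → ℂ} (hf : PvoDom μ f) : PvomDomR μ fun o => (f o).im := by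
  obtain ⟨g, hg, h⟩ := hf
  exact ⟨g, hg, fun o => (Complex.abs_im_le_norm _).trans (h o)⟩

theorem PvoDom.mono {μ : Measure Ω} {f g : Ω → ℂ} (hg : PvoDom μ g) (h : ∀ o, ‖f o‖ ≤ ‖g o‖) : PvoDom μ f := by
  obtain ⟨a, ha, h1⟩ := hg
  exact ⟨a, ha, fun o => (h o).trans (h1 o)⟩

theorem PvoDom.of_le {μ : Measure Ω} {f : Ω → ℂ} {g : Ω → ℝ} (hg : Integrable g μ) (h : ∀ o, ‖f o‖ ≤ g o) : PvoDom μ f := ⟨g, hg, h⟩

theorem PvoDom.of_integrable {μ : Measure Ω} {f : Ω → ℂ} (hf : Integrable f μ) : PvoDom μ f := ⟨fun o => ‖f o‖, hf.norm, fun _ => le_rfl⟩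

theorem PvoDom.of_bound {μ : Measure Ω} [IsFiniteMeasure μ] {f : Ω → ℂ} (C : ℝ) (h : ∀ o, ‖f o‖ ≤ C) : PvoDom μ f :=
  ⟨fun _ => C, integrable_const C, h⟩

theorem PvoDom.add {μ : Measure Ω} {f g : Ω → ℂ} (hf : PvoDom μ f) (hg : PvoDom μ g) : PvoDom μ fun o => f o + g o := by
  obtain ⟨a, ha, h1⟩ := hf
  obtain ⟨b, hb, h2⟩ := hg
  exact ⟨a + b, ha.add hb, fun o => (norm_add_le _ _).trans (add_le_add (h1 o) (h2 o))⟩

theorem PvoDom.neg {μ : Measure Ω} {f : Ω → ℂ} (hf : PvoDom μ f) : PvoDom μ fun o => -f o :=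
  hf.mono fun o => by rw [norm_neg]

theorem PvoDom.sub {μ : Measure Ω} {f g : Ω → ℂ} (hf : PvoDom μ f) (hg : PvoDom μ g) : PvoDom μ fun o => f o - g o := by
  simpa only [sub_eq_add_neg] using hf.add hg.neg

theorem PvoDom.const_mul {μ : Measure Ω} {f : Ω → ℂ} (c : ℂ) (hf : PvoDom μ f) : PvoDom μ fun o => c * f o := by
  obtain ⟨a, ha, h1⟩ := hf
  refine ⟨fun o => ‖c‖ * a o, ha.const_mul _, fun o => ?_⟩
  rw [norm_mul]
  exact mul_le_mul_of_nonneg_left (h1 o) (norm_nonneg c)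

/-- product with a bounded function -/
theorem PvoDom.bdd_mul {μ : Measure Ω} {f u : Ω → ℂ} (C : ℝ) (hu : ∀ o, ‖u o‖ ≤ C) (hf : PvoDom μ f) : PvoDom μ fun o => u o * f o := by
  obtain ⟨a, ha, h1⟩ := hf
  refine ⟨fun o => C * a o, ha.const_mul _, fun o => ?_⟩
  rw [norm_mul]
  exact mul_le_mul (hu o) (h1 o) (norm_nonneg _) ((norm_nonneg _).trans (hu o))

theorem PvoDom.conj {μ : Measure Ω} {f : Ω → ℂ} (hf : PvoDom μ f) : PvoDom μ fun o => (starRingEnd ℂ) (f o) :=
  hf.mono fun o => (RCLike.norm_conj _).le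

theorem PvoDom.sum {μ : Measure Ω} {ι : Type} (s : Finset ι) {f : ι → Ω → ℂ} (h : ∀ i ∈ s, PvoDom μ (f i)) : PvoDom μ fun o => ∑ i ∈ s, f i o := by
  classical
  induction s using Finset.induction_on with
  | empty => exact ⟨0, integrable_zero _ _ _, fun o => by simp⟩
  | insert a s ha ih =>
    simp only [Finset.sum_insert ha]
    exact (h a (Finset.mem_insert_self a s)).add (ih fun i hi => h i (Finset.mem_insert_of_mem hi))

/-! ## 6. THE API OF THE MEAN -/

theorem pvom_add {μ : Measure Ω} {f g : Ω → ℂ} (hf : PvoDom μ f) (hg : PvoDom μ g) :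
    pvoMean μ (fun o => f o + g o) = pvoMean μ f + pvoMean μ g := by
  apply Complex.ext
  · show pvomR μ (fun o => (f o + g o).re) = pvomR μ (fun o => (f o).re) + pvomR μ (fun o => (g o).re)
    simp only [Complex.add_re]
    exact pvom_R_add hf.re hg.re
  · show pvomR μ (fun o => (f o + g o).im) = pvomR μ (fun o => (f o).im) + pvomR μ (fun o => (g o).im)
    simp only [Complex.add_im]
    exact pvom_R_add hf.im hg.im

theorem pvom_const_mul {μ : Measure Ω} {f : Ω → ℂ} (c : ℂ) (hf : PvoDom μ f) : pvoMean μ (fun o => c * f o) = c * pvoMean μ f := by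
  have hs : ∀ (a : ℝ) {u : Ω → ℝ}, PvomDomR μ u → PvomDomR μ (fun o => a * u o) := fun a u hu => hu.smul a
  apply Complex.ext
  · show pvomR μ (fun o => (c * f o).re) = c.re * pvomR μ (fun o => (f o).re) - c.im * pvomR μ (fun o => (f o).im)
    have h1 : (fun o => (c * f o).re) = fun o => c.re * (f o).re + (-c.im) * (f o).im := by
      funext o
      rw [Complex.mul_re]
      ring
    rw [h1, pvom_R_add (hs _ hf.re) (hs _ hf.im), pvom_R_smul _ hf.re, pvom_R_smul _ hf.im]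
    ring
  · show pvomR μ (fun o => (c * f o).im) = c.re * pvomR μ (fun o => (f o).im) + c.im * pvomR μ (fun o => (f o).re)
    have h1 : (fun o => (c * f o).im) = fun o => c.re * (f o).im + c.im * (f o).re := by
      funext o
      rw [Complex.mul_im]
    rw [h1, pvom_R_add (hs _ hf.im) (hs _ hf.re), pvom_R_smul _ hf.im, pvom_R_smul _ hf.re]

theorem pvom_neg {μ : Measure Ω} {f : Ω → ℂ} (hf : PvoDom μ f) : pvoMean μ (fun o => -f o) = -pvoMean μ f := by
  have := pvom_const_mul (-1) hf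
  simpa using this

theorem pvom_sub {μ : Measure Ω} {f g : Ω → ℂ} (hf : PvoDom μ f) (hg : PvoDom μ g) :
    pvoMean μ (fun o => f o - g o) = pvoMean μ f - pvoMean μ g := by
  simp only [sub_eq_add_neg]
  rw [pvom_add hf hg.neg, pvom_neg hg]

theorem pvom_zero (μ : Measure Ω) : pvoMean μ (fun _ => 0) = 0 := by
  have h0 : PvoDom μ (fun _ => (0 : ℂ)) := ⟨0, integrable_zero _ _ _, fun o => by simp⟩
  have := pvom_const_mul (μ := μ) (f := fun _ => (0 : ℂ)) 0 h0
  simpa using this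

theorem pvom_sum {μ : Measure Ω} {ι : Type} (s : Finset ι) {f : ι → Ω → ℂ} (h : ∀ i ∈ s, PvoDom μ (f i)) :
    pvoMean μ (fun o => ∑ i ∈ s, f i o) = ∑ i ∈ s, pvoMean μ (f i) := by
  classical
  induction s using Finset.induction_on with
  | empty => simpa using pvom_zero μ
  | insert a s ha ih =>
    simp only [Finset.sum_insert ha]
    rw [pvom_add (h a (Finset.mem_insert_self a s)) (PvoDom.sum s fun i hi => h i (Finset.mem_insert_of_mem hi)),
      ih fun i hi => h i (Finset.mem_insert_of_mem hi)]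

/-- **the majorant bound** -/
theorem pvom_norm_le {μ : Measure Ω} {f : Ω → ℂ} {g : Ω → ℝ} (hg : Integrable g μ) (h : ∀ o, ‖f o‖ ≤ g o) : ‖pvoMean μ f‖ ≤ ∫ o, g o ∂μ := by
  have hf : PvoDom μ f := ⟨g, hg, h⟩
  by_cases hz : pvoMean μ f = 0
  · rw [hz, norm_zero]
    exact integral_nonneg fun o => (norm_nonneg _).trans (h o)
  · have hn : (‖pvoMean μ f‖ : ℂ) ≠ 0 := by
      rw [Ne, Complex.ofReal_eq_zero, norm_eq_zero]; exact hz
    set θ : ℂ := (starRingEnd ℂ) (pvoMean μ f) / (‖pvoMean μ f‖ : ℂ) with hθ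
    have hθn : ‖θ‖ = 1 := by
      rw [hθ, norm_div, RCLike.norm_conj, Complex.norm_real, norm_norm, div_self]
      rwa [Ne, norm_eq_zero]
    have h1 : θ * pvoMean μ f = (‖pvoMean μ f‖ : ℂ) := by
      rw [hθ, div_mul_eq_mul_div, mul_comm, Complex.mul_conj, Complex.normSq_eq_norm_sq]
      push_cast
      field_simp
    have h2 := pvom_const_mul θ hf
    rw [h1] at h2
    have h3 : (pvoMean μ fun o => θ * f o).re = ‖pvoMean μ f‖ := by rw [h2, Complex.ofReal_re]
    rw [← h3]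
    show pvomR μ (fun o => (θ * f o).re) ≤ _
    refine pvom_R_le (hf.const_mul θ).re hg fun o => ?_
    calc (θ * f o).re ≤ ‖θ * f o‖ := Complex.re_le_norm _
      _ = ‖f o‖ := by rw [norm_mul, hθn, one_mul]
      _ ≤ g o := h o

/-- the mean extends the integral -/
theorem pvom_integral {μ : Measure Ω} {f : Ω → ℂ} (hf : Integrable f μ) : pvoMean μ f = ∫ o, f o ∂μ := by
  apply Complex.ext
  · show pvomR μ (fun o => (f o).re) = _
    have hre : Integrable (fun o => (f o).re) μ := hf.re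
    rw [pvom_R_integral hre]
    exact Complex.reCLM.integral_comp_comm hf
  · show pvomR μ (fun o => (f o).im) = _
    have him : Integrable (fun o => (f o).im) μ := hf.im
    rw [pvom_R_integral him]
    exact Complex.imCLM.integral_comp_comm hf

theorem pvom_const (μ : Measure Ω) [IsProbabilityMeasure μ] (c : ℂ) : pvoMean μ (fun _ => c) = c := by
  rw [pvom_integral (integrable_const c)]
  simp

theorem pvom_R_neg (μ : Measure Ω) (f : Ω → ℝ) : pvomR μ (fun o => -f o) = -pvomR μ f := by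
  by_cases hf : PvomDomR μ f
  · have := pvom_R_smul (-1) hf
    simpa using this
  · have hf' : ¬ PvomDomR μ (fun o => -f o) := by
      rintro ⟨g, hg, h⟩
      exact hf ⟨g, hg, fun o => by simpa using h o⟩
    unfold pvomR
    rw [dif_neg hf, dif_neg hf', neg_zero]

theorem pvom_conj (μ : Measure Ω) (f : Ω → ℂ) : pvoMean μ (fun o => (starRingEnd ℂ) (f o)) = (starRingEnd ℂ) (pvoMean μ f) := by
  apply Complex.ext
  · rw [Complex.conj_re]
    show pvomR μ (fun o => ((starRingEnd ℂ) (f o)).re) = pvomR μ (fun o => (f o).re)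
    simp only [Complex.conj_re]
  · rw [Complex.conj_im]
    show pvomR μ (fun o => ((starRingEnd ℂ) (f o)).im) = -pvomR μ (fun o => (f o).im)
    simp only [Complex.conj_im]
    exact pvom_R_neg μ _

/-- the mean of a real function is real -/
theorem pvom_ofReal (μ : Measure Ω) (f : Ω → ℝ) : pvoMean μ (fun o => (f o : ℂ)) = (pvomR μ f : ℂ) := by
  apply Complex.ext
  · rw [Complex.ofReal_re]
    show pvomR μ (fun o => ((f o : ℂ)).re) = pvomR μ f
    simp only [Complex.ofReal_re]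
  · rw [Complex.ofReal_im]
    show pvomR μ (fun o => ((f o : ℂ)).im) = 0
    simp only [Complex.ofReal_im]
    have h0 : Integrable (fun _ : Ω => (0 : ℝ)) μ := integrable_zero _ _ _
    rw [pvom_R_integral h0]
    simp

theorem pvom_norm_le_one {μ : Measure Ω} [IsProbabilityMeasure μ] {f : Ω → ℂ} (h : ∀ o, ‖f o‖ ≤ 1) : ‖pvoMean μ f‖ ≤ 1 := by
  have := pvom_norm_le (μ := μ) (integrable_const (1 : ℝ)) h
  simpa using this

/-- majorant in `lintegral` form -/
theorem pvom_norm_le_lintegral {μ : Measure Ω} {f : Ω → ℂ} {g : Ω → ℝ} (hg : Measurable g) (h : ∀ o, ‖f o‖ ≤ g o)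
    (hfin : ∫⁻ o, ENNReal.ofReal (g o) ∂μ ≠ ⊤) : ‖pvoMean μ f‖ ≤ (∫⁻ o, ENNReal.ofReal (g o) ∂μ).toReal := by
  have h0 : ∀ o, 0 ≤ g o := fun o => (norm_nonneg _).trans (h o)
  have hint : Integrable g μ :=
    ⟨hg.aestronglyMeasurable, (hasFiniteIntegral_iff_ofReal (ae_of_all _ h0)).2 (lt_top_iff_ne_top.2 hfin)⟩
  rw [← integral_eq_lintegral_of_nonneg_ae (ae_of_all _ h0) hg.aestronglyMeasurable]
  exact pvom_norm_le hint h

/-- means of functions with majorants tending to `0` in `L¹` tend to `0` -/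
theorem pvom_tendsto_zero {μ : ℕ → Measure Ω} {f : ℕ → Ω → ℂ} {g : ℕ → Ω → ℝ} (hg : ∀ k, Measurable (g k)) (h : ∀ k o, ‖f k o‖ ≤ g k o)
    (hlim : Tendsto (fun k => ∫⁻ o, ENNReal.ofReal (g k o) ∂μ k) atTop (𝓝 0)) : Tendsto (fun k => pvoMean (μ k) (f k)) atTop (𝓝 0) := by
  have h1 : ∀ᶠ k in atTop, ∫⁻ o, ENNReal.ofReal (g k o) ∂μ k < ⊤ := hlim.eventually (gt_mem_nhds ENNReal.zero_lt_top)
  have h2 : Tendsto (fun k => (∫⁻ o, ENNReal.ofReal (g k o) ∂μ k).toReal) atTop (𝓝 0) := by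
    have := (ENNReal.tendsto_toReal ENNReal.zero_ne_top).comp hlim
    rw [ENNReal.toReal_zero] at this
    exact this
  refine squeeze_zero_norm' ?_ h2
  filter_upwards [h1] with k hk
  exact pvom_norm_le_lintegral (hg k) (h k) hk.ne

/-! ## 7. `ENNReal`-valued majorants (helper7): the majorant may be `⊤` on a null set; no real majorant is asked -/

/-- the real mean against an `ENNReal`-valued measurable majorant (which may take the value `⊤`): NO real majorant is asked.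
If `r` is not dominated the mean is `0` by definition; if `|r| ≤ G` with `G` integrable, `min G u` is an integrable majorant. -/
theorem pvom_R_abs_le_enn {μ : Measure Ω} {r : Ω → ℝ} {u : Ω → ENNReal} (hu : Measurable u) (h : ∀ o, ‖r o‖ₑ ≤ u o)
    (hfin : ∫⁻ o, u o ∂μ ≠ ⊤) : |pvomR μ r| ≤ (∫⁻ o, u o ∂μ).toReal := by
  by_cases hd : PvomDomR μ r
  · obtain ⟨G, hG, hrG⟩ := hd
    have hd : PvomDomR μ r := ⟨G, hG, hrG⟩
    set M : Ω → ℝ := fun o => (min (ENNReal.ofReal (G o)) (u o)).toReal with hM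
    have hG0 : ∀ o, 0 ≤ G o := fun o => (abs_nonneg _).trans (hrG o)
    have hMle : ∀ o, M o ≤ G o := fun o => by
      have h1 : min (ENNReal.ofReal (G o)) (u o) ≤ ENNReal.ofReal (G o) := min_le_left _ _
      have := ENNReal.toReal_mono ENNReal.ofReal_ne_top h1
      rwa [ENNReal.toReal_ofReal (hG0 o)] at this
    have hM0 : ∀ o, 0 ≤ M o := fun o => ENNReal.toReal_nonneg
    have hMm : AEStronglyMeasurable M μ := by
      have h1 : AEMeasurable (fun o => min (ENNReal.ofReal (G o)) (u o)) μ :=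
        (hG.aestronglyMeasurable.aemeasurable.ennreal_ofReal).min hu.aemeasurable
      exact h1.ennreal_toReal.aestronglyMeasurable
    have hMi : Integrable M μ := hG.mono' hMm (ae_of_all _ fun o => by
      rw [Real.norm_eq_abs, abs_of_nonneg (hM0 o)]; exact hMle o)
    have hrM : ∀ o, |r o| ≤ M o := fun o => by
      have h1 : ENNReal.ofReal |r o| ≤ min (ENNReal.ofReal (G o)) (u o) := by
        refine le_min (ENNReal.ofReal_le_ofReal (hrG o)) ?_
        have := h o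
        rwa [Real.enorm_eq_ofReal_abs] at this
      have h2 : min (ENNReal.ofReal (G o)) (u o) ≠ ⊤ := ne_top_of_le_ne_top ENNReal.ofReal_ne_top (min_le_left _ _)
      have := ENNReal.toReal_mono h2 h1
      rwa [ENNReal.toReal_ofReal (abs_nonneg _)] at this
    have hint : ∫ o, M o ∂μ ≤ (∫⁻ o, u o ∂μ).toReal := by
      rw [integral_eq_lintegral_of_nonneg_ae (ae_of_all _ hM0) hMm]
      refine ENNReal.toReal_mono hfin (lintegral_mono fun o => ?_)
      have h2 : min (ENNReal.ofReal (G o)) (u o) ≠ ⊤ := ne_top_of_le_ne_top ENNReal.ofReal_ne_top (min_le_left _ _)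
      rw [hM, ENNReal.ofReal_toReal h2]
      exact min_le_right _ _
    rw [abs_le]
    constructor
    · have h1 := pvom_R_ge hd hMi.neg fun o => neg_le.1 ((neg_le_abs _).trans (hrM o))
      have h2 : ∫ o, (-M) o ∂μ = -∫ o, M o ∂μ := integral_neg M
      rw [h2] at h1
      linarith
    · exact (pvom_R_le hd hMi fun o => (le_abs_self _).trans (hrM o)).trans hint
  · unfold pvomR
    rw [dif_neg hd, abs_zero]
    exact ENNReal.toReal_nonneg

/-- the mean against an `ENNReal`-valued measurable majorant -/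
theorem pvom_norm_le_enn {μ : Measure Ω} {f : Ω → ℂ} {u : Ω → ENNReal} (hu : Measurable u) (h : ∀ o, ‖f o‖ₑ ≤ u o)
    (hfin : ∫⁻ o, u o ∂μ ≠ ⊤) : ‖pvoMean μ f‖ ≤ 2 * (∫⁻ o, u o ∂μ).toReal := by
  have e : ∀ (a : ℝ) (z : ℂ), |a| ≤ ‖z‖ → ‖a‖ₑ ≤ ‖z‖ₑ := fun a z haz => by
    rw [Real.enorm_eq_ofReal_abs, ← ofReal_norm_eq_enorm]
    exact ENNReal.ofReal_le_ofReal haz
  have h1 := pvom_R_abs_le_enn (μ := μ) (r := fun o => (f o).re) hu (fun o => (e _ _ (Complex.abs_re_le_norm _)).trans (h o)) hfin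
  have h2 := pvom_R_abs_le_enn (μ := μ) (r := fun o => (f o).im) hu (fun o => (e _ _ (Complex.abs_im_le_norm _)).trans (h o)) hfin
  have h3 : ‖pvoMean μ f‖ ≤ |(pvoMean μ f).re| + |(pvoMean μ f).im| := Complex.norm_le_abs_re_add_abs_im _
  have e1 : (pvoMean μ f).re = pvomR μ fun o => (f o).re := rfl
  have e2 : (pvoMean μ f).im = pvomR μ fun o => (f o).im := rfl
  rw [e1, e2] at h3
  linarith

/-- means of functions with `ENNReal`-valued measurable majorants (eventually in `k`, at all sample points) of mean `→ 0` tend to `0` -/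
theorem pvom_tendsto_zero_enn {μ : ℕ → Measure Ω} {f : ℕ → Ω → ℂ} {u : ℕ → Ω → ENNReal} (hu : ∀ k, Measurable (u k))
    (h : ∀ᶠ k in atTop, ∀ o, ‖f k o‖ₑ ≤ u k o) (hlim : Tendsto (fun k => ∫⁻ o, u k o ∂μ k) atTop (𝓝 0)) :
    Tendsto (fun k => pvoMean (μ k) (f k)) atTop (𝓝 0) := by
  have h1 : ∀ᶠ k in atTop, ∫⁻ o, u k o ∂μ k < ⊤ := hlim.eventually (gt_mem_nhds ENNReal.zero_lt_top)
  have h2 : Tendsto (fun k => 2 * (∫⁻ o, u k o ∂μ k).toReal) atTop (𝓝 0) := by
    have := ((ENNReal.tendsto_toReal ENNReal.zero_ne_top).comp hlim).const_mul 2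
    simpa using this
  refine squeeze_zero_norm' ?_ h2
  filter_upwards [h1, h] with k hk hk2
  exact pvom_norm_le_enn (hu k) hk2 hk.ne

end Claimed.Agent.R289
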