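-- KEEP
import Claimed.Agent.R289.Cx1
import Claimed.Agent.R289.Cx2
import Claimed.Agent.R289.Chart
import Claimed.Agent.R289.Weyl
import Claimed.Agent.R289.Obs.Cpt
import Claimed.Agent.R289.Obs.Mean

/-!
# Row 289 (S0537, Cardy for Poisson-Voronoi), unit OBS, file Obs/Abs: THE MODEL-FREE HALF OF SEC. 8      (architect helper174, deputy head of OBS; prefix `pvo_`, defs `Pvo*`, `pvo*`)

TEX: 08-observable.tex, Lemma 8.3 (probe compactness), Prop 8.4 (holomorphy), the end of Sec. 8.3 (identification of the crossing limit).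
Everything here is real analysis + measure theory on ONE sample space `Ω` with a sequence of probability measures `P k` (instance: `Ω = PvfBase`, `P k = pvfBaseLaw (ε k)`).      NO Voronoi, NO triangulation, NO colours.
MEASURABILITY (ruling 4 of 174): `E := pvoMean (P k)` is the Hahn-Banach mean of `Obs/Mean.lean`: NO measurability of `R`, `Fe`, `E`, `c`, `mid` is asked; only the MAJORANTS `q`, `T`, `G` are measurable.

## The data `S : PvoSys Ω`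
* `S.E k o : Finset S.Ed`  the bulk edges of the discrete disc,  `S.mid k o e` their midpoints,  `S.Fe k o e = F_e^η` the quenched observable;
* `S.c f k o e = d_{t,e} (f(z_t) - f(z_t'))` the weight of the edge for the test function `f : ℂ → ℝ`;
* `S.R k p o = F^η` at the canonical probe near `p ∈ X = closure D \ {a, c, d}` (bulk edge for `p ∈ D`, fan probe for `p` on an open boundary arc);   `S.Phi k p = E R k p`.

## The hypotheses (= contract of the INSTANCE, file Obs/Inst)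
* `PvoArm S X`     bounds, measurability, and ARM: near every `p ∈ X` ALL probes differ from the representative by at most `q`, `E q` small (`q = 4 q_arm + 2 · 1_bad`).   No rate is needed.
* `PvoCR S κ f`    for each test function: VAR (second moment of the variation in a ball `≤ C r⁴`), OUT (no variation away from `supp f`), LIM (`μ_k(χ) → κ ∫ χ (f_x + i f_y)` in `L¹`, SMOOTH `χ` only), CR (`E ∑ c_e F_e → 0` = (8.3)).
* `PvoBd …`        side lines, coefficient of `w1` at `b` = crossing probability `pc k`.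

## The chain
O1 `pvo_ascoli`, `pvo_cpt`  (Lemma 8.3)     O2 `pvo_hol` (Prop 8.4: `∫ F (f_x + i f_y) = 0`)      O3 `pvo_main`: `pc k → cardyF (ψ b).re`  (Weyl = `pvweyl_main` of helper45; `pvcy_transfer`, `PvcyUniq` of CX2 / CX1).
MIRROR (211, ruling of 161): the transport constant `a` is arbitrary.   `a ≠ 1`: CR for `F`;   `a = 1`: CR for `conj F` = the system `S.conj`, then `conj F` is holomorphic with the mirrored side lines: impossible (`pvo_mirror` ⟸ `pvcx_mirror_tri`).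

## PROOF OF O2 (differs from the paper: a smooth partition of unity replaces the indicators of squares; (8.5) is not needed)
`K = tsupport f`, `3 r₀ = dist(K, Dᶜ)`, `K₁ = cthickening r₀ K ⊆ D` compact.   Fix `η`.   ARM + Lebesgue number on `K₁`: `δ > 0` such that every `x ∈ K₁` has `q^x` (`= 2 q^p`, `ball x δ ⊆ ball p s(p)`) with `|Fe e - R k x| ≤ q^x` on `ball x δ`, eventually `E q^x ≤ 2η`.
Grid: `θ(t) = σ(t+1) - σ(t)`, `σ = Real.smoothTransition`;   `χ_j(z) = θ(x/s - j₁) θ(y/s - j₂)`, `p_j = s j`;   `supp χ_j ⊆ ball p_j (2s)`;   `∑_{j ∈ Q(z)} χ_j(z) = 1`, `Q(z)` = the four corners.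
`J = {j : infDist p_j K < r₀}` (finite, `#J ≤ C_K / s²`),  `χ_out = 1 - ∑_{j ∈ J} χ_j ∈ [0,1]`, `= 0` where `infDist z K < r₀ - 2s`.
`∑_e c_e F_e = ∑_{j ∈ J} [R_{p_j} μ(χ_j) + ∑_e c_e χ_j(m_e)(F_e - R_{p_j})] + ∑_e c_e χ_out(m_e) F_e`.
  third term: `≤ T_out(r₀/2)`, mean `→ 0`;      second: `E ≤ E[T_j q_j] ≤ ‖T_j‖₂ ‖q_j‖₂ ≤ (C (2s)⁴)^{1/2} (2 · 2η)^{1/2}`, sum over `J`: `≤ C' η^{1/2}`;
  first: `E[R_{p_j} μ_k(χ_j)] = Phi k p_j · κ ∫ χ_j h + O(E|μ_k(χ_j) - κ ∫ χ_j h|) → F(p_j) κ ∫ χ_j h`.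
Hence `|κ| |∑_{j ∈ J} F(p_j) ∫ χ_j h| ≤ C' η^{1/2}` for all small `s`;   `∑_j F(p_j) ∫ χ_j h → ∫ F h` as `s → 0` (uniform continuity of `F` on `K₁`, `∑_{j∈J} χ_j = 1` on `K`).
-/

set_option autoImplicit false

namespace Claimed.Agent.R289

open MeasureTheory Filter Topology Set Complex
open Claims Claims.C0465
open scoped ContDiff ENNReal

/-! ## 0. vocabulary -/

/-- `2 ∂̄ f = f_x + i f_y` of a real test function -/
noncomputable def pvoH (f : ℂ → ℝ) (z : ℂ) : ℂ := ((fderiv ℝ f z 1 : ℝ) : ℂ) + I * ((fderiv ℝ f z I : ℝ) : ℂ)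

/-- Weyl's lemma in the form of helper45 (`pvweyl_main`, R289/Weyl.lean) -/
def PvoWeyl : Prop :=
  ∀ U : Set ℂ, IsOpen U → ∀ F : ℂ → ℂ, ContinuousOn F U →
    (∀ f : ℂ → ℝ, ContDiff ℝ ∞ f → HasCompactSupport f → tsupport f ⊆ U → ∫ z, F z * pvoH f z = 0) → DifferentiableOn ℂ F U

/-- the model-free data of Sec. 8 -/
structure PvoSys (Ω : Type) [MeasurableSpace Ω] where
  /-- the laws -/
  P : ℕ → Measure Ω
  /-- names of the edges -/
  Ed : Type
  /-- the bulk edges of the discrete disc -/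
  E : ℕ → Ω → Finset Ed
  /-- midpoints -/
  mid : ℕ → Ω → Ed → ℂ
  /-- the quenched observable on the edges -/
  Fe : ℕ → Ω → Ed → ℂ
  /-- the weights `d_{t,e} (f(z_t) - f(z_t'))` -/
  c : (ℂ → ℝ) → ℕ → Ω → Ed → ℂ
  /-- the quenched observable at the canonical probe near a point -/
  R : ℕ → ℂ → Ω → ℂ

namespace PvoSys

variable {Ω : Type} [MeasurableSpace Ω] (S : PvoSys Ω)

/-- passage to a subsequence -/
def sub (ns : ℕ → ℕ) : PvoSys Ω where
  P := fun k => S.P (ns k)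
  Ed := S.Ed
  E := fun k => S.E (ns k)
  mid := fun k => S.mid (ns k)
  Fe := fun k => S.Fe (ns k)
  c := fun f k => S.c f (ns k)
  R := fun k => S.R (ns k)

/-- the conjugate observable (mirror trick of helper211, ruling X3-X4 of helper161) -/
noncomputable def conj : PvoSys Ω where
  P := S.P
  Ed := S.Ed
  E := S.E
  mid := S.mid
  Fe := fun k o e => (starRingEnd ℂ) (S.Fe k o e)
  c := S.c
  R := fun k p o => (starRingEnd ℂ) (S.R k p o)

/-- `∑_e c_e χ(m_e) F_e` -/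
noncomputable def sumF (f : ℂ → ℝ) (χ : ℂ → ℝ) (k : ℕ) (o : Ω) : ℂ :=
  ∑ e ∈ S.E k o, S.c f k o e * (χ (S.mid k o e) : ℂ) * S.Fe k o e

/-- `μ_k(χ) = ∑_e c_e χ(m_e)` -/
noncomputable def sum1 (f : ℂ → ℝ) (χ : ℂ → ℝ) (k : ℕ) (o : Ω) : ℂ :=
  ∑ e ∈ S.E k o, S.c f k o e * (χ (S.mid k o e) : ℂ)

open Classical in
/-- the variation `|μ_k|(A)` -/
noncomputable def tv (f : ℂ → ℝ) (A : Set ℂ) (k : ℕ) (o : Ω) : ℝ :=
  ∑ e ∈ (S.E k o).filter (fun e => S.mid k o e ∈ A), ‖S.c f k o e‖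

/-- the annealed observable -/
noncomputable def Phi (k : ℕ) (p : ℂ) : ℂ := pvoMean (S.P k) (S.R k p)

end PvoSys

theorem pvo_eqns_cite : True := by
  have := @pvoH.eq_1
  have := @PvoWeyl.eq_1
  have := @PvoSys.sub.eq_1
  have := @PvoSys.conj.eq_1
  have := @PvoSys.sumF.eq_1
  have := @PvoSys.sum1.eq_1
  have := @PvoSys.tv.eq_1
  have := @PvoSys.Phi.eq_1
  trivial

variable {Ω : Type} [MeasurableSpace Ω]

/-- **ARM**: bounds, measurability, and the arm modulus (8.2), for representatives and for edges -/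
structure PvoArm (S : PvoSys Ω) (X : Set ℂ) : Prop where
  prob : ∀ k, IsProbabilityMeasure (S.P k)
  bddR : ∀ k p o, ‖S.R k p o‖ ≤ 1
  bddF : ∀ k o, ∀ e ∈ S.E k o, ‖S.Fe k o e‖ ≤ 1
  arm : ∀ p ∈ X, ∀ η : ℝ, 0 < η → ∃ s : ℝ, 0 < s ∧ ∃ q : ℕ → Ω → ℝ, (∀ k, Measurable (q k)) ∧ (∀ k o, 0 ≤ q k o ∧ q k o ≤ 2) ∧
    (∀ᶠ k in atTop, ∫ o, q k o ∂S.P k ≤ η) ∧
    (∀ k o, ∀ p' ∈ X, ‖p' - p‖ < s → ‖S.R k p' o - S.R k p o‖ ≤ q k o) ∧
    (∀ k o, ∀ e ∈ S.E k o, ‖S.mid k o e - p‖ < s → ‖S.Fe k o e - S.R k p o‖ ≤ q k o)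

/-- **the discrete Cauchy-Riemann package of one test function** -/
structure PvoCR (S : PvoSys Ω) (κ : ℂ) (f : ℂ → ℝ) : Prop where
  /-- (8.4) -/
  var : ∃ C : ℝ, ∀ (p : ℂ) (r : ℝ), 0 < r → r ≤ 1 → ∃ T : ℕ → Ω → ℝ, (∀ k, Measurable (T k)) ∧
    (∀ k o, S.tv f (Metric.ball p r) k o ≤ T k o) ∧
    ∀ᶠ k in atTop, ∫⁻ o, ENNReal.ofReal (T k o ^ 2) ∂S.P k ≤ ENNReal.ofReal (C * r ^ 4)
  /-- omitted geometry -/
  out : ∀ r : ℝ, 0 < r → ∃ T : ℕ → Ω → ℝ, (∀ k, Measurable (T k)) ∧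
    (∀ k o, S.tv f {z | r ≤ Metric.infDist z (tsupport f)} k o ≤ T k o) ∧
    Tendsto (fun k => ∫⁻ o, ENNReal.ofReal (T k o) ∂S.P k) atTop (𝓝 0)
  /-- `μ_ε(G) → ∫ G df ∧ dz` in `L¹` -/
  lim : ∀ χ : ℂ → ℝ, ContDiff ℝ ∞ χ → HasCompactSupport χ → ∃ G : ℕ → Ω → ℝ, (∀ k, Measurable (G k)) ∧
    (∀ k o, ‖S.sum1 f χ k o - κ * ∫ z, (χ z : ℂ) * pvoH f z‖ ≤ G k o) ∧
    Tendsto (fun k => ∫⁻ o, ENNReal.ofReal (G k o) ∂S.P k) atTop (𝓝 0)
  /-- (8.3) -/
  cr : Tendsto (fun k => pvoMean (S.P k) (S.sumF f (fun _ => 1) k)) atTop (𝓝 0)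

/-- the CR package for all LOCAL tests: support in `ball x R` with `closedBall x (6 R) ⊆ D` (shape of LM.9 of helper7 / exit `l9_cr` of helper161; holomorphy is local, `pvo_weyl_local`) -/
def PvoCRAll (S : PvoSys Ω) (κ : ℂ) (D : Set ℂ) : Prop :=
  ∀ (x : ℂ) (R : ℝ), 0 < R → Metric.closedBall x (6 * R) ⊆ D →
    ∀ f : ℂ → ℝ, ContDiff ℝ ∞ f → HasCompactSupport f → tsupport f ⊆ Metric.ball x R → PvoCR S κ f

/-- **boundary values**: side lines on the three open arcs, crossing coefficient at `b` -/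
structure PvoBd (S : PvoSys Ω) (D : Set ℂ) (d : ℂ) (ψ : ℂ → ℂ) (w0 w1 b : ℂ) (pc : ℕ → ℝ) : Prop where
  s01 : ∀ z ∈ frontier D, z ≠ d → 0 < (ψ z).re → (ψ z).re < 1 →
    ∃ t : ℕ → ℝ, Tendsto (fun k => S.Phi k z - (w0 + t k * (w1 - w0))) atTop (𝓝 0)
  s1 : ∀ z ∈ frontier D, z ≠ d → 1 < (ψ z).re →
    ∃ t : ℕ → ℝ, Tendsto (fun k => S.Phi k z - (w1 + t k * ((w1 - w0) * exp (2 * Real.pi * I / 3)))) atTop (𝓝 0)
  s0 : ∀ z ∈ frontier D, z ≠ d → (ψ z).re < 0 →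
    ∃ t : ℕ → ℝ, Tendsto (fun k => S.Phi k z - (w0 + t k * ((w1 - w0) * exp (Real.pi * I / 3)))) atTop (𝓝 0)
  coef : Tendsto (fun k => S.Phi k b - (w0 + pc k * (w1 - w0))) atTop (𝓝 0)

/-! ## 1. stability under subsequences -/

theorem PvoArm.sub {S : PvoSys Ω} {X : Set ℂ} (h : PvoArm S X) {ns : ℕ → ℕ} (hns : Tendsto ns atTop atTop) : PvoArm (S.sub ns) X := by
  refine ⟨fun k => h.prob (ns k), fun k p o => h.bddR (ns k) p o,
    fun k o e he => h.bddF (ns k) o e he, fun p hp η hη => ?_⟩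
  obtain ⟨s, hs, q, h1, h2, h3, h4, h5⟩ := h.arm p hp η hη
  exact ⟨s, hs, fun k => q (ns k), fun k => h1 _, fun k o => h2 _ o, hns.eventually h3, fun k o => h4 _ o, fun k o => h5 _ o⟩

theorem PvoCR.sub {S : PvoSys Ω} {κ : ℂ} {f : ℂ → ℝ} (h : PvoCR S κ f) {ns : ℕ → ℕ} (hns : Tendsto ns atTop atTop) : PvoCR (S.sub ns) κ f := by
  refine ⟨?_, fun r hr => ?_, fun χ h1 h2 => ?_, h.cr.comp hns⟩
  · obtain ⟨C, hC⟩ := h.var
    refine ⟨C, fun p r hr hr1 => ?_⟩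
    obtain ⟨T, h1, h2, h3⟩ := hC p r hr hr1
    exact ⟨fun k => T (ns k), fun k => h1 _, fun k o => h2 _ o, hns.eventually h3⟩
  · obtain ⟨T, h1, h2, h3⟩ := h.out r hr
    exact ⟨fun k => T (ns k), fun k => h1 _, fun k o => h2 _ o, h3.comp hns⟩
  · obtain ⟨G, g1, g2, g3⟩ := h.lim χ h1 h2
    exact ⟨fun k => G (ns k), fun k => g1 _, fun k o => g2 _ o, g3.comp hns⟩

theorem PvoCRAll.sub {S : PvoSys Ω} {κ : ℂ} {D : Set ℂ} (h : PvoCRAll S κ D) {ns : ℕ → ℕ} (hns : Tendsto ns atTop atTop) :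
    PvoCRAll (S.sub ns) κ D := fun x R hR hx f h1 h2 h3 => (h x R hR hx f h1 h2 h3).sub hns

theorem PvoBd.sub {S : PvoSys Ω} {D : Set ℂ} {d : ℂ} {ψ : ℂ → ℂ} {w0 w1 b : ℂ} {pc : ℕ → ℝ} (h : PvoBd S D d ψ w0 w1 b pc) {ns : ℕ → ℕ}
    (hns : Tendsto ns atTop atTop) : PvoBd (S.sub ns) D d ψ w0 w1 b (pc ∘ ns) := by
  refine ⟨fun z hz hzd h0 h1 => ?_, fun z hz hzd h1 => ?_, fun z hz hzd h0 => ?_, h.coef.comp hns⟩
  · obtain ⟨t, ht⟩ := h.s01 z hz hzd h0 h1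
    exact ⟨t ∘ ns, ht.comp hns⟩
  · obtain ⟨t, ht⟩ := h.s1 z hz hzd h1
    exact ⟨t ∘ ns, ht.comp hns⟩
  · obtain ⟨t, ht⟩ := h.s0 z hz hzd h0
    exact ⟨t ∘ ns, ht.comp hns⟩

theorem PvoArm.conj {S : PvoSys Ω} {X : Set ℂ} (h : PvoArm S X) : PvoArm S.conj X := by
  have e : ∀ a b : ℂ, ‖(starRingEnd ℂ) a - (starRingEnd ℂ) b‖ = ‖a - b‖ := fun a b => by
    rw [← map_sub, RCLike.norm_conj]
  refine ⟨h.prob, fun k p o => (RCLike.norm_conj _).trans_le (h.bddR k p o), fun k o e he => (RCLike.norm_conj _).trans_le (h.bddF k o e he),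
    fun p hp η hη => ?_⟩
  obtain ⟨s, hs, q, h1, h2, h3, h4, h5⟩ := h.arm p hp η hη
  exact ⟨s, hs, q, h1, h2, h3, fun k o p' hp' hpp => (e _ _).trans_le (h4 k o p' hp' hpp),
    fun k o e' he' hm => (e _ _).trans_le (h5 k o e' he' hm)⟩

theorem pvo_Phi_conj (S : PvoSys Ω) (k : ℕ) (p : ℂ) : S.conj.Phi k p = (starRingEnd ℂ) (S.Phi k p) := by
  exact pvom_conj _ _

/-! ## 2. O1: compactness -/

/-- **O1a (Arzela-Ascoli, asymptotic form).**   Countable dense `Q ⊆ X`; `k ↦ (Φ k q)_q` lives in the compact first countable product of closed unit discs (`isCompact_univ_pi`, `IsCompact.tendsto_subseq`);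
at `p ∈ X` the sequence `Φ (φ k) p` is Cauchy (3η argument with `q ∈ Q ∩ ball p s`); `F p` := its limit; continuity: pass to the limit in `heq`. -/
theorem pvo_ascoli {X : Set ℂ} (Φ : ℕ → ℂ → ℂ) (hb : ∀ k p, ‖Φ k p‖ ≤ 1)
    (heq : ∀ p ∈ X, ∀ η : ℝ, 0 < η → ∃ s : ℝ, 0 < s ∧ ∀ᶠ k in atTop, ∀ p' ∈ X, ‖p' - p‖ < s → ‖Φ k p' - Φ k p‖ ≤ η) :
    ∃ φ : ℕ → ℕ, StrictMono φ ∧ ∃ F : ℂ → ℂ, ContinuousOn F X ∧ (∀ p ∈ X, ‖F p‖ ≤ 1) ∧
      ∀ p ∈ X, Tendsto (fun k => Φ (φ k) p) atTop (𝓝 (F p)) := by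
  obtain ⟨φ, hφ, F, hF, hlim⟩ := pvoc_ascoli (X := X) (A := Φ) (M := 1) (fun k p _ => hb k p) (by
    simpa only [dist_eq_norm] using heq)
  exact ⟨φ, hφ, F, hF, fun p hp => le_of_tendsto (hlim p hp).norm (Eventually.of_forall fun k => hb _ _), hlim⟩

/-- O1b: the annealed observables are asymptotically equicontinuous (`‖E R' - E R‖ ≤ E ‖R' - R‖ ≤ E q`) -/
theorem pvo_equi {S : PvoSys Ω} {X : Set ℂ} (h : PvoArm S X) :
    ∀ p ∈ X, ∀ η : ℝ, 0 < η → ∃ s : ℝ, 0 < s ∧ ∀ᶠ k in atTop, ∀ p' ∈ X, ‖p' - p‖ < s → ‖S.Phi k p' - S.Phi k p‖ ≤ η := by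
  intro p hp η hη
  obtain ⟨s, hs, q, q1, q2, q3, q4, -⟩ := h.arm p hp η hη
  refine ⟨s, hs, ?_⟩
  filter_upwards [q3] with k hk p' hp' hd
  have := h.prob k
  have iq : Integrable (q k) (S.P k) := Integrable.of_bound (q1 k).aestronglyMeasurable 2
    (Eventually.of_forall fun o => by
      rw [Real.norm_eq_abs, abs_of_nonneg (q2 k o).1]
      exact (q2 k o).2)
  unfold PvoSys.Phi
  rw [← pvom_sub (PvoDom.of_bound 1 fun o => h.bddR k p' o) (PvoDom.of_bound 1 fun o => h.bddR k p o)]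
  exact (pvom_norm_le iq fun o => q4 k o p' hp' hd).trans hk

theorem pvo_Phi_le {S : PvoSys Ω} {X : Set ℂ} (h : PvoArm S X) (k : ℕ) (p : ℂ) : ‖S.Phi k p‖ ≤ 1 := by
  have := h.prob k
  exact pvom_norm_le_one fun o => h.bddR k p o

/-- **O1 = Lemma 8.3** TEX[lemma:probe-compactness] -/
theorem pvo_cpt {S : PvoSys Ω} {X : Set ℂ} (h : PvoArm S X) :
    ∃ φ : ℕ → ℕ, StrictMono φ ∧ ∃ F : ℂ → ℂ, ContinuousOn F X ∧ (∀ p ∈ X, ‖F p‖ ≤ 1) ∧
      ∀ p ∈ X, Tendsto (fun k => S.Phi (φ k) p) atTop (𝓝 (F p)) :=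
  pvo_ascoli S.Phi (pvo_Phi_le h) (pvo_equi h)

/-! ## 3. O2: holomorphy -/

/-! ### proof of O2      (helper151; prefix `pvh_`): grid partition of unity with count, uniform ARM, pointwise split, `q T ≤ 2 λ q + T²/(2λ)`, key estimate, Riemann sum -/

/-- the grid point `δ (a + b i)` -/
noncomputable def pvhGrid (δ : ℝ) (p : ℤ × ℤ) : ℂ := ⟨δ * p.1, δ * p.2⟩

theorem pvh_eqns_cite : True := by
  have := @pvhGrid.eq_1
  trivial

theorem pvh_grid_near {δ : ℝ} (hδ : 0 < δ) (z : ℂ) : ∃ p : ℤ × ℤ, z ∈ Metric.ball (pvhGrid δ p) δ := by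
  refine ⟨(round (z.re / δ), round (z.im / δ)), ?_⟩
  rw [Metric.mem_ball, Complex.dist_eq]
  have h1 : |z.re - δ * round (z.re / δ)| ≤ δ / 2 := by
    have := abs_sub_round (z.re / δ)
    have e : z.re - δ * round (z.re / δ) = δ * (z.re / δ - round (z.re / δ)) := by field_simp
    rw [e, abs_mul, abs_of_pos hδ]
    nlinarith
  have h2 : |z.im - δ * round (z.im / δ)| ≤ δ / 2 := by
    have := abs_sub_round (z.im / δ)
    have e : z.im - δ * round (z.im / δ) = δ * (z.im / δ - round (z.im / δ)) := by field_simp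
    rw [e, abs_mul, abs_of_pos hδ]
    nlinarith
  have h3 : ‖z - pvhGrid δ (round (z.re / δ), round (z.im / δ))‖ ≤ |z.re - δ * round (z.re / δ)| + |z.im - δ * round (z.im / δ)| := by
    refine (Complex.norm_le_abs_re_add_abs_im _).trans (le_of_eq ?_)
    simp [pvhGrid]
  have h4 : ‖z - pvhGrid δ (round (z.re / δ), round (z.im / δ))‖ ^ 2 ≤ δ ^ 2 / 2 := by
    rw [Complex.sq_norm, Complex.normSq_apply]
    simp only [pvhGrid, Complex.sub_re, Complex.sub_im]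
    have a1 := abs_le.1 h1
    have a2 := abs_le.1 h2
    nlinarith [a1.1, a1.2, a2.1, a2.2]
  by_contra hc
  rw [not_lt] at hc
  nlinarith [norm_nonneg (z - pvhGrid δ (round (z.re / δ), round (z.im / δ)))]

/-- the smooth partition of unity of the plane subordinate to the balls `B(δ p, δ)` -/
theorem pvh_pou {δ : ℝ} (hδ : 0 < δ) : ∃ χ : ℤ × ℤ → ℂ → ℝ, (∀ p, ContDiff ℝ ∞ (χ p)) ∧ (∀ p, tsupport (χ p) ⊆ Metric.ball (pvhGrid δ p) δ) ∧
    (∀ p z, 0 ≤ χ p z) ∧ (∀ (S : Finset (ℤ × ℤ)) z, ∑ p ∈ S, χ p z ≤ 1) ∧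
    ∀ (S : Finset (ℤ × ℤ)) z, (∀ p, z ∈ Metric.ball (pvhGrid δ p) δ → p ∈ S) → ∑ p ∈ S, χ p z = 1 := by
  obtain ⟨f, hf⟩ := SmoothPartitionOfUnity.exists_isSubordinate (modelWithCornersSelf ℝ ℂ) (isClosed_univ : IsClosed (univ : Set ℂ))
    (fun p : ℤ × ℤ => Metric.ball (pvhGrid δ p) δ) (fun _ => Metric.isOpen_ball)
    (fun z _ => by obtain ⟨p, hp⟩ := pvh_grid_near hδ z; exact mem_iUnion.2 ⟨p, hp⟩)
  refine ⟨fun p => f p, fun p => (f p).contMDiff.contDiff, hf, fun p z => f.nonneg p z, fun S z => ?_, fun S z hS => ?_⟩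
  · have hfin : (Function.support fun p => f p z).Finite := f.locallyFinite.point_finite z
    have h1 : ∑ᶠ p, f p z = ∑ p ∈ S ∪ hfin.toFinset, f p z :=
      finsum_eq_sum_of_support_subset _ (by
        intro p hp
        rw [Finset.coe_union]
        exact Or.inr (by simpa using hp))
    calc ∑ p ∈ S, f p z ≤ ∑ p ∈ S ∪ hfin.toFinset, f p z :=
          Finset.sum_le_sum_of_subset_of_nonneg Finset.subset_union_left fun p _ _ => f.nonneg p z
      _ = ∑ᶠ p, f p z := h1.symm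
      _ ≤ 1 := f.sum_le_one z
  · have h1 : ∑ᶠ p, f p z = ∑ p ∈ S, f p z :=
      finsum_eq_sum_of_support_subset _ (by
        intro p hp
        exact hS p (hf p (subset_tsupport _ hp)))
    rw [← h1]
    exact f.sum_eq_one (mem_univ z)

/-- the finite set of grid balls which meet a bounded set, with its count -/
theorem pvh_idx_exists {K : Set ℂ} {R : ℝ} (hR : 0 ≤ R) (hK : K ⊆ Metric.closedBall 0 R) {δ : ℝ} (hδ : 0 < δ) (hδ1 : δ ≤ 1) :
    ∃ J : Finset (ℤ × ℤ), (∀ z ∈ K, ∀ p, z ∈ Metric.ball (pvhGrid δ p) δ → p ∈ J) ∧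
      (∀ p ∈ J, ∃ z ∈ K, z ∈ Metric.ball (pvhGrid δ p) δ) ∧ (J.card : ℝ) * δ ^ 2 ≤ (2 * R + 5) ^ 2 := by
  classical
  set M : ℤ := ⌈(R + 1) / δ⌉ with hM
  have hM0 : 0 ≤ M := Int.ceil_nonneg (by positivity)
  have hM1 : (M : ℝ) < (R + 1) / δ + 1 := Int.ceil_lt_add_one _
  have hM2 : (R + 1) / δ ≤ M := Int.le_ceil _
  refine ⟨((Finset.Icc (-M) M) ×ˢ (Finset.Icc (-M) M)).filter fun p => ∃ z ∈ K, z ∈ Metric.ball (pvhGrid δ p) δ, ?_, ?_, ?_⟩
  · intro z hz p hp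
    rw [Finset.mem_filter, Finset.mem_product, Finset.mem_Icc, Finset.mem_Icc]
    refine ⟨?_, z, hz, hp⟩
    have hzR : ‖z‖ ≤ R := by simpa using hK hz
    rw [Metric.mem_ball, Complex.dist_eq] at hp
    have hre : |δ * (p.1 : ℝ)| ≤ R + 1 := by
      have h1 : |(z - pvhGrid δ p).re| ≤ ‖z - pvhGrid δ p‖ := Complex.abs_re_le_norm _
      have h2 : |z.re| ≤ ‖z‖ := Complex.abs_re_le_norm _
      have e : δ * (p.1 : ℝ) = z.re - (z - pvhGrid δ p).re := by simp [pvhGrid]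
      rw [e]
      have := abs_sub (z.re) ((z - pvhGrid δ p).re)
      linarith
    have him : |δ * (p.2 : ℝ)| ≤ R + 1 := by
      have h1 : |(z - pvhGrid δ p).im| ≤ ‖z - pvhGrid δ p‖ := Complex.abs_im_le_norm _
      have h2 : |z.im| ≤ ‖z‖ := Complex.abs_im_le_norm _
      have e : δ * (p.2 : ℝ) = z.im - (z - pvhGrid δ p).im := by simp [pvhGrid]
      rw [e]
      have := abs_sub (z.im) ((z - pvhGrid δ p).im)
      linarith
    have key : ∀ a : ℤ, |δ * (a : ℝ)| ≤ R + 1 → -M ≤ a ∧ a ≤ M := by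
      intro a ha
      rw [abs_mul, abs_of_pos hδ] at ha
      have h3 : |(a : ℝ)| ≤ M := by
        refine le_trans ?_ hM2
        rw [le_div_iff₀ hδ]; linarith
      have h4 := abs_le.1 h3
      constructor
      · have : ((-M : ℤ) : ℝ) ≤ (a : ℝ) := by push_cast; exact h4.1
        exact_mod_cast this
      · exact_mod_cast h4.2
    exact ⟨key _ hre, key _ him⟩
  · intro p hp
    exact (Finset.mem_filter.1 hp).2
  · have h1 : ((((Finset.Icc (-M) M) ×ˢ (Finset.Icc (-M) M)).filter fun p => ∃ z ∈ K, z ∈ Metric.ball (pvhGrid δ p) δ).card : ℝ)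
        ≤ (2 * (M : ℝ) + 1) ^ 2 := by
      have h2 := Finset.card_filter_le ((Finset.Icc (-M) M) ×ˢ (Finset.Icc (-M) M)) fun p => ∃ z ∈ K, z ∈ Metric.ball (pvhGrid δ p) δ
      rw [Finset.card_product, Int.card_Icc] at h2
      have h3 : (((M + 1 - -M).toNat : ℕ) : ℝ) = 2 * (M : ℝ) + 1 := by
        have : (((M + 1 - -M).toNat : ℕ) : ℤ) = 2 * M + 1 := by
          rw [Int.toNat_of_nonneg (by omega)]; ring
        exact_mod_cast this
      calc _ ≤ (((M + 1 - -M).toNat * (M + 1 - -M).toNat : ℕ) : ℝ) := by exact_mod_cast h2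
        _ = (2 * (M : ℝ) + 1) ^ 2 := by push_cast; rw [h3]; ring
    have h4 : (2 * (M : ℝ) + 1) * δ ≤ 2 * R + 5 := by
      have : (M : ℝ) * δ < (R + 1) + δ := by
        have := mul_lt_mul_of_pos_right hM1 hδ
        rwa [add_mul, div_mul_cancel₀ _ hδ.ne', one_mul] at this
      nlinarith
    have h5 : 0 ≤ (2 * (M : ℝ) + 1) * δ := by
      have : (0 : ℝ) ≤ M := by exact_mod_cast hM0
      positivity
    calc _ ≤ (2 * (M : ℝ) + 1) ^ 2 * δ ^ 2 := mul_le_mul_of_nonneg_right h1 (sq_nonneg _)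
      _ = ((2 * (M : ℝ) + 1) * δ) ^ 2 := by ring
      _ ≤ (2 * R + 5) ^ 2 := pow_le_pow_left₀ h5 h4 2

/-- a positive lower bound of finitely many positive numbers -/
theorem pvh_fin_pos {ι : Type} (t : Finset ι) (g : ι → ℝ) (hg : ∀ i ∈ t, 0 < g i) : ∃ m : ℝ, 0 < m ∧ ∀ i ∈ t, m ≤ g i := by
  classical
  induction t using Finset.induction_on with
  | empty => exact ⟨1, one_pos, by simp⟩
  | insert a s ha ih =>
    obtain ⟨m, hm, h⟩ := ih fun i hi => hg i (Finset.mem_insert_of_mem hi)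
    refine ⟨min m (g a), lt_min hm (hg a (Finset.mem_insert_self _ _)), fun i hi => ?_⟩
    rcases Finset.mem_insert.1 hi with rfl | hi
    · exact min_le_right _ _
    · exact (min_le_left _ _).trans (h i hi)

/-- ARM, uniform on a compact set (Lebesgue number) -/
theorem pvh_arm_unif {S : PvoSys Ω} {X : Set ℂ} (hA : PvoArm S X) {K : Set ℂ} (hK : IsCompact K) (hKX : K ⊆ X) {η : ℝ} (hη : 0 < η) :
    ∃ δ₀ : ℝ, 0 < δ₀ ∧ ∀ x ∈ K, ∃ q : ℕ → Ω → ℝ, (∀ k, Measurable (q k)) ∧ (∀ k o, 0 ≤ q k o ∧ q k o ≤ 4) ∧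
      (∀ᶠ k in atTop, ∫ o, q k o ∂S.P k ≤ η) ∧
      ∀ k o, ∀ e ∈ S.E k o, ‖S.mid k o e - x‖ < δ₀ → ‖S.Fe k o e - S.R k x o‖ ≤ q k o := by
  have H : ∀ p : ℂ, ∃ s : ℝ, 0 < s ∧ (p ∈ K → ∃ q : ℕ → Ω → ℝ, (∀ k, Measurable (q k)) ∧ (∀ k o, 0 ≤ q k o ∧ q k o ≤ 2) ∧
      (∀ᶠ k in atTop, ∫ o, q k o ∂S.P k ≤ η / 2) ∧
      (∀ k o, ∀ p' ∈ X, ‖p' - p‖ < s → ‖S.R k p' o - S.R k p o‖ ≤ q k o) ∧
      (∀ k o, ∀ e ∈ S.E k o, ‖S.mid k o e - p‖ < s → ‖S.Fe k o e - S.R k p o‖ ≤ q k o)) := by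
    intro p
    by_cases hp : p ∈ K
    · obtain ⟨s, hs, h⟩ := hA.arm p (hKX hp) (η / 2) (by positivity)
      exact ⟨s, hs, fun _ => h⟩
    · exact ⟨1, one_pos, fun h => absurd h hp⟩
  choose s hs hq using H
  obtain ⟨t, htK, hcov⟩ := hK.elim_nhds_subcover (fun p => Metric.ball p (s p / 2))
    (fun p _ => Metric.ball_mem_nhds p (by have := hs p; positivity))
  obtain ⟨δ₀, hδ₀, hmin⟩ := pvh_fin_pos t (fun p => s p / 2) (fun p _ => by have := hs p; positivity)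
  refine ⟨δ₀, hδ₀, fun x hx => ?_⟩
  obtain ⟨p, hpt, hxp⟩ := mem_iUnion₂.1 (hcov hx)
  obtain ⟨q, hqm, hqb, hqi, hqR, hqF⟩ := hq p (htK p hpt)
  rw [Metric.mem_ball, Complex.dist_eq] at hxp
  have hδp : δ₀ ≤ s p / 2 := hmin p hpt
  refine ⟨fun k o => 2 * q k o, fun k => (hqm k).const_mul 2, fun k o => ?_, ?_, fun k o e he hm => ?_⟩
  · have := hqb k o
    constructor <;> linarith [this.1, this.2]
  · filter_upwards [hqi] with k hk
    rw [integral_const_mul]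
    linarith
  · have h1 : ‖S.mid k o e - p‖ < s p := by
      have : S.mid k o e - p = (S.mid k o e - x) + (x - p) := by ring
      rw [this]
      refine (norm_add_le _ _).trans_lt ?_
      linarith
    have h2 := hqF k o e he h1
    have h3 := hqR k o x (hKX hx) (by linarith [hs p])
    have : S.Fe k o e - S.R k x o = (S.Fe k o e - S.R k p o) - (S.R k x o - S.R k p o) := by ring
    rw [this]
    refine (norm_sub_le _ _).trans ?_
    linarith

/-- the pointwise decomposition of `∑ c_e F_e` along a partition of unity -/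
theorem pvh_split (S : PvoSys Ω) (f : ℂ → ℝ) (k : ℕ) (o : Ω) (J : Finset (ℤ × ℤ)) (χ : ℤ × ℤ → ℂ → ℝ) (x : ℤ × ℤ → ℂ) (δ : ℝ) (O : Set ℂ)
    (w : ℤ × ℤ → ℂ) (q : ℤ × ℤ → ℝ) (hχ0 : ∀ p z, 0 ≤ χ p z) (hχ1 : ∀ z, ∑ p ∈ J, χ p z ≤ 1)
    (hχs : ∀ p z, χ p z ≠ 0 → z ∈ Metric.ball (x p) δ) (hO : ∀ z, z ∉ O → ∑ p ∈ J, χ p z = 1)
    (hF : ∀ e ∈ S.E k o, ‖S.Fe k o e‖ ≤ 1) (hR : ∀ p, ‖S.R k (x p) o‖ ≤ 1)
    (hq : ∀ p ∈ J, ∀ e ∈ S.E k o, S.mid k o e ∈ Metric.ball (x p) δ → ‖S.Fe k o e - S.R k (x p) o‖ ≤ q p) :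
    ‖S.sumF f (fun _ => 1) k o - ∑ p ∈ J, w p * S.R k (x p) o‖
      ≤ ∑ p ∈ J, q p * S.tv f (Metric.ball (x p) δ) k o + ∑ p ∈ J, ‖S.sum1 f (χ p) k o - w p‖ + S.tv f O k o := by
  classical
  set a : S.Ed → ℂ := fun e => S.c f k o e with ha
  set m : S.Ed → ℂ := fun e => S.mid k o e with hm
  set G : S.Ed → ℂ := fun e => S.Fe k o e with hG
  set r : ℤ × ℤ → ℂ := fun p => S.R k (x p) o with hr
  have e1 : ∀ p, ∑ e ∈ S.E k o, a e * (χ p (m e) : ℂ) * (G e - r p) + r p * (∑ e ∈ S.E k o, a e * (χ p (m e) : ℂ) - w p)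
      = ∑ e ∈ S.E k o, a e * (χ p (m e) : ℂ) * G e - w p * r p := by
    intro p
    simp only [mul_sub, Finset.sum_sub_distrib, ← Finset.sum_mul]
    ring
  have e2 : ∑ p ∈ J, ∑ e ∈ S.E k o, a e * (χ p (m e) : ℂ) * G e = ∑ e ∈ S.E k o, a e * (∑ p ∈ J, (χ p (m e) : ℂ)) * G e := by
    rw [Finset.sum_comm]
    refine Finset.sum_congr rfl fun e _ => ?_
    rw [Finset.mul_sum, Finset.sum_mul]
  have e3 : S.sumF f (fun _ => 1) k o - ∑ p ∈ J, w p * r p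
      = ∑ p ∈ J, ∑ e ∈ S.E k o, a e * (χ p (m e) : ℂ) * (G e - r p) + ∑ p ∈ J, r p * (S.sum1 f (χ p) k o - w p)
        + ∑ e ∈ S.E k o, a e * ((1 - ∑ p ∈ J, χ p (m e) : ℝ) : ℂ) * G e := by
    have e4 : ∑ p ∈ J, ∑ e ∈ S.E k o, a e * (χ p (m e) : ℂ) * (G e - r p) + ∑ p ∈ J, r p * (S.sum1 f (χ p) k o - w p)
        = ∑ e ∈ S.E k o, a e * (∑ p ∈ J, (χ p (m e) : ℂ)) * G e - ∑ p ∈ J, w p * r p := by
      rw [← Finset.sum_add_distrib, ← e2, ← Finset.sum_sub_distrib]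
      exact Finset.sum_congr rfl fun p _ => e1 p
    rw [e4]
    have e5 : S.sumF f (fun _ => 1) k o = ∑ e ∈ S.E k o, a e * (∑ p ∈ J, (χ p (m e) : ℂ)) * G e
        + ∑ e ∈ S.E k o, a e * ((1 - ∑ p ∈ J, χ p (m e) : ℝ) : ℂ) * G e := by
      rw [← Finset.sum_add_distrib]
      unfold PvoSys.sumF
      refine Finset.sum_congr rfl fun e _ => ?_
      push_cast
      ring
    rw [e5]
    ring
  have hχle : ∀ p ∈ J, ∀ z, χ p z ≤ 1 := fun p hp z =>
    (Finset.single_le_sum (f := fun p => χ p z) (fun i _ => hχ0 i z) hp).trans (hχ1 z)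
  have n1 : ∀ p ∈ J, ‖∑ e ∈ S.E k o, a e * (χ p (m e) : ℂ) * (G e - r p)‖ ≤ q p * S.tv f (Metric.ball (x p) δ) k o := by
    intro p hp
    unfold PvoSys.tv
    rw [Finset.mul_sum, Finset.sum_filter]
    refine (norm_sum_le _ _).trans (Finset.sum_le_sum fun e he => ?_)
    by_cases hme : S.mid k o e ∈ Metric.ball (x p) δ
    · rw [if_pos hme, norm_mul, norm_mul, Complex.norm_real, Real.norm_eq_abs, abs_of_nonneg (hχ0 p _)]
      have h1 := hq p hp e he hme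
      have h2 := hχle p hp (m e)
      have h3 : ‖a e‖ * χ p (m e) ≤ ‖a e‖ := by
        have := mul_le_mul_of_nonneg_left h2 (norm_nonneg (a e))
        linarith
      calc ‖a e‖ * χ p (m e) * ‖G e - r p‖ ≤ ‖a e‖ * q p :=
            mul_le_mul h3 h1 (norm_nonneg _) (norm_nonneg _)
        _ = q p * ‖S.c f k o e‖ := by rw [mul_comm]
    · rw [if_neg hme]
      have : χ p (m e) = 0 := by
        by_contra hc
        exact hme (hχs p _ hc)
      rw [this]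
      simp
  have n2 : ∀ p ∈ J, ‖r p * (S.sum1 f (χ p) k o - w p)‖ ≤ ‖S.sum1 f (χ p) k o - w p‖ := by
    intro p _
    rw [norm_mul]
    have := mul_le_mul_of_nonneg_right (hR p) (norm_nonneg (S.sum1 f (χ p) k o - w p))
    linarith
  have n3 : ‖∑ e ∈ S.E k o, a e * ((1 - ∑ p ∈ J, χ p (m e) : ℝ) : ℂ) * G e‖ ≤ S.tv f O k o := by
    unfold PvoSys.tv
    rw [Finset.sum_filter]
    refine (norm_sum_le _ _).trans (Finset.sum_le_sum fun e he => ?_)
    by_cases hme : S.mid k o e ∈ O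
    · rw [if_pos hme, norm_mul, norm_mul, Complex.norm_real, Real.norm_eq_abs]
      have h0 : 0 ≤ ∑ p ∈ J, χ p (m e) := Finset.sum_nonneg fun p _ => hχ0 p _
      have h1 : |1 - ∑ p ∈ J, χ p (m e)| ≤ 1 := by
        rw [abs_le]; constructor <;> linarith [hχ1 (m e)]
      calc ‖a e‖ * |1 - ∑ p ∈ J, χ p (m e)| * ‖G e‖ ≤ ‖a e‖ * 1 * 1 :=
            mul_le_mul (mul_le_mul_of_nonneg_left h1 (norm_nonneg _)) (hF e he) (norm_nonneg _) (by positivity)
        _ = ‖S.c f k o e‖ := by simp [ha]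
    · rw [if_neg hme, hO _ hme]
      simp
  rw [e3]
  refine (norm_add₃_le).trans ?_
  refine add_le_add (add_le_add ?_ ?_) n3
  · exact (norm_sum_le _ _).trans (Finset.sum_le_sum n1)
  · exact (norm_sum_le _ _).trans (Finset.sum_le_sum n2)

/-- Cauchy-Schwarz in the form `q T ≤ 2 λ q + T² / (2 λ)` (`0 ≤ q ≤ 4`), integrated -/
theorem pvh_amgm {μ : Measure Ω} [IsProbabilityMeasure μ] {q T : Ω → ℝ} (hq : Measurable q) (hT : Measurable T)
    (hq0 : ∀ o, 0 ≤ q o ∧ q o ≤ 4) {η V lam : ℝ} (hqi : ∫ o, q o ∂μ ≤ η)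
    (hV : ∫⁻ o, ENNReal.ofReal (T o ^ 2) ∂μ ≤ ENNReal.ofReal V) (hV0 : 0 ≤ V) (hl : 0 < lam) :
    ∫⁻ o, ENNReal.ofReal (q o * T o) ∂μ ≤ ENNReal.ofReal (2 * lam * η + V / (2 * lam)) := by
  have hη : 0 ≤ η := (integral_nonneg fun o => (hq0 o).1).trans hqi
  have hint : Integrable (fun o => 2 * lam * q o) μ := by
    refine Integrable.of_bound (hq.const_mul _).aestronglyMeasurable (2 * lam * 4) (Filter.Eventually.of_forall fun o => ?_)
    rw [Real.norm_eq_abs, abs_of_nonneg (by have := (hq0 o).1; positivity)]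
    exact mul_le_mul_of_nonneg_left (hq0 o).2 (by positivity)
  have h1 : ∀ o, ENNReal.ofReal (q o * T o) ≤ ENNReal.ofReal (2 * lam * q o) + ENNReal.ofReal (1 / (2 * lam)) * ENNReal.ofReal (T o ^ 2) := by
    intro o
    rw [← ENNReal.ofReal_mul (by positivity), ← ENNReal.ofReal_add (by have := (hq0 o).1; positivity) (by positivity)]
    refine ENNReal.ofReal_le_ofReal ?_
    obtain ⟨a, b⟩ := hq0 o
    have h2 : 0 ≤ (lam * q o - T o) ^ 2 / (2 * lam) := by positivity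
    have h3 : (lam * q o - T o) ^ 2 / (2 * lam) = lam * q o ^ 2 / 2 - q o * T o + 1 / (2 * lam) * T o ^ 2 := by
      field_simp
      ring
    have h4 : lam * q o ^ 2 / 2 ≤ 2 * lam * q o := by
      have h5 : q o * q o ≤ 4 * q o := mul_le_mul_of_nonneg_right b a
      have h6 := mul_le_mul_of_nonneg_left h5 hl.le
      nlinarith
    linarith
  calc ∫⁻ o, ENNReal.ofReal (q o * T o) ∂μ
      ≤ ∫⁻ o, (ENNReal.ofReal (2 * lam * q o) + ENNReal.ofReal (1 / (2 * lam)) * ENNReal.ofReal (T o ^ 2)) ∂μ := lintegral_mono h1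
    _ = ∫⁻ o, ENNReal.ofReal (2 * lam * q o) ∂μ + ENNReal.ofReal (1 / (2 * lam)) * ∫⁻ o, ENNReal.ofReal (T o ^ 2) ∂μ := by
        rw [lintegral_add_left (hq.const_mul _).ennreal_ofReal, lintegral_const_mul _ (hT.pow_const 2).ennreal_ofReal]
    _ ≤ ENNReal.ofReal (2 * lam * η) + ENNReal.ofReal (1 / (2 * lam)) * ENNReal.ofReal V := by
        refine add_le_add ?_ (mul_le_mul_right hV _)
        rw [← ofReal_integral_eq_lintegral_ofReal hint (Filter.Eventually.of_forall fun o => by have := (hq0 o).1; positivity),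
          integral_const_mul]
        exact ENNReal.ofReal_le_ofReal (mul_le_mul_of_nonneg_left hqi (by positivity))
    _ = ENNReal.ofReal (2 * lam * η + V / (2 * lam)) := by
        rw [← ENNReal.ofReal_mul (by positivity), ← ENNReal.ofReal_add (by positivity) (by positivity)]
        congr 1
        ring

/-- domination from a measurable majorant with finite `lintegral` -/
theorem pvo_dom_of_lintegral {μ : Measure Ω} {f : Ω → ℂ} {g : Ω → ℝ} (hg : Measurable g) (h : ∀ o, ‖f o‖ ≤ g o)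
    (hfin : ∫⁻ o, ENNReal.ofReal (g o) ∂μ ≠ ⊤) : PvoDom μ f := by
  refine ⟨g, ⟨hg.aestronglyMeasurable, ?_⟩, h⟩
  rw [hasFiniteIntegral_iff_ofReal (Filter.Eventually.of_forall fun o => (norm_nonneg _).trans (h o))]
  exact lt_top_iff_ne_top.2 hfin

/-- the majorant bound in `enorm` form -/
theorem pvo_enorm_mean_le {μ : Measure Ω} {f : Ω → ℂ} {g : Ω → ℝ} (hg : Measurable g) (h : ∀ o, ‖f o‖ ≤ g o) :
    ‖pvoMean μ f‖ₑ ≤ ∫⁻ o, ENNReal.ofReal (g o) ∂μ := by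
  by_cases hfin : ∫⁻ o, ENNReal.ofReal (g o) ∂μ = ⊤
  · rw [hfin]; exact le_top
  · rw [← ofReal_norm]
    exact ENNReal.ofReal_le_of_le_toReal (pvom_norm_le_lintegral hg h hfin)

/-- the key estimate: the Riemann sum of the limit against the partition of unity is small -/
theorem pvh_key {S : PvoSys Ω} {X : Set ℂ} (hA : PvoArm S X) {κ : ℂ} {f : ℂ → ℝ} (hC : PvoCR S κ f) {F : ℂ → ℂ}
    (J : Finset (ℤ × ℤ)) (χ : ℤ × ℤ → ℂ → ℝ) (x : ℤ × ℤ → ℂ) {δ r η Cv lam : ℝ} (hδ : 0 < δ) (hδ1 : δ ≤ 1) (hr : 0 < r) (hl : 0 < lam)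
    (hCv : 0 ≤ Cv) (hη : 0 ≤ η)
    (hvar : ∀ (p : ℂ) (r : ℝ), 0 < r → r ≤ 1 → ∃ T : ℕ → Ω → ℝ, (∀ k, Measurable (T k)) ∧
      (∀ k o, S.tv f (Metric.ball p r) k o ≤ T k o) ∧
      ∀ᶠ k in atTop, ∫⁻ o, ENNReal.ofReal (T k o ^ 2) ∂S.P k ≤ ENNReal.ofReal (Cv * r ^ 4))
    (hχc : ∀ p, ContDiff ℝ ∞ (χ p)) (hχk : ∀ p, HasCompactSupport (χ p))
    (hχ0 : ∀ p z, 0 ≤ χ p z) (hχ1 : ∀ z, ∑ p ∈ J, χ p z ≤ 1) (hχs : ∀ p z, χ p z ≠ 0 → z ∈ Metric.ball (x p) δ)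
    (hO : ∀ z, z ∉ {z | r ≤ Metric.infDist z (tsupport f)} → ∑ p ∈ J, χ p z = 1) (hxX : ∀ p ∈ J, x p ∈ X)
    (harm : ∀ p ∈ J, ∃ q : ℕ → Ω → ℝ, (∀ k, Measurable (q k)) ∧ (∀ k o, 0 ≤ q k o ∧ q k o ≤ 4) ∧
      (∀ᶠ k in atTop, ∫ o, q k o ∂S.P k ≤ η) ∧
      ∀ k o, ∀ e ∈ S.E k o, ‖S.mid k o e - x p‖ < δ → ‖S.Fe k o e - S.R k (x p) o‖ ≤ q k o)
    (hlim : ∀ p ∈ J, Tendsto (fun k => S.Phi k (x p)) atTop (𝓝 (F (x p)))) :
    ‖∑ p ∈ J, (κ * ∫ z, (χ p z : ℂ) * pvoH f z) * F (x p)‖ ≤ J.card * (2 * lam * η + Cv * δ ^ 4 / (2 * lam)) := by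
  classical
  choose! q hqm hqb hqi hqF using harm
  choose T hTm hTb hTi using fun p : ℤ × ℤ => hvar (x p) δ hδ hδ1
  choose G hGm hGb hGi using fun p : ℤ × ℤ => hC.lim (χ p) (hχc p) (hχk p)
  obtain ⟨To, hTom, hTob, hToi⟩ := hC.out r hr
  set w : ℤ × ℤ → ℂ := fun p => κ * ∫ z, (χ p z : ℂ) * pvoH f z with hw
  set b : ℝ := 2 * lam * η + Cv * δ ^ 4 / (2 * lam) with hb
  have hb0 : 0 ≤ b := by positivity
  set g : ℕ → Ω → ℂ := fun k o => S.sumF f (fun _ => 1) k o - ∑ p ∈ J, w p * S.R k (x p) o with hg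
  set ek : ℕ → ENNReal := fun k => ∑ p ∈ J, ∫⁻ o, ENNReal.ofReal (G p k o) ∂S.P k + ∫⁻ o, ENNReal.ofReal (To k o) ∂S.P k with hek
  -- the measurable majorant
  set mj : ℕ → Ω → ℝ := fun k o => ∑ p ∈ J, q p k o * T p k o + ∑ p ∈ J, G p k o + To k o with hmj
  have htv0 : ∀ (A : Set ℂ) k o, 0 ≤ S.tv f A k o := fun A k o => Finset.sum_nonneg fun e _ => norm_nonneg _
  have hG0 : ∀ p k o, 0 ≤ G p k o := fun p k o => (norm_nonneg _).trans (hGb p k o)
  have hmjm : ∀ k, Measurable (mj k) := fun k =>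
    ((Finset.measurable_fun_sum J fun p hp => (hqm p hp k).mul (hTm p k)).add (Finset.measurable_fun_sum J fun p _ => hGm p k)).add (hTom k)
  -- pointwise
  have hpt : ∀ k o, ‖g k o‖ ≤ mj k o := by
    intro k o
    have h1 := pvh_split S f k o J χ x δ {z | r ≤ Metric.infDist z (tsupport f)} w (fun p => q p k o) hχ0 hχ1 hχs hO
      (hA.bddF k o) (fun p => hA.bddR k _ o)
      (fun p hp e he hme => hqF p hp k o e he (by rwa [Metric.mem_ball, Complex.dist_eq] at hme))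
    refine h1.trans (add_le_add (add_le_add (Finset.sum_le_sum fun p hp => ?_) (Finset.sum_le_sum fun p _ => hGb p k o)) (hTob k o))
    exact mul_le_mul_of_nonneg_left (hTb p k o) (hqb p hp k o).1
  have hpt2 : ∀ k o, ENNReal.ofReal (mj k o) ≤ ∑ p ∈ J, ENNReal.ofReal (q p k o * T p k o) + ∑ p ∈ J, ENNReal.ofReal (G p k o) + ENNReal.ofReal (To k o) := by
    intro k o
    refine ENNReal.ofReal_add_le.trans (add_le_add (ENNReal.ofReal_add_le.trans (add_le_add ?_ ?_)) le_rfl)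
    · rw [ENNReal.ofReal_sum_of_nonneg fun p hp => mul_nonneg (hqb p hp k o).1 ((htv0 _ k o).trans (hTb p k o))]
    · rw [ENNReal.ofReal_sum_of_nonneg fun p _ => hG0 p k o]
  -- integrated
  have hint : ∀ k, ∫⁻ o, ENNReal.ofReal (mj k o) ∂S.P k ≤ ∑ p ∈ J, ∫⁻ o, ENNReal.ofReal (q p k o * T p k o) ∂S.P k + ek k := by
    intro k
    refine (lintegral_mono (hpt2 k)).trans (le_of_eq ?_)
    have hme : ∀ p ∈ J, Measurable (fun o => ENNReal.ofReal (G p k o)) := fun p _ => (hGm p k).ennreal_ofReal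
    have hmq : ∀ p ∈ J, Measurable (fun o => ENNReal.ofReal (q p k o * T p k o)) := fun p hp =>
      ((hqm p hp k).mul (hTm p k)).ennreal_ofReal
    rw [lintegral_add_right _ (hTom k).ennreal_ofReal, lintegral_add_left (Finset.measurable_fun_sum J hmq),
      lintegral_finsetSum J hmq, lintegral_finsetSum J hme, add_assoc]
  -- the error terms tend to zero
  have hek0 : Tendsto ek atTop (𝓝 0) := by
    have h1 : Tendsto (fun k => ∑ p ∈ J, ∫⁻ o, ENNReal.ofReal (G p k o) ∂S.P k) atTop (𝓝 (∑ _p ∈ J, (0 : ENNReal))) :=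
      tendsto_finsetSum J fun p _ => hGi p
    have h2 := h1.add hToi
    simpa using h2
  have hev : ∀ᶠ k in atTop, ∀ p ∈ J, ∫ o, q p k o ∂S.P k ≤ η ∧ ∫⁻ o, ENNReal.ofReal (T p k o ^ 2) ∂S.P k ≤ ENNReal.ofReal (Cv * δ ^ 4) :=
    (eventually_all_finset J).2 fun p hp => (hqi p hp).and (hTi p)
  have hfin : ∀ᶠ k in atTop, ek k < ⊤ := hek0.eventually (gt_mem_nhds ENNReal.zero_lt_top)
  -- the bound at finite `k`
  have hmain : ∀ᶠ k in atTop, ‖∑ p ∈ J, w p * S.Phi k (x p)‖ₑ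
      ≤ ‖pvoMean (S.P k) (S.sumF f (fun _ => 1) k)‖ₑ + (J.card • ENNReal.ofReal b + ek k) := by
    filter_upwards [hev, hfin] with k hk hkf
    have := hA.prob k
    have h1 : ∫⁻ o, ENNReal.ofReal (mj k o) ∂S.P k ≤ J.card • ENNReal.ofReal b + ek k := by
      refine (hint k).trans (add_le_add ?_ le_rfl)
      refine (Finset.sum_le_card_nsmul J _ _ fun p hp => ?_)
      exact pvh_amgm (hqm p hp k) (hTm p k) (hqb p hp k) (hk p hp).1 (hk p hp).2 (by positivity) hl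
    have hRd : ∀ p ∈ J, PvoDom (S.P k) (fun o => w p * S.R k (x p) o) := fun p _ =>
      (PvoDom.of_bound 1 fun o => hA.bddR k _ o).const_mul (w p)
    have hRi : PvoDom (S.P k) (fun o => ∑ p ∈ J, w p * S.R k (x p) o) := PvoDom.sum J hRd
    have hgi : PvoDom (S.P k) (g k) := by
      refine pvo_dom_of_lintegral (hmjm k) (hpt k) (ne_of_lt (lt_of_le_of_lt h1 (ENNReal.add_lt_top.2 ⟨?_, hkf⟩)))
      rw [nsmul_eq_mul]
      exact ENNReal.mul_lt_top (ENNReal.natCast_lt_top _) ENNReal.ofReal_lt_top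
    have hFi : PvoDom (S.P k) (S.sumF f (fun _ => 1) k) := by
      have h2 := hgi.add hRi
      have e : (fun o => g k o + ∑ p ∈ J, w p * S.R k (x p) o) = S.sumF f (fun _ => 1) k := by
        funext o
        simp [hg]
      rwa [e] at h2
    have e1 : ∑ p ∈ J, w p * S.Phi k (x p) = pvoMean (S.P k) (S.sumF f (fun _ => 1) k) - pvoMean (S.P k) (g k) := by
      rw [← pvom_sub hFi hgi]
      have e : (fun o => S.sumF f (fun _ => 1) k o - g k o) = fun o => ∑ p ∈ J, w p * S.R k (x p) o := by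
        funext o
        simp [hg]
      rw [e, pvom_sum J hRd]
      refine Finset.sum_congr rfl fun p _ => ?_
      rw [pvom_const_mul _ (PvoDom.of_bound 1 fun o => hA.bddR k _ o)]
      rfl
    rw [e1]
    refine enorm_sub_le.trans (add_le_add le_rfl ?_)
    exact (pvo_enorm_mean_le (hmjm k) (hpt k)).trans h1
  -- the limit
  have hL : Tendsto (fun k => ‖∑ p ∈ J, w p * S.Phi k (x p)‖ₑ) atTop (𝓝 ‖∑ p ∈ J, w p * F (x p)‖ₑ) :=
    (tendsto_finsetSum J fun p hp => (hlim p hp).const_mul (w p)).enorm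
  have hR : Tendsto (fun k => ‖pvoMean (S.P k) (S.sumF f (fun _ => 1) k)‖ₑ + (J.card • ENNReal.ofReal b + ek k)) atTop
      (𝓝 (‖(0 : ℂ)‖ₑ + (J.card • ENNReal.ofReal b + 0))) :=
    hC.cr.enorm.add (tendsto_const_nhds.add hek0)
  have hle := le_of_tendsto_of_tendsto hL hR hmain
  rw [enorm_zero, zero_add, add_zero, nsmul_eq_mul, ← ofReal_norm, ← ENNReal.ofReal_natCast, ← ENNReal.ofReal_mul (Nat.cast_nonneg _),
    ENNReal.ofReal_le_ofReal_iff (by positivity)] at hle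
  exact hle

theorem pvh_H_cont {f : ℂ → ℝ} (hf : ContDiff ℝ ∞ f) : Continuous (pvoH f) := by
  have h1 : Continuous (fderiv ℝ f) := hf.continuous_fderiv (by simp)
  unfold pvoH
  exact (Complex.continuous_ofReal.comp (h1.clm_apply continuous_const)).add
    (continuous_const.mul (Complex.continuous_ofReal.comp (h1.clm_apply continuous_const)))

theorem pvh_H_zero {f : ℂ → ℝ} {z : ℂ} (hz : z ∉ tsupport f) : pvoH f z = 0 := by
  have h0 : fderiv ℝ f z = 0 := image_eq_zero_of_notMem_tsupport fun hc => hz (tsupport_fderiv_subset ℝ hc)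
  simp [pvoH, h0]

theorem pvh_H_supp {f : ℂ → ℝ} (hfc : HasCompactSupport f) : HasCompactSupport (pvoH f) :=
  HasCompactSupport.intro hfc fun _ hz => pvh_H_zero hz

/-- the Riemann sum against a partition of unity -/
theorem pvh_riem {D : Set ℂ} (hD : IsOpen D) {f : ℂ → ℝ} (hf : ContDiff ℝ ∞ f) (hfc : HasCompactSupport f) (hfD : tsupport f ⊆ D)
    {F : ℂ → ℂ} (hF : ContinuousOn F D) (J : Finset (ℤ × ℤ)) (χ : ℤ × ℤ → ℂ → ℝ) (x : ℤ × ℤ → ℂ) {δ η : ℝ}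
    (hχc : ∀ p, Continuous (χ p)) (hχ0 : ∀ p z, 0 ≤ χ p z) (hχs : ∀ p z, χ p z ≠ 0 → z ∈ Metric.ball (x p) δ)
    (hK : ∀ z ∈ tsupport f, ∑ p ∈ J, χ p z = 1)
    (hosc : ∀ p ∈ J, ∀ z ∈ tsupport f, z ∈ Metric.ball (x p) δ → ‖F z - F (x p)‖ ≤ η) :
    ‖(∫ z, F z * pvoH f z) - ∑ p ∈ J, (∫ z, (χ p z : ℂ) * pvoH f z) * F (x p)‖ ≤ η * ∫ z, ‖pvoH f z‖ := by
  have hc := pvh_H_cont hf
  have hs := pvh_H_supp hfc
  have hGc : Continuous fun z => F z * pvoH f z := by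
    refine continuous_iff_continuousAt.2 fun z => ?_
    by_cases hz : z ∈ D
    · exact (hF.continuousAt (hD.mem_nhds hz)).mul hc.continuousAt
    · have h1 : (tsupport f)ᶜ ∈ 𝓝 z := (isClosed_tsupport f).isOpen_compl.mem_nhds fun h => hz (hfD h)
      have h2 : (fun z => F z * pvoH f z) =ᶠ[𝓝 z] fun _ => 0 := by
        filter_upwards [h1] with y hy
        rw [pvh_H_zero hy, mul_zero]
      exact h2.continuousAt
  have hGi : Integrable fun z => F z * pvoH f z := hGc.integrable_of_hasCompactSupport hs.mul_left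
  have hχi : ∀ p, Integrable fun z => (χ p z : ℂ) * pvoH f z := fun p =>
    ((Complex.continuous_ofReal.comp (hχc p)).mul hc).integrable_of_hasCompactSupport hs.mul_left
  have e1 : (∫ z, F z * pvoH f z) - ∑ p ∈ J, (∫ z, (χ p z : ℂ) * pvoH f z) * F (x p)
      = ∫ z, (F z * pvoH f z - ∑ p ∈ J, (χ p z : ℂ) * pvoH f z * F (x p)) := by
    rw [integral_sub hGi (integrable_finsetSum J fun p _ => (hχi p).mul_const _), integral_finsetSum J fun p _ => (hχi p).mul_const _]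
    congr 1
    exact Finset.sum_congr rfl fun p _ => (integral_mul_const (F (x p)) fun z => (χ p z : ℂ) * pvoH f z).symm
  rw [e1, ← integral_const_mul]
  refine norm_integral_le_of_norm_le (hc.norm.integrable_of_hasCompactSupport hs.norm |>.const_mul η) (Filter.Eventually.of_forall fun z => ?_)
  by_cases hz : z ∈ tsupport f
  · have e2 : F z * pvoH f z - ∑ p ∈ J, (χ p z : ℂ) * pvoH f z * F (x p) = ∑ p ∈ J, (χ p z : ℂ) * (F z - F (x p)) * pvoH f z := by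
      have e3 : F z * pvoH f z = ∑ p ∈ J, (χ p z : ℂ) * F z * pvoH f z := by
        rw [← Finset.sum_mul, ← Finset.sum_mul, ← Complex.ofReal_sum, hK z hz]
        simp
      rw [e3, ← Finset.sum_sub_distrib]
      exact Finset.sum_congr rfl fun p _ => by ring
    rw [e2]
    refine (norm_sum_le _ _).trans ?_
    have h3 : ∀ p ∈ J, ‖(χ p z : ℂ) * (F z - F (x p)) * pvoH f z‖ ≤ χ p z * (η * ‖pvoH f z‖) := by
      intro p hp
      rw [norm_mul, norm_mul, Complex.norm_real, Real.norm_eq_abs, abs_of_nonneg (hχ0 p z), mul_assoc]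
      by_cases h0 : χ p z = 0
      · simp [h0]
      · exact mul_le_mul_of_nonneg_left (mul_le_mul_of_nonneg_right (hosc p hp z hz (hχs p z h0)) (norm_nonneg _)) (hχ0 p z)
    refine (Finset.sum_le_sum h3).trans (le_of_eq ?_)
    rw [← Finset.sum_mul, hK z hz, one_mul]
  · simp [pvh_H_zero hz]

/-- a nonnegative number which is `≤ c t` for all small `t > 0` vanishes -/
theorem pvh_zero_of_le {a c : ℝ} (ha : 0 ≤ a) (hc : 0 ≤ c) (h : ∀ t : ℝ, 0 < t → t ≤ 1 → a ≤ c * t) : a = 0 := by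
  by_contra hne
  have hpos : 0 < a := lt_of_le_of_ne ha (Ne.symm hne)
  have h1 := h (min 1 (a / (2 * (c + 1)))) (lt_min one_pos (by positivity)) (min_le_left _ _)
  have h2 : c * min 1 (a / (2 * (c + 1))) ≤ c * (a / (2 * (c + 1))) := mul_le_mul_of_nonneg_left (min_le_right _ _) hc
  have h3 : c * (a / (2 * (c + 1))) ≤ a / 2 := by
    rw [mul_div_assoc', div_le_div_iff₀ (by positivity) (by positivity)]
    nlinarith
  linarith

/-- **O2 = Prop 8.4**, distributional form (the statement of `pvo_hol`) -/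
theorem pvh_hol {S : PvoSys Ω} {X D : Set ℂ} (hD : IsOpen D) (hDX : D ⊆ X) (hA : PvoArm S X) {κ : ℂ} (hκ : κ ≠ 0) {f : ℂ → ℝ}
    (hf : ContDiff ℝ ∞ f) (hfc : HasCompactSupport f) (hfD : tsupport f ⊆ D) (hC : PvoCR S κ f) {F : ℂ → ℂ} (hF : ContinuousOn F D)
    (hlim : ∀ p ∈ D, Tendsto (fun k => S.Phi k p) atTop (𝓝 (F p))) : ∫ z, F z * pvoH f z = 0 := by
  by_cases hne : (tsupport f).Nonempty
  swap
  · rw [Set.not_nonempty_iff_eq_empty] at hne
    have : ∀ z, F z * pvoH f z = 0 := fun z => by rw [pvh_H_zero (by rw [hne]; exact Set.notMem_empty z), mul_zero]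
    simp [this]
  have hKc : IsCompact (tsupport f) := hfc
  obtain ⟨ρ, hρ, hρD⟩ := hKc.exists_cthickening_subset_open hD hfD
  set r : ℝ := ρ / 2 with hr
  have hr0 : 0 < r := by positivity
  have hK1 : IsCompact (Metric.cthickening ρ (tsupport f)) := hKc.cthickening
  have hK2 : IsCompact (Metric.cthickening r (tsupport f)) := hKc.cthickening
  obtain ⟨R0, hR0⟩ := hK2.isBounded.subset_closedBall 0
  set R : ℝ := max R0 0 with hR
  have hRK : Metric.cthickening r (tsupport f) ⊆ Metric.closedBall 0 R := hR0.trans (Metric.closedBall_subset_closedBall (le_max_left _ _))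
  have hR0' : 0 ≤ R := le_max_right _ _
  obtain ⟨Cv0, hvar0⟩ := hC.var
  set Cv : ℝ := |Cv0| with hCv
  have hvar : ∀ (p : ℂ) (r : ℝ), 0 < r → r ≤ 1 → ∃ T : ℕ → Ω → ℝ, (∀ k, Measurable (T k)) ∧
      (∀ k o, S.tv f (Metric.ball p r) k o ≤ T k o) ∧
      ∀ᶠ k in atTop, ∫⁻ o, ENNReal.ofReal (T k o ^ 2) ∂S.P k ≤ ENNReal.ofReal (Cv * r ^ 4) := by
    intro p r' h1 h2
    obtain ⟨T, a1, a2, a3⟩ := hvar0 p r' h1 h2
    refine ⟨T, a1, a2, ?_⟩
    filter_upwards [a3] with k hk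
    exact hk.trans (ENNReal.ofReal_le_ofReal (mul_le_mul_of_nonneg_right (le_abs_self _) (by positivity)))
  set M : ℝ := ∫ z, ‖pvoH f z‖ with hM
  have hM0 : 0 ≤ M := integral_nonneg fun z => norm_nonneg _
  have hUC := hK1.uniformContinuousOn_of_continuous (hF.mono hρD)
  rw [Metric.uniformContinuousOn_iff] at hUC
  have hmem2 : ∀ z, Metric.infDist z (tsupport f) < r → z ∈ Metric.cthickening r (tsupport f) := by
    intro z hz
    obtain ⟨y, hy, hzy⟩ := (Metric.infDist_lt_iff hne).1 hz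
    exact Metric.mem_cthickening_of_dist_le z y r _ hy hzy.le
  have key : ∀ t : ℝ, 0 < t → t ≤ 1 → ‖κ * ∫ z, F z * pvoH f z‖ ≤ ((2 * R + 5) ^ 2 * (2 + Cv / 2) + ‖κ‖ * M) * t := by
    intro t ht ht1
    obtain ⟨δ₀, hδ₀, harm0⟩ := pvh_arm_unif hA hK1 (hρD.trans hDX) (η := t ^ 2) (by positivity)
    obtain ⟨δ₁, hδ₁, huc⟩ := hUC t ht
    set δ : ℝ := min (min δ₀ δ₁) (min r 1) with hδ
    have hδ0 : 0 < δ := lt_min (lt_min hδ₀ hδ₁) (lt_min hr0 one_pos)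
    have hδa : δ ≤ δ₀ := (min_le_left _ _).trans (min_le_left _ _)
    have hδb : δ ≤ δ₁ := (min_le_left _ _).trans (min_le_right _ _)
    have hδr : δ ≤ r := (min_le_right _ _).trans (min_le_left _ _)
    have hδ1 : δ ≤ 1 := (min_le_right _ _).trans (min_le_right _ _)
    obtain ⟨χ, hχc, hχt, hχ0, hχ1, hχe⟩ := pvh_pou hδ0
    obtain ⟨J, hJ1, hJ2, hJ3⟩ := pvh_idx_exists hR0' hRK hδ0 hδ1
    have hχs : ∀ p z, χ p z ≠ 0 → z ∈ Metric.ball (pvhGrid δ p) δ := fun p z hz => hχt p (subset_tsupport _ hz)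
    have hχk : ∀ p, HasCompactSupport (χ p) := fun p =>
      Metric.isCompact_of_isClosed_isBounded (isClosed_tsupport _) (Metric.isBounded_ball.subset (hχt p))
    have hsum : ∀ z ∈ Metric.cthickening r (tsupport f), ∑ p ∈ J, χ p z = 1 := fun z hz => hχe J z fun p hp => hJ1 z hz p hp
    have hxK : ∀ p ∈ J, pvhGrid δ p ∈ Metric.cthickening ρ (tsupport f) := by
      intro p hp
      obtain ⟨z, hz, hzp⟩ := hJ2 p hp
      rw [hKc.cthickening_eq_biUnion_closedBall hr0.le] at hz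
      obtain ⟨y, hy, hzy⟩ := mem_iUnion₂.1 hz
      refine Metric.mem_cthickening_of_dist_le _ y ρ _ hy ?_
      rw [Metric.mem_closedBall] at hzy
      rw [Metric.mem_ball] at hzp
      have := dist_triangle (pvhGrid δ p) z y
      rw [dist_comm (pvhGrid δ p) z] at this
      have e : ρ = r + r := by rw [hr]; ring
      linarith
    have h1 := pvh_key hA hC (F := F) J χ (pvhGrid δ) (η := t ^ 2) (lam := δ ^ 2 / t) hδ0 hδ1 hr0 (by positivity) (abs_nonneg _) (by positivity)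
      hvar hχc hχk hχ0 (hχ1 J) hχs
      (fun z hz => hsum z (hmem2 z (by simpa using hz))) (fun p hp => hDX (hρD (hxK p hp)))
      (fun p hp => by
        obtain ⟨q, a1, a2, a3, a4⟩ := harm0 _ (hxK p hp)
        exact ⟨q, a1, a2, a3, fun k o e he hm => a4 k o e he (hm.trans_le hδa)⟩)
      (fun p hp => hlim _ (hρD (hxK p hp)))
    have h2 := pvh_riem hD hf hfc hfD hF J χ (pvhGrid δ) (δ := δ) (η := t) (fun p => (hχc p).continuous) hχ0 hχs
      (fun z hz => hsum z (Metric.self_subset_cthickening _ hz))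
      (fun p hp z hz hzp => by
        have := huc z (Metric.self_subset_cthickening _ hz) _ (hxK p hp) (hzp.trans_le hδb)
        rw [Complex.dist_eq] at this
        exact this.le)
    have h3 : (J.card : ℝ) * (2 * (δ ^ 2 / t) * t ^ 2 + Cv * δ ^ 4 / (2 * (δ ^ 2 / t))) ≤ (2 * R + 5) ^ 2 * (2 + Cv / 2) * t := by
      have e : (J.card : ℝ) * (2 * (δ ^ 2 / t) * t ^ 2 + Cv * δ ^ 4 / (2 * (δ ^ 2 / t))) = ((J.card : ℝ) * δ ^ 2) * ((2 + Cv / 2) * t) := by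
        field_simp
      rw [e, mul_assoc ((2 * R + 5) ^ 2)]
      exact mul_le_mul_of_nonneg_right hJ3 (by positivity)
    have e4 : κ * ∫ z, F z * pvoH f z = κ * ((∫ z, F z * pvoH f z) - ∑ p ∈ J, (∫ z, (χ p z : ℂ) * pvoH f z) * F (pvhGrid δ p))
        + ∑ p ∈ J, (κ * ∫ z, (χ p z : ℂ) * pvoH f z) * F (pvhGrid δ p) := by
      rw [mul_sub, Finset.mul_sum]
      simp only [mul_assoc]
      ring
    rw [e4]
    refine (norm_add_le _ _).trans ?_
    rw [norm_mul]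
    have h5 := mul_le_mul_of_nonneg_left h2 (norm_nonneg κ)
    nlinarith [h1.trans h3]
  have h0 := pvh_zero_of_le (norm_nonneg _) (by positivity) key
  rw [norm_eq_zero] at h0
  exact (mul_eq_zero.1 h0).resolve_left hκ

/-- **O2 = Prop 8.4** TEX[prop:holomorphy], distributional form.   Proof: header of this file. -/
theorem pvo_hol {S : PvoSys Ω} {X D : Set ℂ} (hD : IsOpen D) (hDX : D ⊆ X) (hA : PvoArm S X) {κ : ℂ} (hκ : κ ≠ 0) {f : ℂ → ℝ}
    (hf : ContDiff ℝ ∞ f) (hfc : HasCompactSupport f) (hfD : tsupport f ⊆ D) (hC : PvoCR S κ f) {F : ℂ → ℂ} (hF : ContinuousOn F D)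
    (hlim : ∀ p ∈ D, Tendsto (fun k => S.Phi k p) atTop (𝓝 (F p))) : ∫ z, F z * pvoH f z = 0 :=
  pvh_hol hD hDX hA hκ hf hfc hfD hC hF hlim

/-- Weyl's lemma with LOCAL tests only -/
theorem pvo_weyl_local (hW : PvoWeyl) {D : Set ℂ} (hD : IsOpen D) {F : ℂ → ℂ} (hF : ContinuousOn F D)
    (h : ∀ (x : ℂ) (R : ℝ), 0 < R → Metric.closedBall x (6 * R) ⊆ D → ∀ f : ℂ → ℝ, ContDiff ℝ ∞ f → HasCompactSupport f →
      tsupport f ⊆ Metric.ball x R → ∫ z, F z * pvoH f z = 0) : DifferentiableOn ℂ F D := by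
  intro x hx
  obtain ⟨r, hr, hrD⟩ := Metric.isOpen_iff.1 hD x hx
  have hR : 0 < r / 7 := by positivity
  have hsub : Metric.closedBall x (6 * (r / 7)) ⊆ D := (Metric.closedBall_subset_ball (by linarith)).trans hrD
  have hb : Metric.ball x (r / 7) ⊆ D := (Metric.ball_subset_ball (by linarith)).trans hrD
  have h1 := hW (Metric.ball x (r / 7)) Metric.isOpen_ball F (hF.mono hb) fun f hf hfc hfs => h x (r / 7) hR hsub f hf hfc hfs
  exact ((h1 x (Metric.mem_ball_self hR)).differentiableAt (Metric.isOpen_ball.mem_nhds (Metric.mem_ball_self hR))).differentiableWithinAt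

/-! ## 4. O3: the crossing limit -/

/-- a limit of points asymptotically on a real line is on the line -/
theorem pvo_line {u : ℕ → ℂ} {L p v : ℂ} (hv : v ≠ 0) (hu : Tendsto u atTop (𝓝 L)) {t : ℕ → ℝ}
    (ht : Tendsto (fun k => u k - (p + t k * v)) atTop (𝓝 0)) : ∃ τ : ℝ, L = p + τ * v := by
  have h1 : Tendsto (fun k => ((u k - p) - (u k - (p + t k * v))) / v) atTop (𝓝 (((L - p) - 0) / v)) :=
    ((hu.sub_const p).sub ht).div_const v
  have h2 : (fun k => ((u k - p) - (u k - (p + t k * v))) / v) = fun k => ((t k : ℝ) : ℂ) := by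
    funext k
    field_simp
    ring
  rw [h2, sub_zero] at h1
  have h3 : Tendsto (fun k => (((t k : ℝ) : ℂ)).im) atTop (𝓝 ((L - p) / v).im) := (Complex.continuous_im.tendsto _).comp h1
  simp only [Complex.ofReal_im] at h3
  have h4 : ((L - p) / v).im = 0 := (tendsto_nhds_unique h3 tendsto_const_nhds)
  refine ⟨((L - p) / v).re, ?_⟩
  have h5 : ((((L - p) / v).re : ℝ) : ℂ) = (L - p) / v := by
    apply Complex.ext <;> simp [h4]
  rw [h5]
  field_simp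
  ring

/-- **MIRROR** (chart transfer of `pvcx_mirror_tri`, same proof as `pvcy_transfer`): no bounded holomorphic function on `D` has boundary values on the side lines of the NEGATIVELY oriented equilateral triangle -/
theorem pvo_mirror {D : Set ℂ} {d : ℂ} {ψ : ℂ → ℂ} (h : PvChart D d ψ) {a c : ℂ}
    (ha : a ∈ frontier D) (hc : c ∈ frontier D) (had : a ≠ d) (hcd : c ≠ d) (hψa : ψ a = 0) (hψc : ψ c = 1) {G : ℂ → ℂ} {w0 w1 : ℂ} (hw : w0 ≠ w1)
    (hG : DifferentiableOn ℂ G D) (hGc : ContinuousOn G (closure D \ {a, c, d}))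
    (hGb : ∃ C : ℝ, ∀ z ∈ closure D \ {a, c, d}, ‖G z‖ ≤ C)
    (h01 : ∀ z ∈ frontier D, z ≠ d → 0 < (ψ z).re → (ψ z).re < 1 → ∃ t : ℝ, G z = w0 + t * (w1 - w0))
    (h1 : ∀ z ∈ frontier D, z ≠ d → 1 < (ψ z).re → ∃ t : ℝ, G z = w1 + t * ((w1 - w0) * exp (-(2 * Real.pi * I / 3))))
    (h0 : ∀ z ∈ frontier D, z ≠ d → (ψ z).re < 0 → ∃ t : ℝ, G z = w0 + t * ((w1 - w0) * exp (-(Real.pi * I / 3)))) : False := by
  have hmaps : ∀ w : ℂ, 0 ≤ w.im → w ≠ 0 → w ≠ 1 → pvcyInv D d ψ w ∈ closure D \ {a, c, d} := by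
    intro w hw0 hw1 hw2
    refine ⟨(h.inv_mem hw0).1, ?_⟩
    rintro (e | e | e)
    · exact hw1 (by rw [← h.psi_inv hw0, e, hψa])
    · exact hw2 (by rw [← h.psi_inv hw0, e, hψc])
    · exact (h.inv_mem hw0).2 e
  have hreal : ∀ x : ℝ, pvcyInv D d ψ x ∈ frontier D ∧ pvcyInv D d ψ x ≠ d ∧ (ψ (pvcyInv D d ψ x)).re = x := by
    intro x
    have h1 := h.inv_mem_frontier (w := (x : ℂ)) (by simp)
    refine ⟨h1.1, h1.2, ?_⟩
    rw [h.psi_inv (w := (x : ℂ)) (by simp)]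
    simp
  obtain ⟨C, hC⟩ := hGb
  have z2 : cexp (Real.pi / 3 * I) * cexp (Real.pi / 3 * I) = cexp (Real.pi / 3 * I) - 1 := pvcx_zeta_sq
  have zi : cexp (Real.pi / 3 * I) * cexp (-(Real.pi / 3 * I)) = 1 := pvcx_zeta_inv
  have n2 : cexp (-(Real.pi / 3 * I)) * cexp (-(Real.pi / 3 * I)) = cexp (-(Real.pi / 3 * I)) - 1 := by
    linear_combination (cexp (-(Real.pi / 3 * I)) * cexp (-(Real.pi / 3 * I))) * z2
      - (cexp (Real.pi / 3 * I) * cexp (-(Real.pi / 3 * I)) + 1) * zi + cexp (-(Real.pi / 3 * I)) * zi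
  have e0 : cexp (-(Real.pi * I / 3)) = cexp (-(Real.pi / 3 * I)) := by congr 1; ring
  have e1 : cexp (-(2 * Real.pi * I / 3)) = cexp (-(Real.pi / 3 * I)) - 1 := by
    rw [← n2, ← Complex.exp_add]; congr 1; ring
  refine pvcx_mirror_tri (G := fun w => G (pvcyInv D d ψ w)) (C := C) (w0 := w0) (w1 := w1)
    (w2 := w0 + cexp (-(Real.pi / 3 * I)) * (w1 - w0)) hw.symm (by ring) ?_ (pvcy_comp_differentiableOn h hG)
    (fun w hw0 hw1 hw2 => hC _ (hmaps w hw0 hw1 hw2)) ?_ ?_ ?_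
  · refine hGc.comp ((pvcy_inv_continuousOn h).mono sdiff_subset) fun w hw => ?_
    exact hmaps w hw.1 (fun e => hw.2 (Or.inl e)) (fun e => hw.2 (Or.inr e))
  · intro x hx0 hx1
    obtain ⟨g1, g2, g3⟩ := hreal x
    exact h01 _ g1 g2 (by rw [g3]; exact hx0) (by rw [g3]; exact hx1)
  · intro x hx1
    obtain ⟨g1, g2, g3⟩ := hreal x
    obtain ⟨t, ht⟩ := h1 _ g1 g2 (by rw [g3]; exact hx1)
    refine ⟨t, ?_⟩
    simp only [ht, e1]
    ring
  · intro x hx0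
    obtain ⟨g1, g2, g3⟩ := hreal x
    obtain ⟨t, ht⟩ := h0 _ g1 g2 (by rw [g3]; exact hx0)
    refine ⟨t, ?_⟩
    simp only [ht, e0]
    ring

/-- the limit function: continuity, bound, side lines, value at `b` -/
theorem pvo_limit {D : Set ℂ} {d : ℂ} {ψ : ℂ → ℂ} {a b c : ℂ} (S : PvoSys Ω) {w0 w1 : ℂ} (hw : w0 ≠ w1)
    {pc : ℕ → ℝ} (hA : PvoArm S (closure D \ {a, c, d})) (hB : PvoBd S D d ψ w0 w1 b pc) :
    ∃ φ : ℕ → ℕ, StrictMono φ ∧ ∃ F : ℂ → ℂ, ContinuousOn F (closure D \ {a, c, d}) ∧ (∀ p ∈ closure D \ {a, c, d}, ‖F p‖ ≤ 1) ∧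
      (∀ p ∈ closure D \ {a, c, d}, Tendsto (fun k => S.Phi (φ k) p) atTop (𝓝 (F p))) ∧
      (∀ z ∈ frontier D, z ≠ d → 0 < (ψ z).re → (ψ z).re < 1 → z ∈ closure D \ {a, c, d} → ∃ t : ℝ, F z = w0 + t * (w1 - w0)) ∧
      (∀ z ∈ frontier D, z ≠ d → 1 < (ψ z).re → z ∈ closure D \ {a, c, d} → ∃ t : ℝ, F z = w1 + t * ((w1 - w0) * exp (2 * Real.pi * I / 3))) ∧
      (∀ z ∈ frontier D, z ≠ d → (ψ z).re < 0 → z ∈ closure D \ {a, c, d} → ∃ t : ℝ, F z = w0 + t * ((w1 - w0) * exp (Real.pi * I / 3))) := by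
  obtain ⟨φ, hφ, F, hF, hFb, hl⟩ := pvo_cpt hA
  have hv : w1 - w0 ≠ 0 := sub_ne_zero.2 hw.symm
  refine ⟨φ, hφ, F, hF, hFb, hl, fun z hz hzd h0 h1 hzX => ?_, fun z hz hzd h1 hzX => ?_, fun z hz hzd h0 hzX => ?_⟩
  · obtain ⟨t, ht⟩ := hB.s01 z hz hzd h0 h1
    exact pvo_line hv (hl z hzX) (t := fun k => t (φ k)) (ht.comp hφ.tendsto_atTop)
  · obtain ⟨t, ht⟩ := hB.s1 z hz hzd h1
    exact pvo_line (mul_ne_zero hv (exp_ne_zero _)) (hl z hzX) (t := fun k => t (φ k)) (ht.comp hφ.tendsto_atTop)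
  · obtain ⟨t, ht⟩ := hB.s0 z hz hzd h0
    exact pvo_line (mul_ne_zero hv (exp_ne_zero _)) (hl z hzX) (t := fun k => t (φ k)) (ht.comp hφ.tendsto_atTop)

/-- along a subsequence.   `hC`: the discrete CR relation holds for `F` (case `a ≠ 1` of the transport constant) or for `conj F` (case `a = 1`, excluded by `pvo_mirror`). -/
theorem pvo_main_sub (hW : PvoWeyl) (hU : PvcyUniq) {D : Set ℂ} {d : ℂ} {ψ : ℂ → ℂ} (h : PvChart D d ψ) {a b c : ℂ}
    (ha : a ∈ frontier D) (hb : b ∈ frontier D) (hc : c ∈ frontier D) (had : a ≠ d) (hbd : b ≠ d) (hcd : c ≠ d)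
    (hψa : ψ a = 0) (hψc : ψ c = 1) (hord : 0 < (ψ b).re ∧ (ψ b).re < 1) (S : PvoSys Ω) {κ : ℂ} (hκ : κ ≠ 0) {w0 w1 : ℂ} (hw : w0 ≠ w1)
    {pc : ℕ → ℝ} (hA : PvoArm S (closure D \ {a, c, d}))
    (hC : PvoCRAll S κ D ∨ PvoCRAll S.conj κ D) (hB : PvoBd S D d ψ w0 w1 b pc) :
    ∃ φ : ℕ → ℕ, StrictMono φ ∧ Tendsto (fun k => pc (φ k)) atTop (𝓝 (cardyF (ψ b).re)) := by
  obtain ⟨φ, hφ, F, hFc, hFb, hlim⟩ := pvo_cpt hA
  have hφt : Tendsto φ atTop atTop := hφ.tendsto_atTop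
  have hne : w1 - w0 ≠ 0 := sub_ne_zero.2 hw.symm
  refine ⟨φ, hφ, ?_⟩
  have hfr : ∀ z ∈ frontier D, z ∉ D := fun z hz => by
    rw [h.isOpen.frontier_eq] at hz; exact hz.2
  have hDX : D ⊆ closure D \ {a, c, d} := by
    intro z hz
    refine ⟨subset_closure hz, ?_⟩
    rintro (e | e | e)
    · exact hfr a ha (e ▸ hz)
    · exact hfr c hc (e ▸ hz)
    · exact hfr d h.hd (e ▸ hz)
  -- frontier points off the marks
  have hX : ∀ z ∈ frontier D, z ≠ d → (ψ z).re ≠ 0 → (ψ z).re ≠ 1 → z ∈ closure D \ {a, c, d} := by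
    intro z hz hzd h0 h1
    refine ⟨frontier_subset_closure hz, ?_⟩
    rintro (e | e | e)
    · exact h0 (by rw [e, hψa]; rfl)
    · exact h1 (by rw [e, hψc]; rfl)
    · exact hzd e
  have hexp1 : (w1 - w0) * exp (2 * Real.pi * I / 3) ≠ 0 := mul_ne_zero hne (exp_ne_zero _)
  have hexp0 : (w1 - w0) * exp (Real.pi * I / 3) ≠ 0 := mul_ne_zero hne (exp_ne_zero _)
  -- the mirror case is impossible (helper80)
  have hloc : ∀ (x : ℂ) (R : ℝ), 0 < R → Metric.closedBall x (6 * R) ⊆ D → Metric.ball x R ⊆ D := fun x R hR hx =>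
    (Metric.ball_subset_closedBall.trans (Metric.closedBall_subset_closedBall (by linarith))).trans hx
  have hC : PvoCRAll S κ D := by
    rcases hC with hC | hC
    · exact hC
    exfalso
    have hGc : ContinuousOn (fun z => (starRingEnd ℂ) (F z)) (closure D \ {a, c, d}) := Complex.continuous_conj.comp_continuousOn hFc
    have hG : DifferentiableOn ℂ (fun z => (starRingEnd ℂ) (F z)) D := by
      refine pvo_weyl_local hW h.isOpen (hGc.mono hDX) fun x R hR hx f hf hfc hfD => ?_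
      exact pvo_hol (S := S.conj.sub φ) h.isOpen hDX (hA.conj.sub hφt) hκ hf hfc (hfD.trans (hloc x R hR hx))
        ((hC x R hR hx f hf hfc hfD).sub hφt) (hGc.mono hDX)
        fun p hp => ((Complex.continuous_conj.tendsto _).comp (hlim p (hDX hp))).congr fun k => (pvo_Phi_conj S (φ k) p).symm
    have e1 : (starRingEnd ℂ) (exp (2 * Real.pi * I / 3)) = exp (-(2 * Real.pi * I / 3)) := by
      rw [← Complex.exp_conj]
      congr 1
      have c2 : (starRingEnd ℂ) 2 = 2 := Complex.conj_ofNat 2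
      have c3 : (starRingEnd ℂ) 3 = 3 := Complex.conj_ofNat 3
      simp only [map_div₀, map_mul, Complex.conj_ofReal, Complex.conj_I, c2, c3]
      ring
    have e0 : (starRingEnd ℂ) (exp (Real.pi * I / 3)) = exp (-(Real.pi * I / 3)) := by
      rw [← Complex.exp_conj]
      congr 1
      have c2 : (starRingEnd ℂ) 2 = 2 := Complex.conj_ofNat 2
      have c3 : (starRingEnd ℂ) 3 = 3 := Complex.conj_ofNat 3
      simp only [map_div₀, map_mul, Complex.conj_ofReal, Complex.conj_I, c2, c3]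
      ring
    refine pvo_mirror h ha hc had hcd hψa hψc (G := fun z => (starRingEnd ℂ) (F z)) (w0 := (starRingEnd ℂ) w0) (w1 := (starRingEnd ℂ) w1)
      (fun e => hw ((starRingEnd ℂ).injective e)) hG hGc ⟨1, fun z hz => (RCLike.norm_conj _).trans_le (hFb z hz)⟩ ?_ ?_ ?_
    · intro z hz hzd h0 h1
      obtain ⟨t, ht⟩ := hB.s01 z hz hzd h0 h1
      obtain ⟨τ, hτ⟩ := pvo_line hne (hlim z (hX z hz hzd h0.ne' h1.ne)) (t := t ∘ φ) (ht.comp hφt)
      refine ⟨τ, ?_⟩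
      simp only [hτ, map_add, map_mul, map_sub, Complex.conj_ofReal]
    · intro z hz hzd h1
      obtain ⟨t, ht⟩ := hB.s1 z hz hzd h1
      obtain ⟨τ, hτ⟩ := pvo_line hexp1 (hlim z (hX z hz hzd (by linarith : (0:ℝ) < (ψ z).re).ne' h1.ne')) (t := t ∘ φ) (ht.comp hφt)
      refine ⟨τ, ?_⟩
      simp only [hτ, map_add, map_mul, map_sub, Complex.conj_ofReal, e1]
    · intro z hz hzd h0
      obtain ⟨t, ht⟩ := hB.s0 z hz hzd h0
      obtain ⟨τ, hτ⟩ := pvo_line hexp0 (hlim z (hX z hz hzd h0.ne (by linarith : (ψ z).re < 1).ne)) (t := t ∘ φ) (ht.comp hφt)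
      refine ⟨τ, ?_⟩
      simp only [hτ, map_add, map_mul, map_sub, Complex.conj_ofReal, e0]
  have hhol : DifferentiableOn ℂ F D := by
    refine pvo_weyl_local hW h.isOpen (hFc.mono hDX) fun x R hR hx f hf hfc hfD => ?_
    exact pvo_hol (S := S.sub φ) h.isOpen hDX (hA.sub hφt) hκ hf hfc (hfD.trans (hloc x R hR hx))
      ((hC x R hR hx f hf hfc hfD).sub hφt) (hFc.mono hDX)
      fun p hp => hlim p (hDX hp)
  have key := pvcy_transfer hU h ha hb hc had hbd hcd hψa hψc hord hw hhol hFc ⟨1, hFb⟩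
    (fun z hz hzd h0 h1 => by
      obtain ⟨t, ht⟩ := hB.s01 z hz hzd h0 h1
      exact pvo_line hne (hlim z (hX z hz hzd h0.ne' h1.ne)) (t := t ∘ φ) (ht.comp hφt))
    (fun z hz hzd h1 => by
      obtain ⟨t, ht⟩ := hB.s1 z hz hzd h1
      exact pvo_line hexp1 (hlim z (hX z hz hzd (by linarith : (0:ℝ) < (ψ z).re).ne' h1.ne')) (t := t ∘ φ) (ht.comp hφt))
    (fun z hz hzd h0 => by
      obtain ⟨t, ht⟩ := hB.s0 z hz hzd h0
      exact pvo_line hexp0 (hlim z (hX z hz hzd h0.ne (by linarith : (ψ z).re < 1).ne)) (t := t ∘ φ) (ht.comp hφt))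
  have hb' := hlim b (hX b hb hbd hord.1.ne' hord.2.ne)
  have hco := hB.coef.comp hφt
  -- `pc (φ k) (w1 - w0) → F b - w0`
  have h1 : Tendsto (fun k => ((pc (φ k) : ℝ) : ℂ) * (w1 - w0)) atTop (𝓝 (F b - 0 - w0)) := by
    refine ((hb'.sub hco).sub_const w0).congr fun k => ?_
    simp only [Function.comp]
    ring
  have h2 : Tendsto (fun k => ((pc (φ k) : ℝ) : ℂ)) atTop (𝓝 ((F b - 0 - w0) / (w1 - w0))) := by
    refine (h1.div_const (w1 - w0)).congr fun k => ?_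
    field_simp
  have h3 : (F b - 0 - w0) / (w1 - w0) = ((cardyF (ψ b).re : ℝ) : ℂ) := by
    rw [key]; field_simp; ring
  rw [h3] at h2
  exact (tendsto_ofReal_iff).1 h2

/-- **O3: EXIT OF THE MODEL-FREE HALF.**   `hC` (fit of helper161): bulk transport gives the constant `a`, hence the alternative CR for `F` / CR for `conj F`, only ALONG A SUBSEQUENCE of any given sequence. -/
theorem pvo_main (hW : PvoWeyl) (hU : PvcyUniq) {D : Set ℂ} {d : ℂ} {ψ : ℂ → ℂ} (h : PvChart D d ψ) {a b c : ℂ}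
    (ha : a ∈ frontier D) (hb : b ∈ frontier D) (hc : c ∈ frontier D) (had : a ≠ d) (hbd : b ≠ d) (hcd : c ≠ d)
    (hψa : ψ a = 0) (hψc : ψ c = 1) (hord : 0 < (ψ b).re ∧ (ψ b).re < 1) (S : PvoSys Ω) {κ : ℂ} (hκ : κ ≠ 0) {w0 w1 : ℂ} (hw : w0 ≠ w1)
    {pc : ℕ → ℝ} (hA : PvoArm S (closure D \ {a, c, d}))
    (hC : ∀ ns : ℕ → ℕ, Tendsto ns atTop atTop → ∃ ms : ℕ → ℕ, StrictMono ms ∧
      (PvoCRAll ((S.sub ns).sub ms) κ D ∨ PvoCRAll ((S.sub ns).sub ms).conj κ D)) (hB : PvoBd S D d ψ w0 w1 b pc) :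
    Tendsto pc atTop (𝓝 (cardyF (ψ b).re)) := by
  refine tendsto_of_subseq_tendsto fun ns hns => ?_
  obtain ⟨ms, hms, hC⟩ := hC ns hns
  obtain ⟨φ, -, hφ⟩ := pvo_main_sub hW hU h ha hb hc had hbd hcd hψa hψc hord ((S.sub ns).sub ms) hκ hw
    ((hA.sub hns).sub hms.tendsto_atTop) hC ((hB.sub hns).sub hms.tendsto_atTop)
  exact ⟨ms ∘ φ, hφ⟩

theorem pvo_weyl : PvoWeyl := fun _ hU _ hF h => pvweyl_main hU hF h

/-- **EXIT OF Obs/Abs**: `pvo_main` with Weyl's lemma (helper45) and the uniqueness on the half plane (CX1 + helper61) discharged -/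
theorem pvo_exit {D : Set ℂ} {d : ℂ} {ψ : ℂ → ℂ} (h : PvChart D d ψ) {a b c : ℂ}
    (ha : a ∈ frontier D) (hb : b ∈ frontier D) (hc : c ∈ frontier D) (had : a ≠ d) (hbd : b ≠ d) (hcd : c ≠ d)
    (hψa : ψ a = 0) (hψc : ψ c = 1) (hord : 0 < (ψ b).re ∧ (ψ b).re < 1) (S : PvoSys Ω) {κ : ℂ} (hκ : κ ≠ 0) {w0 w1 : ℂ} (hw : w0 ≠ w1)
    {pc : ℕ → ℝ} (hA : PvoArm S (closure D \ {a, c, d}))
    (hC : ∀ ns : ℕ → ℕ, Tendsto ns atTop atTop → ∃ ms : ℕ → ℕ, StrictMono ms ∧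
      (PvoCRAll ((S.sub ns).sub ms) κ D ∨ PvoCRAll ((S.sub ns).sub ms).conj κ D)) (hB : PvoBd S D d ψ w0 w1 b pc) :
    Tendsto pc atTop (𝓝 (cardyF (ψ b).re)) :=
  pvo_main pvo_weyl pvch_uniq h ha hb hc had hbd hcd hψa hψc hord S hκ hw hA hC hB

theorem pvo_eqns_cite2 : True := by
  have := @PvoCRAll.eq_1
  trivial

end Claimed.Agent.R289
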