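import Claimed.Agent.R289.Obs.Quad
import Claimed.Agent.R289.Cr.Main

/-!
# Row 289 (S0537, Cardy for Poisson-Voronoi), unit OBS, file Obs/SeamCr: THE SEAM BETWEEN BOX:CR AND THE FIELD `cr` OF `PvoCR`      (architect + prover helper289; prefix `pvsc_`, `Pvsc`)

TEX: 08-observable.tex, proof of Prop. 8.4, the sentence "summation by parts turns `∑_t f(z_t) ∑_j d_tj F_{m_j(t)}` into `∑_e d_{t,e} (f(z_t) - f(z_t')) F_e`" and (8.3).

PRODUCER  `Cr/Main.lean` (helper7): `PvCR` / `pvcr_split`: `E |S(Y)| → 0` (or `E |S̄(Y)| → 0`), `S(Y) = 𝔅.crS q x R f Y = ∑_d wV d · obs q d` on the good geometries `𝔅.Gd q x R Y`, `0` elsewhere.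
CONSUMER  `Obs/Abs.lean` (helper174): the field `cr` of `PvoCR S κ f`: the mean of `S.sumF f 1 k = ∑_{e ∈ E} c_e F_e` tends to `0`; `c_e = pvqdC f tr op e = d_{t,e} (f(z_t) - f(z_t'))` (dictionary `PvqdDict` of `Obs/Quad.lean`, helper199).

## Contents
1. `pvsc_inComp_opp`, `pvsc_selH_opp`, `pvsc_obs_opp`      the observable is a function of the EDGE: `T.obs q (T.opp e) = T.obs q e`   (a probe sits on a dual edge; `CStep` always allows `opp`).
2. `PvqdOk.parts`      summation by parts on a dart system for a symmetric edge function `F`:   `∑_e pvqdC f tr op e · F e = 2 ∑_e f(z_t) d_{t,e} F e`.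
3. `PvscDict 𝔅 Y E tr op ι f`  the DICTIONARY between the darts `E` of a `PvoSys` at one sample point and the darts of the bulk family; `PvscDict.sum`:   `∑_{e ∈ E} pvqdC f tr op e · Φ (ι e) = 2 ∑ᶠ_d wV d · Φ d`  for every symmetric `Φ`;
   `PvscDict.crS`, `PvscDict.crSc`: the two instances `Φ = obs q`, `Φ = conj (obs q)`.
4. `pvsc_sumF_le`      `‖sumF f 1‖ ≤ tv f univ` ALWAYS (`|F_e| ≤ 1`).
5. **`pvsc_maj`**      MODEL FREE: `A k` measurable good events of probability `→ 1`, on `A k`: `sumF f 1 k = 2 Z k`, `‖Z k‖ₑ ≤ U k` with `U k` measurable of mean `→ 0`; then `sumF f 1 k` has a MEASURABLE REAL MAJORANT `M k`, valid at ALL sample points, of mean `→ 0`.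
   No measurability of `sumF` or `Z` is used: this is the form needed by the finitely additive mean (`pvom_norm_le`) as well as by the Bochner integral.
6. `pvsc_mean_of_maj`, `pvsc_cr`      the field `cr` in the MEAN form of `Obs/Abs.lean` (`pvoMean`, ruling 4 of helper174); `pvsc_cr_of_maj`: the Bochner form;   `pvsc_conj_sumF`: `S.conj.sumF` in terms of `conj Fe`.
7. `PvoiIn.sub`, `PvoiIn.conj`      the record of helper184 is stable under subsequences and does not see the observable.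
9. `pvsc_R_abs_le`, `pvsc_mean_le`, **`pvsc_mean_tendsto`**      `‖pvoMean μ H‖ ≤ 2 ∫⁻ u` for ANY measurable `u : Ω → ℝ≥0∞` with `‖H‖ₑ ≤ u` (the value `⊤` is allowed: by cases on domination).
8. `PvscLoc S 𝔅 q x R f` = what the INSTANCE signs for one local test;   **`pvsc_hC : PvCR → (∀ local tests, PvscLoc) → hC`** = the hypothesis `hC` of `pvo_exit` (mirror alternative `a ≠ 1` / `a = 1` included).
-/

set_option autoImplicit false

namespace Claimed.Agent.R289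

open MeasureTheory Filter Topology Set Complex
open scoped ContDiff ENNReal

/-! ## 1. the observable is a function of the edge -/

section obs

variable {V D : Type} (T : PvMap V D)

theorem pvsc_inComp_opp (s : V → Bool) (d e : D) : T.InComp s d (T.opp e) ↔ T.InComp s d e := by
  constructor
  · intro h
    exact Relation.ReflTransGen.tail h (Or.inl (T.opp_opp e).symm)
  · intro h
    exact Relation.ReflTransGen.tail h (Or.inl rfl)

theorem pvsc_selH_opp (s : V → Bool) (q e : D) : T.selH s q (T.opp e) = T.selH s q e := by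
  classical
  unfold PvMap.selH
  exact congrArg₂ _ (congrArg₂ _ (if_congr (and_congr_right fun _ => pvsc_inComp_opp T s _ e) rfl rfl)
    (if_congr (and_congr_right fun _ => pvsc_inComp_opp T s _ e) rfl rfl)) (if_congr (and_congr_right fun _ => pvsc_inComp_opp T s _ e) rfl rfl)

/-- the quenched observable does not depend on the orientation of the probe -/
theorem pvsc_obs_opp (q e : D) : T.obs q (T.opp e) = T.obs q e := by
  unfold PvMap.obs
  simp only [pvsc_selH_opp]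

end obs

/-! ## 2. summation by parts on a dart system -/

/-- summation by parts for a symmetric edge function -/
theorem PvqdOk.parts {Ed : Type} {E : Finset Ed} {tr : Ed → ℂ × ℂ × ℂ} {op : Ed → Ed} (h : PvqdOk E tr op) (f : ℂ → ℝ) (F : Ed → ℂ)
    (hF : ∀ e ∈ E, F (op e) = F e) :
    ∑ e ∈ E, pvqdC f tr op e * F e = 2 * ∑ e ∈ E, (f (pvqdBar (tr e)) : ℂ) * pvqdD (tr e) * F e := by
  have e1 : ∀ e ∈ E, pvqdC f tr op e * F e
      = (f (pvqdBar (tr e)) : ℂ) * pvqdD (tr e) * F e + (f (pvqdBar (tr (op e))) : ℂ) * pvqdD (tr (op e)) * F (op e) := fun e he => by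
    unfold pvqdC
    rw [h.D_op he, hF e he]; push_cast; ring
  rw [Finset.sum_congr rfl e1, Finset.sum_add_distrib, h.sum_op (fun e => (f (pvqdBar (tr e)) : ℂ) * pvqdD (tr e) * F e)]
  ring

/-! ## 3. the dictionary with a bulk family -/

/-- **the dictionary** at one geometry `Y`: `ι` names the darts `E` of the system inside the bulk family. -/
structure PvscDict {X : Type} (𝔅 : PvBulk X) (Y : Set ℂ) {Ed : Type} (E : Finset Ed) (tr : Ed → ℂ × ℂ × ℂ) (op : Ed → Ed)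
    (ι : Ed → 𝔅.D Y) (f : ℂ → ℝ) : Prop where
  ok : PvqdOk E tr op
  inj : Set.InjOn ι E
  emb : ∀ e ∈ E, 𝔅.Emb Y (ι e)
  tr_eq : ∀ e ∈ E, tr e = (𝔅.pos Y ((𝔅.T Y).src (ι e)), 𝔅.pos Y ((𝔅.T Y).tgt (ι e)), 𝔅.pos Y ((𝔅.T Y).apex (ι e)))
  op_eq : ∀ e ∈ E, ι (op e) = (𝔅.T Y).opp (ι e)
  /-- every embedded face which sees the test function has its three darts in `E` -/
  cov : ∀ d, 𝔅.Emb Y d → f ((𝔅.T Y).bary (𝔅.pos Y) d) ≠ 0 → ∃ e ∈ E, ι e = d

namespace PvscDict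

variable {X : Type} {𝔅 : PvBulk X} {Y : Set ℂ} {Ed : Type} {E : Finset Ed} {tr : Ed → ℂ × ℂ × ℂ} {op : Ed → Ed} {ι : Ed → 𝔅.D Y} {f : ℂ → ℝ}

theorem wV_eq (h : PvscDict 𝔅 Y E tr op ι f) {e : Ed} (he : e ∈ E) :
    𝔅.wV Y (fun z => (f z : ℂ)) (ι e) = (f (pvqdBar (tr e)) : ℂ) * pvqdD (tr e) := by
  unfold PvBulk.wV
  rw [if_pos (h.emb e he), h.tr_eq e he]
  rfl

/-- **summation by parts through the dictionary** -/
theorem sum (h : PvscDict 𝔅 Y E tr op ι f) (Φ : 𝔅.D Y → ℂ) (hΦ : ∀ d, Φ ((𝔅.T Y).opp d) = Φ d) :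
    ∑ e ∈ E, pvqdC f tr op e * Φ (ι e) = 2 * ∑ᶠ d, 𝔅.wV Y (fun z => (f z : ℂ)) d * Φ d := by
  classical
  rw [h.ok.parts f (fun e => Φ (ι e)) (fun e he => by rw [h.op_eq e he, hΦ])]
  congr 1
  have hsupp : Function.support (fun d => 𝔅.wV Y (fun z => (f z : ℂ)) d * Φ d) ⊆ ((E.image ι : Finset (𝔅.D Y)) : Set (𝔅.D Y)) := by
    intro d hd
    have h1 : 𝔅.wV Y (fun z => (f z : ℂ)) d ≠ 0 := left_ne_zero_of_mul hd
    unfold PvBulk.wV at h1
    by_cases hE : 𝔅.Emb Y d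
    · rw [if_pos hE] at h1
      have h2 : f ((𝔅.T Y).bary (𝔅.pos Y) d) ≠ 0 := fun h0 => h1 (by show ((f ((𝔅.T Y).bary (𝔅.pos Y) d) : ℝ) : ℂ) * _ = 0; rw [h0]; simp)
      obtain ⟨e, he, rfl⟩ := h.cov d hE h2
      exact Finset.mem_coe.2 (Finset.mem_image_of_mem ι he)
    · rw [if_neg hE] at h1
      exact absurd rfl h1
  rw [finsum_eq_sum_of_support_subset _ hsupp, Finset.sum_image h.inj]
  exact Finset.sum_congr rfl fun e he => by rw [h.wV_eq he]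

/-- the instance `Φ = obs q` on a good geometry -/
theorem crS (h : PvscDict 𝔅 Y E tr op ι f) (q : ∀ Y, 𝔅.D Y) (x : ℂ) (R : ℝ) (hG : 𝔅.Gd q x R Y) :
    ∑ e ∈ E, pvqdC f tr op e * (𝔅.T Y).obs (q Y) (ι e) = 2 * 𝔅.crS q x R (fun z => (f z : ℂ)) Y := by
  unfold PvBulk.crS
  rw [if_pos hG]
  exact h.sum _ fun d => pvsc_obs_opp _ _ _

/-- the instance `Φ = conj (obs q)` on a good geometry -/
theorem crSc (h : PvscDict 𝔅 Y E tr op ι f) (q : ∀ Y, 𝔅.D Y) (x : ℂ) (R : ℝ) (hG : 𝔅.Gd q x R Y) :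
    ∑ e ∈ E, pvqdC f tr op e * (starRingEnd ℂ) ((𝔅.T Y).obs (q Y) (ι e)) = 2 * 𝔅.crSc q x R (fun z => (f z : ℂ)) Y := by
  unfold PvBulk.crSc
  rw [if_pos hG]
  exact h.sum (fun d => (starRingEnd ℂ) ((𝔅.T Y).obs (q Y) d)) fun d => by rw [pvsc_obs_opp]

end PvscDict

/-! ## 4. - 6. the probabilistic glue -/

section prob

variable {Ω : Type} [MeasurableSpace Ω]

theorem pvsc_sumF_one (S : PvoSys Ω) (f : ℂ → ℝ) (k : ℕ) (o : Ω) :
    S.sumF f (fun _ => 1) k o = ∑ e ∈ S.E k o, S.c f k o e * S.Fe k o e := by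
  unfold PvoSys.sumF
  exact Finset.sum_congr rfl fun e _ => by simp

theorem pvsc_conj_sumF (S : PvoSys Ω) (f : ℂ → ℝ) (k : ℕ) (o : Ω) :
    S.conj.sumF f (fun _ => 1) k o = ∑ e ∈ S.E k o, S.c f k o e * (starRingEnd ℂ) (S.Fe k o e) :=
  pvsc_sumF_one S.conj f k o

/-- `‖∑ c_e F_e‖ ≤ |μ|(ℂ)`, always -/
theorem pvsc_sumF_le (S : PvoSys Ω) (f : ℂ → ℝ) (k : ℕ) (o : Ω) (hb : ∀ e ∈ S.E k o, ‖S.Fe k o e‖ ≤ 1) :
    ‖S.sumF f (fun _ => 1) k o‖ ≤ S.tv f univ k o := by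
  rw [pvsc_sumF_one, pvoi_tv_univ]
  refine (norm_sum_le _ _).trans (Finset.sum_le_sum fun e he => ?_)
  rw [norm_mul]
  exact mul_le_of_le_one_right (norm_nonneg _) (hb e he)

/-- **THE MAJORANT.**   `sumF f 1 k` has a measurable real majorant, valid at all sample points, with mean `→ 0`. -/
theorem pvsc_maj {S : PvoSys Ω} {κ : ℂ} {f : ℂ → ℝ} {W : ℂ → ℝ → ℕ → Ω → ℝ} {G : ℝ → ℕ → Set Ω} (h : PvoiIn S κ f W G)
    (hb : ∀ k o, ∀ e ∈ S.E k o, ‖S.Fe k o e‖ ≤ 1)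
    (A : ℕ → Set Ω) (hA : ∀ k, MeasurableSet (A k)) (hAp : Tendsto (fun k => S.P k (A k)ᶜ) atTop (𝓝 0))
    (Z : ℕ → Ω → ℂ) (U : ℕ → Ω → ℝ≥0∞) (hU : ∀ k, Measurable (U k))
    (hid : ∀ k, ∀ o ∈ A k, S.sumF f (fun _ => 1) k o = 2 * Z k o) (hZU : ∀ k, ∀ o ∈ A k, ‖Z k o‖ₑ ≤ U k o)
    (hUl : Tendsto (fun k => ∫⁻ o, U k o ∂S.P k) atTop (𝓝 0)) :
    ∃ M : ℕ → Ω → ℝ, (∀ k, Measurable (M k)) ∧ (∀ k o, ‖S.sumF f (fun _ => 1) k o‖ ≤ M k o) ∧
      Tendsto (fun k => ∫⁻ o, ENNReal.ofReal (M k o) ∂S.P k) atTop (𝓝 0) := by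
  classical
  obtain ⟨C, I, hI⟩ := h.tv_univ
  have hL : PvoiL2 S.P fun k o => C * ∑ p ∈ I, W p 1 k o := (pvoi_L2_sum h.prob I fun p _ => h.W_L2 p).const_mul C
  set B : ℕ → Ω → ℝ := fun k o => C * ∑ p ∈ I, W p 1 k o with hB
  have hBle : ∀ k o, ‖S.sumF f (fun _ => 1) k o‖ ≤ B k o := fun k o => (pvsc_sumF_le S f k o (hb k o)).trans (hI k o)
  -- the majorant in `ℝ≥0∞`
  set m : ℕ → Ω → ℝ≥0∞ := fun k o => min (ENNReal.ofReal (B k o)) (2 * U k o + (A k)ᶜ.indicator (fun o => ENNReal.ofReal (B k o)) o) with hm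
  have hmm : ∀ k, Measurable (m k) := fun k =>
    (hL.1 k).ennreal_ofReal.min (((hU k).const_mul 2).add ((hL.1 k).ennreal_ofReal.indicator (hA k).compl))
  have hmt : ∀ k o, m k o ≠ ⊤ := fun k o => ne_top_of_le_ne_top ENNReal.ofReal_ne_top (min_le_left _ _)
  have hle : ∀ k o, ‖S.sumF f (fun _ => 1) k o‖ₑ ≤ m k o := fun k o => by
    refine le_min ?_ ?_
    · rw [← ofReal_norm]
      exact ENNReal.ofReal_le_ofReal (hBle k o)
    · by_cases ho : o ∈ A k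
      · refine le_trans ?_ le_self_add
        rw [hid k o ho, enorm_mul]
        have e2 : ‖(2 : ℂ)‖ₑ = 2 := by
          rw [← ofReal_norm]; simp
        rw [e2]
        exact mul_le_mul_right (hZU k o ho) _
      · refine le_trans ?_ le_add_self
        rw [indicator_of_mem (show o ∈ (A k)ᶜ from ho), ← ofReal_norm]
        exact ENNReal.ofReal_le_ofReal (hBle k o)
  refine ⟨fun k o => (m k o).toReal, fun k => (hmm k).ennreal_toReal, fun k o => ?_, ?_⟩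
  · have := (ENNReal.toReal_le_toReal enorm_ne_top (hmt k o)).2 (hle k o)
    rwa [toReal_enorm] at this
  · have e : ∀ k o, ENNReal.ofReal ((m k o).toReal) = m k o := fun k o => ENNReal.ofReal_toReal (hmt k o)
    simp only [e]
    have l1 : Tendsto (fun k => 2 * ∫⁻ o, U k o ∂S.P k) atTop (𝓝 0) := by
      have := ENNReal.Tendsto.const_mul (a := 2) hUl (Or.inr (by norm_num))
      rwa [mul_zero] at this
    have l2 := hL.small (fun k => (hA k).compl) hAp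
    have l3 := l1.add l2
    rw [add_zero] at l3
    refine tendsto_of_tendsto_of_tendsto_of_le_of_le tendsto_const_nhds l3 (fun _ => zero_le) fun k => ?_
    calc ∫⁻ o, m k o ∂S.P k ≤ ∫⁻ o, (2 * U k o + (A k)ᶜ.indicator (fun o => ENNReal.ofReal (B k o)) o) ∂S.P k :=
          lintegral_mono fun o => min_le_right _ _
      _ = 2 * ∫⁻ o, U k o ∂S.P k + ∫⁻ o, (A k)ᶜ.indicator (fun o => ENNReal.ofReal (B k o)) o ∂S.P k := by
          rw [lintegral_add_left ((hU k).const_mul 2), lintegral_const_mul _ (hU k)]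

/-- from a majorant to the Bochner form of the field `cr` (whatever the measurability of `sumF`) -/
theorem pvsc_cr_of_maj {P : ℕ → Measure Ω} {H : ℕ → Ω → ℂ} {M : ℕ → Ω → ℝ} (hle : ∀ k o, ‖H k o‖ ≤ M k o)
    (hl : Tendsto (fun k => ∫⁻ o, ENNReal.ofReal (M k o) ∂P k) atTop (𝓝 0)) : Tendsto (fun k => ∫ o, H k o ∂P k) atTop (𝓝 0) := by
  have h0 : Tendsto (fun k => ∫⁻ o, ‖H k o‖ₑ ∂P k) atTop (𝓝 0) :=
    tendsto_of_tendsto_of_tendsto_of_le_of_le tendsto_const_nhds hl (fun _ => zero_le) fun k =>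
      lintegral_mono fun o => by
        rw [← ofReal_norm]
        exact ENNReal.ofReal_le_ofReal (hle k o)
  have h1 : Tendsto (fun k => (∫⁻ o, ‖H k o‖ₑ ∂P k).toReal) atTop (𝓝 0) := by
    have := (ENNReal.tendsto_toReal ENNReal.zero_ne_top).comp h0
    rw [ENNReal.toReal_zero] at this
    exact this
  refine squeeze_zero_norm (fun k => ?_) h1
  have h2 := norm_integral_le_lintegral_norm (μ := P k) (H k)
  simpa only [ofReal_norm] using h2

/-- from a majorant to the finitely additive mean of helper174 (`Obs/Mean.lean`) -/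
theorem pvsc_mean_of_maj {P : ℕ → Measure Ω} {H : ℕ → Ω → ℂ} {M : ℕ → Ω → ℝ} (hM : ∀ k, Measurable (M k)) (hle : ∀ k o, ‖H k o‖ ≤ M k o)
    (hl : Tendsto (fun k => ∫⁻ o, ENNReal.ofReal (M k o) ∂P k) atTop (𝓝 0)) : Tendsto (fun k => pvoMean (P k) (H k)) atTop (𝓝 0) := by
  have h1 : Tendsto (fun k => (∫⁻ o, ENNReal.ofReal (M k o) ∂P k).toReal) atTop (𝓝 0) := by
    have := (ENNReal.tendsto_toReal ENNReal.zero_ne_top).comp hl
    rw [ENNReal.toReal_zero] at this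
    exact this
  have hfin : ∀ᶠ k in atTop, ∫⁻ o, ENNReal.ofReal (M k o) ∂P k < 1 := hl.eventually (gt_mem_nhds one_pos)
  refine squeeze_zero_norm' ?_ h1
  filter_upwards [hfin] with k hk
  exact pvom_norm_le_lintegral (hM k) (hle k) (ne_top_of_lt hk)

/-- **the field `cr` of `PvoCR`** (mean form of `Obs/Abs.lean`) -/
theorem pvsc_cr {S : PvoSys Ω} {κ : ℂ} {f : ℂ → ℝ} {W : ℂ → ℝ → ℕ → Ω → ℝ} {G : ℝ → ℕ → Set Ω} (h : PvoiIn S κ f W G)
    (hb : ∀ k o, ∀ e ∈ S.E k o, ‖S.Fe k o e‖ ≤ 1)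
    (A : ℕ → Set Ω) (hA : ∀ k, MeasurableSet (A k)) (hAp : Tendsto (fun k => S.P k (A k)ᶜ) atTop (𝓝 0))
    (Z : ℕ → Ω → ℂ) (U : ℕ → Ω → ℝ≥0∞) (hU : ∀ k, Measurable (U k))
    (hid : ∀ k, ∀ o ∈ A k, S.sumF f (fun _ => 1) k o = 2 * Z k o) (hZU : ∀ k, ∀ o ∈ A k, ‖Z k o‖ₑ ≤ U k o)
    (hUl : Tendsto (fun k => ∫⁻ o, U k o ∂S.P k) atTop (𝓝 0)) :
    Tendsto (fun k => pvoMean (S.P k) (S.sumF f (fun _ => 1) k)) atTop (𝓝 0) := by
  obtain ⟨M, hM, hle, hl⟩ := pvsc_maj h hb A hA hAp Z U hU hid hZU hUl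
  exact pvsc_mean_of_maj hM hle hl

end prob

/-! ## 7. stability of `PvoiIn` -/

section stab

variable {Ω : Type} [MeasurableSpace Ω] {S : PvoSys Ω} {κ : ℂ} {f : ℂ → ℝ} {W : ℂ → ℝ → ℕ → Ω → ℝ} {G : ℝ → ℕ → Set Ω}

theorem PvoiIn.sub (h : PvoiIn S κ f W G) {ns : ℕ → ℕ} (hns : Tendsto ns atTop atTop) :
    PvoiIn (S.sub ns) κ f (fun p r k => W p r (ns k)) (fun δ k => G δ (ns k)) := by
  refine ⟨fun k => h.prob (ns k), fun p r k => h.W_meas p r (ns k), fun p r k o => h.W_nonneg p r (ns k) o, ?_, fun δ k => h.G_meas δ (ns k),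
    fun δ hδ => (h.G_prob δ hδ).comp hns, ?_, ?_, fun r hr k o ho => h.tv_out r hr (ns k) o ho, fun χ h1 h2 => ?_⟩
  · obtain ⟨C, hC⟩ := h.W_mom
    exact ⟨C, fun p r hr hr1 => hns.eventually (hC p r hr hr1)⟩
  · obtain ⟨C, hC⟩ := h.tv_ball
    exact ⟨C, fun p r hr hr1 k o => hC p r hr hr1 (ns k) o⟩
  · obtain ⟨C, I, hC⟩ := h.tv_univ
    exact ⟨C, I, fun k o => hC (ns k) o⟩
  · obtain ⟨C, δ₀, I, h0, hC⟩ := h.quad χ h1 h2
    exact ⟨C, δ₀, I, h0, fun δ hδ hδ0 k o ho => hC δ hδ hδ0 (ns k) o ho⟩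

/-- `PvoiIn` does not see the observable -/
theorem PvoiIn.conj (h : PvoiIn S κ f W G) : PvoiIn S.conj κ f W G :=
  ⟨h.prob, h.W_meas, h.W_nonneg, h.W_mom, h.G_meas, h.G_prob, h.tv_ball, h.tv_univ, h.tv_out, h.quad⟩

end stab

/-! ## 8. FROM `PvCR` TO THE HYPOTHESIS `hC` OF `pvo_exit` -/

/-- the real test function as a complex one -/
theorem pvsc_contDiff {f : ℂ → ℝ} (hf : ContDiff ℝ ∞ f) : ContDiff ℝ ∞ fun z => (f z : ℂ) :=
  Complex.ofRealCLM.contDiff.comp hf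

theorem pvsc_tsupport (f : ℂ → ℝ) : tsupport (fun z => (f z : ℂ)) = tsupport f := by
  unfold tsupport
  congr 1
  ext z
  simp

/-- **what the INSTANCE signs for one local test `f`** (`tsupport f ⊆ ball x R`, `closedBall x (6R) ⊆ D`), on the space of labelled geometries:
* `inn`   the record of helper184 (MESH + QUAD + DISC);
* `good`  measurable events `A k` of probability `→ 1` (complements of measurable hulls of the bad geometries) on which the geometry is `PvgOk`, good for BOX:CR (`𝔅.Gd`), and the darts of the system are named inside the bulk family. -/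
structure PvscLoc {X : Type} (S : PvoSys PvGeoT) (𝔅 : PvBulk X) (q : ∀ Y, 𝔅.D Y) (x : ℂ) (R : ℝ) (f : ℂ → ℝ) : Prop where
  inn : ∃ (W : ℂ → ℝ → ℕ → PvGeoT → ℝ) (G : ℝ → ℕ → Set PvGeoT), PvoiIn S (2 * I) f W G
  good : ∃ A : ℕ → Set PvGeoT, (∀ k, MeasurableSet (A k)) ∧ Tendsto (fun k => S.P k (A k)ᶜ) atTop (𝓝 0) ∧
    ∀ k, ∀ g ∈ A k, PvgOk g ∧ 𝔅.Gd q x R (pvgSites g) ∧
      ∃ (tr : S.Ed → ℂ × ℂ × ℂ) (op : S.Ed → S.Ed) (ι : S.Ed → 𝔅.D (pvgSites g)), PvscDict 𝔅 (pvgSites g) (S.E k g) tr op ι f ∧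
        (∀ e ∈ S.E k g, S.c f k g e = pvqdC f tr op e) ∧ (∀ e ∈ S.E k g, S.Fe k g e = (𝔅.T (pvgSites g)).obs (q (pvgSites g)) (ι e))

namespace PvscLoc

variable {X : Type} {S : PvoSys PvGeoT} {𝔅 : PvBulk X} {q : ∀ Y, 𝔅.D Y} {x : ℂ} {R : ℝ} {f : ℂ → ℝ}

theorem sub (h : PvscLoc S 𝔅 q x R f) {ns : ℕ → ℕ} (hns : Tendsto ns atTop atTop) : PvscLoc (S.sub ns) 𝔅 q x R f := by
  obtain ⟨W, G, hin⟩ := h.inn
  obtain ⟨A, h1, h2, h3⟩ := h.good
  exact ⟨⟨_, _, hin.sub hns⟩, ⟨fun k => A (ns k), fun k => h1 _, h2.comp hns, fun k g hg => h3 (ns k) g hg⟩⟩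

/-- `PvoCR` for `S` from a measurable majorant of `crS` with mean `→ 0` -/
theorem cr (h : PvscLoc S 𝔅 q x R f) (hb : ∀ k o, ∀ e ∈ S.E k o, ‖S.Fe k o e‖ ≤ 1) (U : ℕ → PvGeoT → ℝ≥0∞) (hU : ∀ k, Measurable (U k))
    (hZU : ∀ k g, PvgOk g → ‖𝔅.crS q x R (fun z => (f z : ℂ)) (pvgSites g)‖ₑ ≤ U k g)
    (hUl : Tendsto (fun k => ∫⁻ g, U k g ∂S.P k) atTop (𝓝 0)) : PvoCR S (2 * I) f := by
  obtain ⟨W, G, hin⟩ := h.inn
  obtain ⟨A, h1, h2, h3⟩ := h.good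
  refine pvoi_cr hin (pvsc_cr hin hb A h1 h2 (fun _ g => 𝔅.crS q x R (fun z => (f z : ℂ)) (pvgSites g)) U hU
    (fun k g hg => ?_) (fun k g hg => hZU k g (h3 k g hg).1) hUl)
  obtain ⟨-, hGd, tr, op, ι, hd, hc, hF⟩ := h3 k g hg
  rw [pvsc_sumF_one, ← hd.crS q x R hGd]
  exact Finset.sum_congr rfl fun e he => by rw [hc e he, hF e he]

/-- `PvoCR` for `S.conj` from a measurable majorant of `crSc` with mean `→ 0` -/
theorem crc (h : PvscLoc S 𝔅 q x R f) (hb : ∀ k o, ∀ e ∈ S.E k o, ‖S.Fe k o e‖ ≤ 1) (U : ℕ → PvGeoT → ℝ≥0∞) (hU : ∀ k, Measurable (U k))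
    (hZU : ∀ k g, PvgOk g → ‖𝔅.crSc q x R (fun z => (f z : ℂ)) (pvgSites g)‖ₑ ≤ U k g)
    (hUl : Tendsto (fun k => ∫⁻ g, U k g ∂S.P k) atTop (𝓝 0)) : PvoCR S.conj (2 * I) f := by
  obtain ⟨W, G, hin⟩ := h.inn
  obtain ⟨A, h1, h2, h3⟩ := h.good
  refine pvoi_cr hin.conj (pvsc_cr hin.conj (fun k o e he => (RCLike.norm_conj _).trans_le (hb k o e he)) A h1 h2
    (fun _ g => 𝔅.crSc q x R (fun z => (f z : ℂ)) (pvgSites g)) U hU (fun k g hg => ?_) (fun k g hg => hZU k g (h3 k g hg).1) hUl)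
  obtain ⟨-, hGd, tr, op, ι, hd, hc, hF⟩ := h3 k g hg
  rw [pvsc_conj_sumF, ← hd.crSc q x R hGd]
  exact Finset.sum_congr rfl fun e he => by rw [hc e he, hF e he]

end PvscLoc

/-- **THE SEAM**: `PvCR` (BOX:CR, helper7) + the local records of the instance ⟹ the hypothesis `hC` of `pvo_exit` (helper174). -/
theorem pvsc_hC (hCR : PvCR) {X : Type} [Fintype X] (S : PvoSys PvGeoT) (𝔅 : PvBulk X) (q : ∀ Y, 𝔅.D Y) (D : Set ℂ)
    (εs : ℕ → ℝ) (h0 : ∀ n, 0 < εs n) (h1 : Tendsto εs atTop (𝓝 0)) (hP : ∀ k, S.P k = pvGeo (εs k))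
    (hb : ∀ k o, ∀ e ∈ S.E k o, ‖S.Fe k o e‖ ≤ 1)
    (hloc : ∀ (x : ℂ) (R : ℝ), 0 < R → Metric.closedBall x (6 * R) ⊆ D → ∀ f : ℂ → ℝ, ContDiff ℝ ∞ f → HasCompactSupport f →
      tsupport f ⊆ Metric.ball x R → PvscLoc S 𝔅 q x R f) :
    ∀ ns : ℕ → ℕ, Tendsto ns atTop atTop → ∃ ms : ℕ → ℕ, StrictMono ms ∧
      (PvoCRAll ((S.sub ns).sub ms) (2 * I) D ∨ PvoCRAll ((S.sub ns).sub ms).conj (2 * I) D) := by
  intro ns hns
  obtain ⟨φ, hφ, a, ha⟩ := hCR (εs ∘ ns) (fun n => h0 _) (h1.comp hns)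
  have hφt : Tendsto φ atTop atTop := hφ.tendsto_atTop
  refine ⟨φ, hφ, ?_⟩
  have hPk : ∀ k, ((S.sub ns).sub φ).P k = pvGeo ((εs ∘ ns) (φ k)) := fun k => hP _
  have hbk : ∀ k o, ∀ e ∈ ((S.sub ns).sub φ).E k o, ‖((S.sub ns).sub φ).Fe k o e‖ ≤ 1 := fun k o e he => hb _ o e he
  by_cases h1a : a = 1
  · right
    intro x R hR hx f hf hfc hfs
    obtain ⟨u, hum, hub, hul⟩ := ha X 𝔅 q x R (fun z => (f z : ℂ)) hR (pvsc_contDiff hf) (by rw [pvsc_tsupport]; exact hfs)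
    refine (((hloc x R hR hx f hf hfc hfs).sub hns).sub hφt).crc hbk u hum (fun k g hg => ?_) (by simpa only [hPk] using hul)
    have := (hub k g hg).2
    rwa [h1a, one_mul] at this
  · left
    intro x R hR hx f hf hfc hfs
    obtain ⟨u, hum, hub, hul⟩ := ha X 𝔅 q x R (fun z => (f z : ℂ)) hR (pvsc_contDiff hf) (by rw [pvsc_tsupport]; exact hfs)
    have hne : (1 - a) ≠ 0 := sub_ne_zero.2 (Ne.symm h1a)
    have hc0 : ‖1 - a‖ₑ ≠ 0 := enorm_ne_zero.2 hne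
    have hct : ‖1 - a‖ₑ ≠ ⊤ := enorm_ne_top
    refine (((hloc x R hR hx f hf hfc hfs).sub hns).sub hφt).cr hbk (fun k g => ‖1 - a‖ₑ⁻¹ * u k g) (fun k => (hum k).const_mul _)
      (fun k g hg => ?_) ?_
    · have h3 := (hub k g hg).1
      rw [enorm_mul] at h3
      calc ‖𝔅.crS q x R (fun z => (f z : ℂ)) (pvgSites g)‖ₑ
          = ‖1 - a‖ₑ⁻¹ * (‖1 - a‖ₑ * ‖𝔅.crS q x R (fun z => (f z : ℂ)) (pvgSites g)‖ₑ) := by
            rw [← mul_assoc, ENNReal.inv_mul_cancel hc0 hct, one_mul]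
        _ ≤ ‖1 - a‖ₑ⁻¹ * u k g := by gcongr
    · have hl2 : Tendsto (fun n => ‖1 - a‖ₑ⁻¹ * ∫⁻ g, u n g ∂(pvGeo ((εs ∘ ns) (φ n)))) atTop (𝓝 0) := by
        have := ENNReal.Tendsto.const_mul (a := ‖1 - a‖ₑ⁻¹) hul (Or.inr (ENNReal.inv_ne_top.2 hc0))
        rwa [mul_zero] at this
      refine hl2.congr fun k => ?_
      rw [hPk k, lintegral_const_mul _ (hum k)]

/-! ## 9. the mean of a function with an `ℝ≥0∞`-valued measurable majorant (no real majorant, no `PvoiIn`: used by `pvoj_cr` of `Obs/Sys.lean`) -/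

section mean

variable {Ω : Type} [MeasurableSpace Ω]

/-- the real mean is bounded by the `lintegral` of ANY measurable `ℝ≥0∞`-valued majorant (which may take the value `⊤`): if `f` is dominated cut the dominating function by the majorant, if not the mean is `0` by definition -/
theorem pvsc_R_abs_le {μ : Measure Ω} {f : Ω → ℝ} {u : Ω → ℝ≥0∞} (hu : Measurable u) (h : ∀ o, ENNReal.ofReal |f o| ≤ u o)
    (hfin : ∫⁻ o, u o ∂μ ≠ ⊤) : |pvomR μ f| ≤ (∫⁻ o, u o ∂μ).toReal := by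
  by_cases hd : PvomDomR μ f
  · obtain ⟨g0, hg0, hle⟩ := id hd
    have hg0n : ∀ o, 0 ≤ g0 o := fun o => (abs_nonneg _).trans (hle o)
    set M : Ω → ℝ := fun o => (min (ENNReal.ofReal (g0 o)) (u o)).toReal with hM
    have hmt : ∀ o, min (ENNReal.ofReal (g0 o)) (u o) ≠ ⊤ := fun o => ne_top_of_le_ne_top ENNReal.ofReal_ne_top (min_le_left _ _)
    have hMle : ∀ o, |f o| ≤ M o := fun o => by
      have h1 : ENNReal.ofReal |f o| ≤ min (ENNReal.ofReal (g0 o)) (u o) := le_min (ENNReal.ofReal_le_ofReal (hle o)) (h o)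
      have h2 := ENNReal.toReal_mono (hmt o) h1
      rwa [ENNReal.toReal_ofReal (abs_nonneg _)] at h2
    have hMn : ∀ o, 0 ≤ M o := fun o => ENNReal.toReal_nonneg
    have hMg : ∀ o, M o ≤ g0 o := fun o => by
      have h2 := ENNReal.toReal_mono ENNReal.ofReal_ne_top (min_le_left (ENNReal.ofReal (g0 o)) (u o))
      rwa [ENNReal.toReal_ofReal (hg0n o)] at h2
    have hMm : AEStronglyMeasurable M μ :=
      ((hg0.aemeasurable.ennreal_ofReal).min hu.aemeasurable).ennreal_toReal.aestronglyMeasurable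
    have hMi : Integrable M μ := hg0.mono' hMm (ae_of_all _ fun o => by rw [Real.norm_of_nonneg (hMn o)]; exact hMg o)
    have hint : ∫ o, M o ∂μ ≤ (∫⁻ o, u o ∂μ).toReal := by
      rw [integral_eq_lintegral_of_nonneg_ae (ae_of_all _ hMn) hMm]
      refine ENNReal.toReal_mono hfin (lintegral_mono fun o => ?_)
      rw [hM, ENNReal.ofReal_toReal (hmt o)]
      exact min_le_right _ _
    refine abs_le.2 ⟨?_, (pvom_R_le hd hMi fun o => (le_abs_self _).trans (hMle o)).trans hint⟩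
    have h3 := pvom_R_ge hd hMi.neg fun o => neg_le_of_abs_le (hMle o)
    have h4 : ∫ o, (-M) o ∂μ = - ∫ o, M o ∂μ := integral_neg M
    rw [h4] at h3
    linarith
  · unfold pvomR
    rw [dif_neg hd, abs_zero]
    exact ENNReal.toReal_nonneg

/-- the complex form -/
theorem pvsc_mean_le {μ : Measure Ω} {H : Ω → ℂ} {u : Ω → ℝ≥0∞} (hu : Measurable u) (h : ∀ o, ‖H o‖ₑ ≤ u o)
    (hfin : ∫⁻ o, u o ∂μ ≠ ⊤) : ‖pvoMean μ H‖ ≤ 2 * (∫⁻ o, u o ∂μ).toReal := by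
  have h1 : |pvomR μ fun o => (H o).re| ≤ (∫⁻ o, u o ∂μ).toReal := pvsc_R_abs_le hu (fun o => by
    refine le_trans ?_ (h o)
    rw [← ofReal_norm]
    exact ENNReal.ofReal_le_ofReal (Complex.abs_re_le_norm _)) hfin
  have h2 : |pvomR μ fun o => (H o).im| ≤ (∫⁻ o, u o ∂μ).toReal := pvsc_R_abs_le hu (fun o => by
    refine le_trans ?_ (h o)
    rw [← ofReal_norm]
    exact ENNReal.ofReal_le_ofReal (Complex.abs_im_le_norm _)) hfin
  have h3 := Complex.norm_le_abs_re_add_abs_im (pvoMean μ H)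
  have e1 : (pvoMean μ H).re = pvomR μ fun o => (H o).re := rfl
  have e2 : (pvoMean μ H).im = pvomR μ fun o => (H o).im := rfl
  rw [e1, e2] at h3
  linarith

/-- means of functions with EVENTUAL `ℝ≥0∞`-valued measurable majorants of mean `→ 0` tend to `0` -/
theorem pvsc_mean_tendsto {P : ℕ → Measure Ω} {H : ℕ → Ω → ℂ} {u : ℕ → Ω → ℝ≥0∞} (hu : ∀ k, Measurable (u k))
    (h : ∀ᶠ k in atTop, ∀ o, ‖H k o‖ₑ ≤ u k o) (hl : Tendsto (fun k => ∫⁻ o, u k o ∂P k) atTop (𝓝 0)) :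
    Tendsto (fun k => pvoMean (P k) (H k)) atTop (𝓝 0) := by
  have h1 : Tendsto (fun k => 2 * (∫⁻ o, u k o ∂P k).toReal) atTop (𝓝 0) := by
    have := ((ENNReal.tendsto_toReal ENNReal.zero_ne_top).comp hl).const_mul 2
    rw [ENNReal.toReal_zero, mul_zero] at this
    exact this
  have hfin : ∀ᶠ k in atTop, ∫⁻ o, u k o ∂P k < 1 := hl.eventually (gt_mem_nhds one_pos)
  refine squeeze_zero_norm' ?_ h1
  filter_upwards [hfin, h] with k hk hk2
  exact pvsc_mean_le (hu k) hk2 (ne_top_of_lt hk)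

end mean

end Claimed.Agent.R289
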