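-- KEEP
import Claimed.Agent.R289.Defs.Top
import Claimed.Agent.R289.Defs.Bulk
import Claimed.Agent.R289.Fan.Obs
import Claimed.Agent.R289.Obs.Abs
import Claimed.Agent.R289.Cr.Main
import Claimed.Agent.R289.Defs.Nice
import Claimed.Agent.R289.Obs.SeamCr

/-!
# Row 289 (S0537, Cardy for Poisson-Voronoi), unit OBS, file Obs/Sys: THE INSTANCE OF SEC. 8      (architect helper111, head of OBS; prefix `pvoj_`, defs `PvoDat`, `PvoFam`, `pvoArc*`)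

`Obs/Abs.lean` (174 + 151 184 80 61) is model free: `pvo_exit` needs a `PvoSys` with `PvoArm`, `PvoCRAll` (or its mirror) along subsequences, `PvoBd`.      HERE: the system of the Poisson-Voronoi model and the CONTRACTS of the producers.

## 0. Data
* `PvoDat`            ONE finite marked triangulated sphere: `T : PvMap V D`, names `lab : V → ℂ ⊕ Fin 3` (site or fan apex `s₀ s₁ s₂`), closing dart `q = s₀ → s₂` (conventions of 91, `Fan/Obs.lean`).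
* `PvoFam`            `= Set ℂ → PvoDat`: the discrete disc + 3 fans + closing face as a function of the SITE SET only (no colours, no `ε`: `PvTransport` takes ONE family for all `n`).   `𝔇.bulk : PvBulk (Fin 3)`.
* `𝔇.F Y e`           the quenched observable `obsF q e` (`0` if `T Y` is junk: `¬ Ok Y ∅`)
* `𝔇.wt Y f d`        `side d (f(bary d) - f(bary (opp d)))`: weight of the DART `d` (every edge is counted twice: `κ = 2 i`, convention of `Obs/Quad.lean` of 199)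
* `𝔇.probe D ψ Y p`   canonical probe: a dart ISSUED FROM A SITE nearest to `p`;   its head is a site if `p ∈ D`, the fan apex `s_j` of the arc of `p` if `p ∉ D`
* `𝔇.sys D ψ εs 𝒯`    the `PvoSys` on `Ω = PvGeoT` (labelled geometries, `PppQ.lean`), `P k = pvGeo (εs k)`, `Ed = Σ Y, darts of 𝔇 Y` (no choice of names of edges);
                      GUARD `𝒯 k`: there are NO edges off `𝒯 k` (`PvoGuard`: `𝒯 k` is inside the good geometries at a level `→ 0`, outer probability of the complement `→ 0`).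
                      WHY: `tv`, `sum1`, `sumF` need majorants at ALL geometries; off the good ones `∑ |side|` is of order `1/ε`.   With the guard `sumF f 1 k = 2 · 1_{𝒯 k} · crS` (7) for `k ≥ k₀(f)`.
ARCS: `s₀ ↔ ψ⁻¹[0,1]` (from `a` to `c`, contains `b`), `s₁ ↔ {d} ∪ ψ⁻¹[1,∞)`, `s₂ ↔ {d} ∪ ψ⁻¹(-∞,0]`;   `w0 = 1, w1 = ω`, third corner `ω²`;   the boundary cycle runs COUNTERCLOCKWISE (disc on its left).

## 1. `𝔇.Good D d ψ x Y s t`  = what OBS consumes from DISC (BRIDGE 188, DISC-GEO 61 + 253, FAN 92 + 8): input tolerance `s`, output tolerance `t`.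
## 2. The contracts (one sorried theorem per producer) and the compiled glue `pvoj_main`.
-/

set_option autoImplicit false

namespace Claimed.Agent.R289

open MeasureTheory ProbabilityTheory Set Filter Topology Claims.C0465
open scoped ContDiff ENNReal

/-! ## 0. data -/

/-- one finite marked triangulated sphere -/
structure PvoDat where
  /-- vertices -/
  V : Type
  /-- darts -/
  D : Type
  fV : Fintype V
  fD : Fintype D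
  T : PvMap V D
  /-- name of a vertex: a site, or the apex of the fan number `j` -/
  lab : V → ℂ ⊕ Fin 3
  /-- the closing dart `s₀ → s₂` -/
  q : D

/-- the discrete disc + 3 fans + closing face, as a function of the site set -/
abbrev PvoFam := Set ℂ → PvoDat

namespace PvoFam

variable (𝔇 : PvoFam)

/-- the bulk family of `Defs/Bulk.lean` -/
def bulk : PvBulk (Fin 3) where
  V Y := (𝔇 Y).V
  D Y := (𝔇 Y).D
  T Y := (𝔇 Y).T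
  lab Y := (𝔇 Y).lab

open Classical in
/-- the quenched observable -/
noncomputable def F (Y : Set ℂ) (e : (𝔇 Y).D) : ℂ :=
  haveI := (𝔇 Y).fV
  if 𝔇.bulk.Ok Y ∅ then (𝔇 Y).T.obsF (𝔇 Y).q e else 0

/-- the coefficient of `w1 = ω` -/
noncomputable def Pc (Y : Set ℂ) (e : (𝔇 Y).D) : ℝ :=
  haveI := (𝔇 Y).fV
  (𝔇 Y).T.obsP ((𝔇 Y).T.nxt ((𝔇 Y).T.nxt (𝔇 Y).q)) e

/-- the weight of a dart -/
noncomputable def wt (Y : Set ℂ) (f : ℂ → ℝ) (d : (𝔇 Y).D) : ℂ :=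
  (𝔇 Y).T.side (𝔇.bulk.pos Y) d * ((f ((𝔇 Y).T.bary (𝔇.bulk.pos Y) d) - f ((𝔇 Y).T.bary (𝔇.bulk.pos Y) ((𝔇 Y).T.opp d)) : ℝ) : ℂ)

open Classical in
/-- the bulk darts: both adjacent faces are embedded -/
noncomputable def edges (Y : Set ℂ) : Finset (Σ Y : Set ℂ, (𝔇 Y).D) :=
  haveI := (𝔇 Y).fD
  (Finset.univ.filter fun d : (𝔇 Y).D => 𝔇.bulk.Emb Y d ∧ 𝔇.bulk.Emb Y ((𝔇 Y).T.opp d)).map ⟨Sigma.mk Y, sigma_mk_injective⟩

end PvoFam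

open Classical in
/-- the number of the boundary arc of a boundary point -/
noncomputable def pvoArcIx (ψ : ℂ → ℂ) (p : ℂ) : Fin 3 := if (ψ p).re < 0 then 2 else if (ψ p).re ≤ 1 then 0 else 1

/-- the three CLOSED boundary arcs -/
def pvoArc (D : Set ℂ) (d : ℂ) (ψ : ℂ → ℂ) (j : Fin 3) : Set ℂ :=
  {z | (z = d ∧ j ≠ 0) ∨ (z ∈ frontier D ∧ z ≠ d ∧
    ((j = 0 ∧ 0 ≤ (ψ z).re ∧ (ψ z).re ≤ 1) ∨ (j = 1 ∧ 1 ≤ (ψ z).re) ∨ (j = 2 ∧ (ψ z).re ≤ 0)))}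

namespace PvoFam

variable (𝔇 : PvoFam)

/-- admissible probes for the point `p` -/
def Cand (D : Set ℂ) (ψ : ℂ → ℂ) (Y : Set ℂ) (p : ℂ) (e : (𝔇 Y).D) : Prop :=
  (∃ a : ℂ, (𝔇 Y).lab ((𝔇 Y).T.src e) = Sum.inl a) ∧ (p ∈ D → ∃ b : ℂ, (𝔇 Y).lab ((𝔇 Y).T.tgt e) = Sum.inl b) ∧
    (p ∉ D → (𝔇 Y).lab ((𝔇 Y).T.tgt e) = Sum.inr (pvoArcIx ψ p))

open Classical in
/-- the canonical probe -/
noncomputable def probe (D : Set ℂ) (ψ : ℂ → ℂ) (Y : Set ℂ) (p : ℂ) : (𝔇 Y).D :=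
  if h : ∃ e, 𝔇.Cand D ψ Y p e ∧ ∀ e', 𝔇.Cand D ψ Y p e' → ‖𝔇.bulk.pos Y ((𝔇 Y).T.src e) - p‖ ≤ ‖𝔇.bulk.pos Y ((𝔇 Y).T.src e') - p‖
  then h.choose else (𝔇 Y).q

open Classical in
/-- **the system of Sec. 8** with the guard `𝒯` -/
noncomputable def sys (D : Set ℂ) (ψ : ℂ → ℂ) (εs : ℕ → ℝ) (𝒯 : ℕ → Set PvGeoT) : PvoSys PvGeoT where
  P k := pvGeo (εs k)
  Ed := Σ Y : Set ℂ, (𝔇 Y).D
  E k g := if g ∈ 𝒯 k then 𝔇.edges (pvgSites g) else ∅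
  mid _ _ e := (𝔇.bulk.pos e.1 ((𝔇 e.1).T.src e.2) + 𝔇.bulk.pos e.1 ((𝔇 e.1).T.tgt e.2)) / 2
  Fe _ _ e := 𝔇.F e.1 e.2
  c f _ _ e := 𝔇.wt e.1 f e.2
  R _ p g := 𝔇.F (pvgSites g) (𝔇.probe D ψ (pvgSites g) p)

/-! ## 1. the good geometries -/

/-- **what OBS consumes from DISC**: input tolerance `s`, output tolerance `t` -/
structure Good (D : Set ℂ) (d : ℂ) (ψ : ℂ → ℂ) (x : ℝ) (Y : Set ℂ) (s t : ℝ) : Prop where
  /-- simple sphere, names injective, embedded faces Delaunay; agreement with Delaunay at depth `t` -/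
  ok : 𝔇.bulk.Ok Y {z | t ≤ Metric.infDist z Dᶜ}
  cl0 : (𝔇 Y).lab ((𝔇 Y).T.src (𝔇 Y).q) = Sum.inr 0
  cl2 : (𝔇 Y).lab ((𝔇 Y).T.tgt (𝔇 Y).q) = Sum.inr 2
  cl1 : (𝔇 Y).lab ((𝔇 Y).T.apex (𝔇 Y).q) = Sum.inr 1
  /-- the disc sites lie near `D` -/
  inD : ∀ v p, (𝔇 Y).lab v = Sum.inl p → p ∈ Metric.thickening t D
  /-- edges between sites are short Delaunay edges -/
  adj : ∀ e a b, (𝔇 Y).lab ((𝔇 Y).T.src e) = Sum.inl a → (𝔇 Y).lab ((𝔇 Y).T.tgt e) = Sum.inl b → DelAdj Y a b ∧ ‖a - b‖ < t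
  /-- the attachments of the fan `j` lie near the closed arc `j` -/
  arc : ∀ e a j, (𝔇 Y).lab ((𝔇 Y).T.src e) = Sum.inl a → (𝔇 Y).lab ((𝔇 Y).T.tgt e) = Sum.inr j → a ∈ Metric.thickening t (pvoArc D d ψ j)
  /-- bulk probes are dense -/
  densD : ∀ p ∈ D, ∃ e a b, (𝔇 Y).lab ((𝔇 Y).T.src e) = Sum.inl a ∧ (𝔇 Y).lab ((𝔇 Y).T.tgt e) = Sum.inl b ∧ ‖a - p‖ < t
  /-- fan probes are dense on their arc -/
  densB : ∀ j, ∀ p ∈ pvoArc D d ψ j, ∃ e a, (𝔇 Y).lab ((𝔇 Y).T.src e) = Sum.inl a ∧ (𝔇 Y).lab ((𝔇 Y).T.tgt e) = Sum.inr j ∧ ‖a - p‖ < t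
  /-- (D4) short connections: two disc sites in `ball p s` are joined by a primal path of disc sites inside `ball p t` -/
  conn : ∀ (p : ℂ) (u v : (𝔇 Y).V) (a b : ℂ), (𝔇 Y).lab u = Sum.inl a → (𝔇 Y).lab v = Sum.inl b → ‖a - p‖ < s → ‖b - p‖ < s →
    Relation.ReflTransGen (fun u' v' => (𝔇 Y).T.Adj u' v' ∧ ∃ c : ℂ, (𝔇 Y).lab v' = Sum.inl c ∧ ‖c - p‖ < t) u v
  /-- (ORD) the sector of the fan `s₀` from a probe near `b` up to the closing dart is attached near `ψ⁻¹[0,x]` -/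
  sec : ∀ b ∈ frontier D, b ≠ d → ψ b = x → ∀ e a, (𝔇 Y).lab ((𝔇 Y).T.src e) = Sum.inr 0 → (𝔇 Y).lab ((𝔇 Y).T.tgt e) = Sum.inl a → ‖a - b‖ < s →
    ∀ e' ∈ (𝔇 Y).T.Sec e (𝔇 Y).q, ∀ a', (𝔇 Y).lab ((𝔇 Y).T.tgt e') = Sum.inl a' → a' ∈ Metric.thickening t (pvArcL D d ψ x)

/-- the family is good with high probability, at all tolerances (OUTER probability of the labelled geometries) -/
def Whp (D : Set ℂ) (d : ℂ) (ψ : ℂ → ℂ) (x : ℝ) : Prop :=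
  ∀ t : ℝ, 0 < t → ∃ s : ℝ, 0 < s ∧ Tendsto (fun ε : ℝ => pvGeo ε {g | ¬ 𝔇.Good D d ψ x (pvgSites g) s t}) (𝓝[>] 0) (𝓝 0)

end PvoFam

/-- **the guard**: inside the good geometries at levels `→ 0`, complement of small outer probability -/
structure PvoGuard (𝔇 : PvoFam) (D : Set ℂ) (d : ℂ) (ψ : ℂ → ℂ) (x : ℝ) (εs : ℕ → ℝ) (𝒯 : ℕ → Set PvGeoT) : Prop where
  pos : ∀ k, 0 < εs k
  lim : Tendsto εs atTop (𝓝 0)
  /-- labelled geometry in general position; the map is a simple sphere whose embedded faces are Delaunay triangles -/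
  ok : ∀ k, ∀ g ∈ 𝒯 k, PvgOk g ∧ 𝔇.bulk.Ok (pvgSites g) ∅
  good : ∀ t : ℝ, 0 < t → ∃ s : ℝ, 0 < s ∧ ∀ᶠ k in atTop, ∀ g ∈ 𝒯 k, 𝔇.Good D d ψ x (pvgSites g) s t
  prob : Tendsto (fun k => pvGeo (εs k) (𝒯 k)ᶜ) atTop (𝓝 0)

/-- the limit (8.3) = field `cr` of `PvoCR`  (`E = pvoMean`, the Hahn-Banach mean of `Obs/Mean.lean`: no measurability of `sumF`; from a measurable majorant `G k ≥ ‖sumF f 1 k‖` with `∫⁻ G k → 0`: `pvom_tendsto_zero`) -/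
def PvoCrLim {Ω : Type} [MeasurableSpace Ω] (S : PvoSys Ω) (f : ℂ → ℝ) : Prop :=
  Tendsto (fun k => pvoMean (S.P k) (S.sumF f (fun _ => 1) k)) atTop (𝓝 0)

/-- local tests -/
def PvoTest (D : Set ℂ) (f : ℂ → ℝ) : Prop :=
  ContDiff ℝ ∞ f ∧ HasCompactSupport f ∧ ∃ (x : ℂ) (R : ℝ), 0 < R ∧ Metric.closedBall x (6 * R) ⊆ D ∧ tsupport f ⊆ Metric.ball x R

theorem pvoj_eqns_cite : True := by
  have := @PvoFam.bulk.eq_1; have := @PvoFam.F.eq_1; have := @PvoFam.Pc.eq_1; have := @PvoFam.wt.eq_1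
  have := @PvoFam.edges.eq_1; have := @pvoArcIx.eq_1; have := @pvoArc.eq_1; have := @PvoFam.Cand.eq_1; have := @PvoFam.probe.eq_1
  have := @PvoFam.sys.eq_1; have := @PvoFam.Whp.eq_1; have := @PvoCrLim.eq_1; have := @PvoTest.eq_1
  trivial

theorem pvoj_sys_sub (𝔇 : PvoFam) (D : Set ℂ) (ψ : ℂ → ℂ) (εs : ℕ → ℝ) (𝒯 : ℕ → Set PvGeoT) (ns : ℕ → ℕ) :
    (𝔇.sys D ψ εs 𝒯).sub ns = 𝔇.sys D ψ (εs ∘ ns) (𝒯 ∘ ns) := rfl

theorem PvoGuard.sub {𝔇 : PvoFam} {D : Set ℂ} {d : ℂ} {ψ : ℂ → ℂ} {x : ℝ} {εs : ℕ → ℝ} {𝒯 : ℕ → Set PvGeoT} (h : PvoGuard 𝔇 D d ψ x εs 𝒯)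
    {ns : ℕ → ℕ} (hns : Tendsto ns atTop atTop) : PvoGuard 𝔇 D d ψ x (εs ∘ ns) (𝒯 ∘ ns) := by
  refine ⟨fun k => h.pos _, h.lim.comp hns, fun k => h.ok _, fun t ht => ?_, h.prob.comp hns⟩
  obtain ⟨s, hs, hk⟩ := h.good t ht
  exact ⟨s, hs, hns.eventually hk⟩

/-- `Ok` is antitone in the set of agreement (twin free local copy: `Brg/Win.lean` is not imported here) -/
theorem pvoj_ok_mono {X : Type} {𝔅 : PvBulk X} {Y K K' : Set ℂ} (h : 𝔅.Ok Y K) (hK : K' ⊆ K) : 𝔅.Ok Y K' :=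
  ⟨h.sph, h.simple, h.inj, h.site, fun a b c hd ha => h.face a b c hd (hK ha), fun d a hd ha => h.del d a hd (hK ha), h.emb⟩

/-- **L0**: a compact ball inside `D` lies at a positive depth -/
theorem pvoj_depth {D : Set ℂ} {d : ℂ} {ψ : ℂ → ℂ} (h : PvChart D d ψ) {x0 : ℂ} {R : ℝ} (hx : Metric.closedBall x0 (6 * R) ⊆ D) :
    ∃ t0 : ℝ, 0 < t0 ∧ Metric.closedBall x0 (6 * R) ⊆ {z | t0 ≤ Metric.infDist z Dᶜ} := by
  have hne : (Dᶜ : Set ℂ).Nonempty := ⟨d, h.d_notMem⟩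
  have hcl : IsClosed (Dᶜ : Set ℂ) := h.isOpen.isClosed_compl
  rcases (Metric.closedBall x0 (6 * R)).eq_empty_or_nonempty with he | hn
  · exact ⟨1, one_pos, by rw [he]; exact empty_subset _⟩
  · obtain ⟨z0, hz0, hmin⟩ := (isCompact_closedBall x0 (6 * R)).exists_isMinOn hn (Metric.continuous_infDist_pt (Dᶜ : Set ℂ)).continuousOn
    refine ⟨Metric.infDist z0 Dᶜ, ?_, fun z hz => hmin hz⟩
    exact (hcl.notMem_iff_infDist_pos hne).1 (fun h1 => h1 (hx hz0))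

/-- **L1**: a good geometry at a level below the depth of the ball is good for BOX:CR -/
theorem pvoj_gd {𝔇 : PvoFam} {D : Set ℂ} {d : ℂ} {ψ : ℂ → ℂ} {x : ℝ} {Y : Set ℂ} {s t : ℝ} (hg : 𝔇.Good D d ψ x Y s t) {x0 : ℂ} {R : ℝ}
    (hK : Metric.closedBall x0 (6 * R) ⊆ {z | t ≤ Metric.infDist z Dᶜ}) : 𝔇.bulk.Gd (fun Y => (𝔇 Y).q) x0 R Y := by
  refine ⟨@Finite.of_fintype _ (𝔇 Y).fV, @Finite.of_fintype _ (𝔇 Y).fD, pvoj_ok_mono hg.ok hK, ?_⟩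
  rintro e (rfl | rfl | rfl)
  · exact ⟨0, hg.cl0⟩
  · exact ⟨2, hg.cl2⟩
  · exact ⟨1, hg.cl1⟩

/-- an embedded face with barycentre in `ball x0 R` has its neighbour across `e` embedded (`Good.adj`: short edges; `Ok.del` at the head of `e`) -/
theorem pvoj_emb_opp {𝔇 : PvoFam} {D : Set ℂ} {d : ℂ} {ψ : ℂ → ℂ} {x : ℝ} {Y : Set ℂ} {s t : ℝ} (hg : 𝔇.Good D d ψ x Y s t) {x0 : ℂ} {R : ℝ} (htR : t ≤ R)
    (hK : Metric.closedBall x0 (6 * R) ⊆ {z | t ≤ Metric.infDist z Dᶜ}) {e : (𝔇 Y).D} (he : 𝔇.bulk.Emb Y e)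
    (hb : (𝔇 Y).T.bary (𝔇.bulk.pos Y) e ∈ Metric.ball x0 R) : 𝔇.bulk.Emb Y ((𝔇 Y).T.opp e) := by
  obtain ⟨a, b, c, ha, hb', hc⟩ := he
  have ha1 : (𝔇 Y).lab ((𝔇 Y).T.src e) = Sum.inl a := ha
  have hb1 : (𝔇 Y).lab ((𝔇 Y).T.tgt e) = Sum.inl b := hb'
  have hc1 : (𝔇 Y).lab ((𝔇 Y).T.apex e) = Sum.inl c := hc
  have h1 : ‖a - b‖ < t := (hg.adj e a b ha1 hb1).2
  have h2 : ‖b - c‖ < t := (hg.adj ((𝔇 Y).T.nxt e) b c hb1 hc1).2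
  have hbar : (𝔇 Y).T.bary (𝔇.bulk.pos Y) e = (a + b + c) / 3 := by
    have p1 : 𝔇.bulk.pos Y ((𝔇 Y).T.src e) = a := congrArg (Sum.elim id fun _ => (0 : ℂ)) ha
    have p2 : 𝔇.bulk.pos Y ((𝔇 Y).T.tgt e) = b := congrArg (Sum.elim id fun _ => (0 : ℂ)) hb'
    have p3 : 𝔇.bulk.pos Y ((𝔇 Y).T.apex e) = c := congrArg (Sum.elim id fun _ => (0 : ℂ)) hc
    unfold PvMap.bary
    rw [p1, p2, p3]
  rw [hbar, Metric.mem_ball, dist_eq_norm] at hb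
  have h3 : ‖b - x0‖ ≤ 6 * R := by
    have e1 : b - x0 = ((a + b + c) / 3 - x0) - (a - b) / 3 + (b - c) / 3 := by ring
    have n1 : ‖(a - b) / 3‖ = ‖a - b‖ / 3 := by rw [norm_div]; norm_num
    have n2 : ‖(b - c) / 3‖ = ‖b - c‖ / 3 := by rw [norm_div]; norm_num
    calc ‖b - x0‖ = ‖((a + b + c) / 3 - x0) - (a - b) / 3 + (b - c) / 3‖ := by rw [← e1]
      _ ≤ ‖(a + b + c) / 3 - x0‖ + ‖(a - b) / 3‖ + ‖(b - c) / 3‖ := (norm_add_le _ _).trans (add_le_add_left (norm_sub_le _ _) _)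
      _ ≤ 6 * R := by rw [n1, n2]; linarith [norm_nonneg (a - b)]
  have hbK : b ∈ {z | t ≤ Metric.infDist z Dᶜ} := hK (by rw [Metric.mem_closedBall, dist_eq_norm]; exact h3)
  have hs : 𝔇.bulk.lab Y ((𝔇.bulk.T Y).src ((𝔇 Y).T.opp e)) = Sum.inl b := by
    have : (𝔇 Y).T.src ((𝔇 Y).T.opp e) = (𝔇 Y).T.tgt e := (𝔇 Y).T.src_opp e
    exact (congrArg (𝔇 Y).lab this).trans hb1
  obtain ⟨b2, c2, h4, h5, -⟩ := hg.ok.del ((𝔇 Y).T.opp e) b hs hbK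
  exact ⟨b, b2, c2, hs, h4, h5⟩

/-! ## 2. the contracts of the producers -/

/-- `Good` is monotone in the output tolerance -/
theorem PvoFam.Good.mono {𝔇 : PvoFam} {D : Set ℂ} {d : ℂ} {ψ : ℂ → ℂ} {x : ℝ} {Y : Set ℂ} {s t t' : ℝ} (h : 𝔇.Good D d ψ x Y s t) (htt : t ≤ t') :
    𝔇.Good D d ψ x Y s t' := by
  have hth : ∀ A : Set ℂ, Metric.thickening t A ⊆ Metric.thickening t' A := fun A => Metric.thickening_mono htt A
  refine ⟨?_, h.cl0, h.cl2, h.cl1, fun v p hv => hth _ (h.inD v p hv), fun e a b h1 h2 => ⟨(h.adj e a b h1 h2).1, (h.adj e a b h1 h2).2.trans_le htt⟩,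
    fun e a j h1 h2 => hth _ (h.arc e a j h1 h2), ?_, ?_, ?_, fun b hb hbd hψ e a h1 h2 h3 e' he' a' h4 => hth _ (h.sec b hb hbd hψ e a h1 h2 h3 e' he' a' h4)⟩
  · have hK : {z : ℂ | t' ≤ Metric.infDist z Dᶜ} ⊆ {z | t ≤ Metric.infDist z Dᶜ} := fun z hz => htt.trans hz
    exact ⟨h.ok.sph, h.ok.simple, h.ok.inj, h.ok.site, fun a b c h1 h2 => h.ok.face a b c h1 (hK h2), fun e a h1 h2 => h.ok.del e a h1 (hK h2), h.ok.emb⟩
  · intro p hp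
    obtain ⟨e, a, b, h1, h2, h3⟩ := h.densD p hp
    exact ⟨e, a, b, h1, h2, h3.trans_le htt⟩
  · intro j p hp
    obtain ⟨e, a, h1, h2, h3⟩ := h.densB j p hp
    exact ⟨e, a, h1, h2, h3.trans_le htt⟩
  · intro p u v a b h1 h2 h3 h4
    refine Relation.ReflTransGen.mono ?_ _ _ (h.conn p u v a b h1 h2 h3 h4)
    rintro u' v' ⟨h5, c, h6, h7⟩
    exact ⟨h5, c, h6, h7.trans_le htt⟩

theorem pvoj_ok_empty {X : Type} {𝔅 : PvBulk X} {Y K : Set ℂ} (h : 𝔅.Ok Y K) : 𝔅.Ok Y ∅ :=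
  ⟨h.sph, h.simple, h.inj, h.site, fun _ _ _ _ ha => ha.elim, fun _ _ _ ha => ha.elim, h.emb⟩

/-- **J0 = GUARD** (pure measure theory: diagonal choice of the level).   `B_m(ε)` = outer probability of `¬ Good (s_m) (1/(m+1))` `→ 0` for each `m`;   `M(k)` = the largest `M ≤ k` with `B_m(ε_k) ≤ (M+1)^-2` for all `m ≤ M`: `M(k) → ∞`;
`𝒯 k = 𝒜 (ε_k) ∩ {PvgOk} ∩ ⋂_{m ≤ M(k)} {Good s_m (1/(m+1))}`;   `Good.mono`;   `Good.ok` gives `Ok Y ∅` (monotone in `K`). -/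
theorem pvoj_guard {𝔇 : PvoFam} {D : Set ℂ} {d : ℂ} {ψ : ℂ → ℂ} {x : ℝ} (hW : 𝔇.Whp D d ψ x) {εs : ℕ → ℝ} (h0 : ∀ k, 0 < εs k)
    (h1 : Tendsto εs atTop (𝓝 0)) (𝒜 : ℝ → Set PvGeoT) (hA : ∀ ε : ℝ, 0 < ε → pvGeo ε (𝒜 ε)ᶜ = 0) :
    ∃ 𝒯 : ℕ → Set PvGeoT, PvoGuard 𝔇 D d ψ x εs 𝒯 ∧ ∀ k, 𝒯 k ⊆ 𝒜 (εs k) := by
  classical
  have hpos : ∀ m : ℕ, (0 : ℝ) < 1 / ((m : ℝ) + 1) := fun m => by positivity
  choose s hs hlim using fun m : ℕ => hW (1 / ((m : ℝ) + 1)) (hpos m)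
  have hε : Tendsto εs atTop (𝓝[>] 0) := tendsto_nhdsWithin_iff.2 ⟨h1, Eventually.of_forall h0⟩
  set bad : ℕ → Set PvGeoT := fun m => {g | ¬ 𝔇.Good D d ψ x (pvgSites g) (s m) (1 / ((m : ℝ) + 1))} with hbad
  have hB : ∀ m, Tendsto (fun k => pvGeo (εs k) (bad m)) atTop (𝓝 0) := fun m => (hlim m).comp hε
  set Pk : ℕ → ℕ → Prop := fun k M => ∀ m ≤ M, pvGeo (εs k) (bad m) ≤ (((M : ℝ≥0∞) + 1) ^ 2)⁻¹ with hPk
  set M : ℕ → ℕ := fun k => Nat.findGreatest (Pk k) k with hM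
  have hP0 : ∀ k, Pk k 0 := by
    intro k m _
    simpa using prob_le_one (μ := pvGeo (εs k)) (s := bad m)
  have hPM : ∀ k, Pk k (M k) := fun k => Nat.findGreatest_spec (P := Pk k) (Nat.zero_le k) (hP0 k)
  have hMinf : Tendsto M atTop atTop := by
    refine tendsto_atTop.2 fun M0 => ?_
    have hev : ∀ᶠ k in atTop, ∀ m ∈ Finset.range (M0 + 1), pvGeo (εs k) (bad m) ≤ (((M0 : ℝ≥0∞) + 1) ^ 2)⁻¹ := by
      rw [Filter.eventually_all_finset]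
      intro m _
      refine (hB m).eventually (ge_mem_nhds ?_)
      refine ENNReal.inv_pos.2 (ENNReal.pow_ne_top ?_)
      exact ENNReal.add_ne_top.2 ⟨ENNReal.natCast_ne_top _, ENNReal.one_ne_top⟩
    filter_upwards [hev, eventually_ge_atTop M0] with k hk hk0
    exact Nat.le_findGreatest hk0 fun m hm => hk m (Finset.mem_range.2 (Nat.lt_succ_of_le hm))
  refine ⟨fun k => 𝒜 (εs k) ∩ {g | PvgOk g} ∩ ⋂ m ∈ Finset.range (M k + 1), (bad m)ᶜ, ⟨h0, h1, ?_, ?_, ?_⟩, fun k g hg => hg.1.1⟩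
  · intro k g hg
    refine ⟨hg.1.2, ?_⟩
    have h2 := mem_iInter₂.1 hg.2 0 (Finset.mem_range.2 (Nat.succ_pos _))
    have h3 : 𝔇.Good D d ψ x (pvgSites g) (s 0) (1 / (((0 : ℕ) : ℝ) + 1)) := not_not.1 h2
    exact pvoj_ok_empty h3.ok
  · intro t ht
    obtain ⟨m, hm⟩ := exists_nat_one_div_lt ht
    refine ⟨s m, hs m, ?_⟩
    filter_upwards [hMinf.eventually_ge_atTop m] with k hk g hg
    have h2 := mem_iInter₂.1 hg.2 m (Finset.mem_range.2 (Nat.lt_succ_of_le hk))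
    have h3 : 𝔇.Good D d ψ x (pvgSites g) (s m) (1 / ((m : ℝ) + 1)) := not_not.1 h2
    exact h3.mono hm.le
  · have hlim0 : Tendsto (fun k => (((M k + 1 : ℕ) : ℝ≥0∞))⁻¹) atTop (𝓝 0) :=
      ENNReal.tendsto_inv_nat_nhds_zero.comp ((tendsto_add_atTop_iff_nat 1).2 tendsto_id |>.comp hMinf)
    refine tendsto_of_tendsto_of_tendsto_of_le_of_le tendsto_const_nhds hlim0 (fun _ => zero_le) (fun k => ?_)
    have hsub : (𝒜 (εs k) ∩ {g | PvgOk g} ∩ ⋂ m ∈ Finset.range (M k + 1), (bad m)ᶜ)ᶜ ⊆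
        ((𝒜 (εs k))ᶜ ∪ {g | PvgOk g}ᶜ) ∪ ⋃ m ∈ Finset.range (M k + 1), bad m := by
      intro g hg
      by_contra hcon
      rw [mem_union, mem_union, not_or, not_or] at hcon
      apply hg
      refine ⟨⟨not_not.1 hcon.1.1, not_not.1 hcon.1.2⟩, mem_iInter₂.2 fun m hm hgm => hcon.2 (mem_iUnion₂.2 ⟨m, hm, hgm⟩)⟩
    have e1 : pvGeo (εs k) (𝒜 (εs k))ᶜ = 0 := hA _ (h0 k)
    have e2 : pvGeo (εs k) {g | PvgOk g}ᶜ = 0 := pvqu_ok_ae (εs k)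
    have e3 : pvGeo (εs k) (⋃ m ∈ Finset.range (M k + 1), bad m) ≤ ∑ m ∈ Finset.range (M k + 1), (((M k : ℝ≥0∞) + 1) ^ 2)⁻¹ :=
      (measure_biUnion_finset_le _ _).trans (Finset.sum_le_sum fun m hm => hPM k m (Nat.lt_succ_iff.1 (Finset.mem_range.1 hm)))
    calc pvGeo (εs k) (𝒜 (εs k) ∩ {g | PvgOk g} ∩ ⋂ m ∈ Finset.range (M k + 1), (bad m)ᶜ)ᶜ
        ≤ pvGeo (εs k) (((𝒜 (εs k))ᶜ ∪ {g | PvgOk g}ᶜ) ∪ ⋃ m ∈ Finset.range (M k + 1), bad m) := measure_mono hsub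
      _ ≤ (pvGeo (εs k) (𝒜 (εs k))ᶜ + pvGeo (εs k) {g | PvgOk g}ᶜ) + pvGeo (εs k) (⋃ m ∈ Finset.range (M k + 1), bad m) :=
          (measure_union_le _ _).trans (add_le_add (measure_union_le _ _) le_rfl)
      _ ≤ ∑ m ∈ Finset.range (M k + 1), (((M k : ℝ≥0∞) + 1) ^ 2)⁻¹ := by rw [e1, e2, zero_add, zero_add]; exact e3
      _ = (((M k + 1 : ℕ) : ℝ≥0∞))⁻¹ := by
          rw [Finset.sum_const, Finset.card_range, nsmul_eq_mul]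
          push_cast
          have hne : ((M k : ℝ≥0∞) + 1) ≠ 0 := by simp
          have hnt : ((M k : ℝ≥0∞) + 1) ≠ ⊤ := ENNReal.add_ne_top.2 ⟨ENNReal.natCast_ne_top _, ENNReal.one_ne_top⟩
          rw [sq, ENNReal.mul_inv (Or.inl hne) (Or.inl hnt), ← mul_assoc, ENNReal.mul_inv_cancel hne hnt, one_mul]

/-! ### J-CR: proof (helper289; L0 L1 `pvoj_emb_opp` by helper200 in sec. 1; the mean lemma `pvsc_mean_tendsto` is in `Obs/SeamCr.lean`) -/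

section det

variable {𝔇 : PvoFam} {D : Set ℂ} {d : ℂ} {ψ : ℂ → ℂ} {x : ℝ} {Y : Set ℂ} {s t : ℝ} {x0 : ℂ} {R : ℝ}

theorem pvoj_side_opp (e : (𝔇 Y).D) : (𝔇 Y).T.side (𝔇.bulk.pos Y) ((𝔇 Y).T.opp e) = - (𝔇 Y).T.side (𝔇.bulk.pos Y) e := by
  unfold PvMap.side
  rw [(𝔇 Y).T.src_opp', (𝔇 Y).T.tgt_opp]
  ring

/-- (L2b) summation by parts over the bulk darts -/
theorem pvoj_parts (f : ℂ → ℝ) (Φ : (𝔇 Y).D → ℂ) (hΦ : ∀ e, Φ ((𝔇 Y).T.opp e) = Φ e)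
    (hcov : ∀ e, 𝔇.bulk.Emb Y e → f ((𝔇 Y).T.bary (𝔇.bulk.pos Y) e) ≠ 0 → 𝔇.bulk.Emb Y ((𝔇 Y).T.opp e))
    (H : (Σ Y : Set ℂ, (𝔇 Y).D) → ℂ) (hH : ∀ e : (𝔇 Y).D, H ⟨Y, e⟩ = 𝔇.wt Y f e * Φ e) :
    ∑ e ∈ 𝔇.edges Y, H e = 2 * ∑ᶠ e, 𝔇.bulk.wV Y (fun z => (f z : ℂ)) e * Φ e := by
  classical
  let _ := (𝔇 Y).fD
  set S : Finset (𝔇 Y).D := Finset.univ.filter fun e : (𝔇 Y).D => 𝔇.bulk.Emb Y e ∧ 𝔇.bulk.Emb Y ((𝔇 Y).T.opp e) with hS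
  set G : (𝔇 Y).D → ℂ := fun e => (f ((𝔇 Y).T.bary (𝔇.bulk.pos Y) e) : ℂ) * (𝔇 Y).T.side (𝔇.bulk.pos Y) e * Φ e with hGdef
  have hSmem : ∀ e : (𝔇 Y).D, e ∈ S → 𝔇.bulk.Emb Y e ∧ 𝔇.bulk.Emb Y ((𝔇 Y).T.opp e) := fun e he => by
    rw [hS, Finset.mem_filter] at he
    exact he.2
  have e0 : ∑ e ∈ 𝔇.edges Y, H e = ∑ e ∈ S, 𝔇.wt Y f e * Φ e := by
    have : 𝔇.edges Y = S.map ⟨Sigma.mk Y, sigma_mk_injective⟩ := by
      unfold PvoFam.edges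
      congr!
    rw [this, Finset.sum_map]
    exact Finset.sum_congr rfl fun e _ => hH e
  have e1 : ∀ e, 𝔇.wt Y f e * Φ e = G e + G ((𝔇 Y).T.opp e) := fun e => by
    simp only [hGdef]
    unfold PvoFam.wt
    rw [pvoj_side_opp, hΦ]
    push_cast
    ring
  have e2 : ∑ e ∈ S, G ((𝔇 Y).T.opp e) = ∑ e ∈ S, G e := by
    refine Finset.sum_nbij' (fun e => (𝔇 Y).T.opp e) (fun e => (𝔇 Y).T.opp e) ?_ ?_ ?_ ?_ ?_
    · intro e he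
      rw [hS, Finset.mem_filter] at he ⊢
      exact ⟨Finset.mem_univ _, he.2.2, by rw [(𝔇 Y).T.opp_opp]; exact he.2.1⟩
    · intro e he
      rw [hS, Finset.mem_filter] at he ⊢
      exact ⟨Finset.mem_univ _, he.2.2, by rw [(𝔇 Y).T.opp_opp]; exact he.2.1⟩
    · intro e _; exact (𝔇 Y).T.opp_opp e
    · intro e _; exact (𝔇 Y).T.opp_opp e
    · intro e _; rfl
  have hsupp : Function.support (fun e => 𝔇.bulk.wV Y (fun z => (f z : ℂ)) e * Φ e) ⊆ (S : Set (𝔇 Y).D) := by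
    intro e he
    have h1 : 𝔇.bulk.wV Y (fun z => (f z : ℂ)) e ≠ 0 := left_ne_zero_of_mul he
    unfold PvBulk.wV at h1
    by_cases hE : 𝔇.bulk.Emb Y e
    · rw [if_pos hE] at h1
      have h2 : f ((𝔇 Y).T.bary (𝔇.bulk.pos Y) e) ≠ 0 := fun h0 => h1 (by
        show ((f ((𝔇 Y).T.bary (𝔇.bulk.pos Y) e) : ℝ) : ℂ) * _ = 0
        rw [h0]; simp)
      rw [hS, Finset.coe_filter]
      exact ⟨Finset.mem_univ _, hE, hcov e hE h2⟩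
    · rw [if_neg hE] at h1
      exact absurd rfl h1
  have e3 : ∑ᶠ e, 𝔇.bulk.wV Y (fun z => (f z : ℂ)) e * Φ e = ∑ e ∈ S, G e := by
    rw [finsum_eq_sum_of_support_subset _ hsupp]
    refine Finset.sum_congr rfl fun e he => ?_
    have he2 : 𝔇.bulk.Emb Y e := (hSmem e he).1
    unfold PvBulk.wV
    rw [if_pos he2]
    rfl
  rw [e0, Finset.sum_congr rfl fun e _ => e1 e, Finset.sum_add_distrib, e2, e3]
  ring

/-- on a sphere the observable of the system is the observable of BOX:CR -/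
theorem pvoj_F_eq (hok : 𝔇.bulk.Ok Y ∅) (e : (𝔇 Y).D) : 𝔇.F Y e = (𝔇.bulk.T Y).obs (𝔇 Y).q e := by
  unfold PvoFam.F
  rw [if_pos hok]
  exact (@pvcr_obs_eq _ _ (𝔇 Y).T (𝔇 Y).fV (𝔇 Y).q e).symm

/-- (L2) `∑_e c_e F_e = 2 S(Y)` at a good geometry inside the guard -/
theorem pvoj_sumF_good {εs : ℕ → ℝ} {𝒯 : ℕ → Set PvGeoT} {k : ℕ} {g : PvGeoT} (hgT : g ∈ 𝒯 k) (hg : 𝔇.Good D d ψ x (pvgSites g) s t)
    (hK : Metric.closedBall x0 (6 * R) ⊆ {z | t ≤ Metric.infDist z Dᶜ}) (htR : t ≤ R) {f : ℂ → ℝ} (hf : tsupport f ⊆ Metric.ball x0 R) :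
    (𝔇.sys D ψ εs 𝒯).sumF f (fun _ => 1) k g = 2 * 𝔇.bulk.crS (fun Y => (𝔇 Y).q) x0 R (fun z => (f z : ℂ)) (pvgSites g) := by
  rw [pvsc_sumF_one]
  have hE : (𝔇.sys D ψ εs 𝒯).E k g = 𝔇.edges (pvgSites g) := if_pos hgT
  rw [hE]
  unfold PvBulk.crS
  rw [if_pos (pvoj_gd hg hK)]
  exact pvoj_parts f (fun e => (𝔇.bulk.T (pvgSites g)).obs (𝔇 (pvgSites g)).q e) (fun e => pvsc_obs_opp _ _ _) (fun e he hne => pvoj_emb_opp hg htR hK he (hf (subset_tsupport f hne))) _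
    fun e => by
      show 𝔇.wt _ f e * 𝔇.F _ e = _
      rw [pvoj_F_eq (pvoj_ok_empty hg.ok)]

/-- (L2, mirror) -/
theorem pvoj_sumF_good_conj {εs : ℕ → ℝ} {𝒯 : ℕ → Set PvGeoT} {k : ℕ} {g : PvGeoT} (hgT : g ∈ 𝒯 k) (hg : 𝔇.Good D d ψ x (pvgSites g) s t)
    (hK : Metric.closedBall x0 (6 * R) ⊆ {z | t ≤ Metric.infDist z Dᶜ}) (htR : t ≤ R) {f : ℂ → ℝ} (hf : tsupport f ⊆ Metric.ball x0 R) :
    (𝔇.sys D ψ εs 𝒯).conj.sumF f (fun _ => 1) k g = 2 * 𝔇.bulk.crSc (fun Y => (𝔇 Y).q) x0 R (fun z => (f z : ℂ)) (pvgSites g) := by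
  rw [pvsc_conj_sumF]
  have hE : (𝔇.sys D ψ εs 𝒯).E k g = 𝔇.edges (pvgSites g) := if_pos hgT
  rw [hE]
  unfold PvBulk.crSc
  rw [if_pos (pvoj_gd hg hK)]
  exact pvoj_parts f (fun e => (starRingEnd ℂ) ((𝔇.bulk.T (pvgSites g)).obs (𝔇 (pvgSites g)).q e)) (fun e => congrArg _ (pvsc_obs_opp _ _ _))
    (fun e he hne => pvoj_emb_opp hg htR hK he (hf (subset_tsupport f hne))) _ fun e => by
      show 𝔇.wt _ f e * (starRingEnd ℂ) (𝔇.F _ e) = _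
      rw [pvoj_F_eq (pvoj_ok_empty hg.ok)]

/-- off the guard there are no edges -/
theorem pvoj_sumF_off {εs : ℕ → ℝ} {𝒯 : ℕ → Set PvGeoT} {k : ℕ} {g : PvGeoT} (hgT : g ∉ 𝒯 k) (f : ℂ → ℝ) :
    (𝔇.sys D ψ εs 𝒯).sumF f (fun _ => 1) k g = 0 ∧ (𝔇.sys D ψ εs 𝒯).conj.sumF f (fun _ => 1) k g = 0 := by
  have hE : (𝔇.sys D ψ εs 𝒯).E k g = ∅ := if_neg hgT
  rw [pvsc_sumF_one, pvsc_conj_sumF, hE]
  exact ⟨Finset.sum_empty, Finset.sum_empty⟩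

end det

/-- (L3) the probabilistic glue: `H k = 2 Z` on the guard, `0` off the guard, `‖c Z‖ₑ ≤ u k` with `c ≠ 0` -/
theorem pvoj_cr_glue {P : ℕ → Measure PvGeoT} {H : ℕ → PvGeoT → ℂ} {Z : PvGeoT → ℂ} {𝒯 : ℕ → Set PvGeoT} {c : ℂ} (hc : c ≠ 0)
    {u : ℕ → PvGeoT → ℝ≥0∞} (hum : ∀ k, Measurable (u k)) (hub : ∀ k g, PvgOk g → ‖c * Z g‖ₑ ≤ u k g)
    (hul : Tendsto (fun k => ∫⁻ g, u k g ∂P k) atTop (𝓝 0))
    (hid : ∀ᶠ k in atTop, ∀ g, (g ∈ 𝒯 k → PvgOk g ∧ H k g = 2 * Z g) ∧ (g ∉ 𝒯 k → H k g = 0)) :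
    Tendsto (fun k => pvoMean (P k) (H k)) atTop (𝓝 0) := by
  have hc0 : ‖c‖ₑ ≠ 0 := enorm_ne_zero.2 hc
  have hct : ‖c‖ₑ ≠ ⊤ := enorm_ne_top
  refine pvsc_mean_tendsto (u := fun k g => 2 * ‖c‖ₑ⁻¹ * u k g) (fun k => (hum k).const_mul _) ?_ ?_
  · filter_upwards [hid] with k hk g
    by_cases hg : g ∈ 𝒯 k
    · obtain ⟨hok, he⟩ := (hk g).1 hg
      have h3 := hub k g hok
      rw [enorm_mul] at h3
      have e2 : ‖(2 : ℂ)‖ₑ = 2 := by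
        rw [← ofReal_norm]; simp
      rw [he, enorm_mul, e2, mul_assoc]
      refine mul_le_mul_right ?_ _
      calc ‖Z g‖ₑ = ‖c‖ₑ⁻¹ * (‖c‖ₑ * ‖Z g‖ₑ) := by rw [← mul_assoc, ENNReal.inv_mul_cancel hc0 hct, one_mul]
        _ ≤ ‖c‖ₑ⁻¹ * u k g := by gcongr
    · rw [(hk g).2 hg, enorm_zero]
      exact zero_le
  · have hl2 : Tendsto (fun k => 2 * ‖c‖ₑ⁻¹ * ∫⁻ g, u k g ∂P k) atTop (𝓝 0) := by
      have := ENNReal.Tendsto.const_mul (a := 2 * ‖c‖ₑ⁻¹) hul (Or.inr (ENNReal.mul_ne_top (by norm_num) (ENNReal.inv_ne_top.2 hc0)))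
      rwa [mul_zero] at this
    refine hl2.congr fun k => ?_
    rw [lintegral_const_mul _ (hum k)]

/-- **J-CR** (289 seam S1, 7 `Cr/Main.lean`).      `pvcr_split`-type alternative at `𝔅 = 𝔇.bulk`, `q = fun Y => (𝔇 Y).q`.   For `k ≥ k₀(f)`: `𝒯 k ⊆ {Gd q x R}` (`PvoGuard.good` at `t < dist (closedBall x 6R) Dᶜ`, `t < R`) and there
`sumF f 1 k g = 2 ∑_d wV d * F d = 2 crS` (`F (opp d) = F d`, `side (opp d) = - side d`; a face with barycentre in `ball x R` and its three neighbours are embedded);   off `𝒯 k` the sum is empty;   `obs = obsF` (finite `V`).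
Hence `‖(1 - a) sumF f 1 k g‖ ≤ 2 u k g` at ALL `g`. -/
theorem pvoj_cr (hT : PvCR) {D : Set ℂ} {d : ℂ} {ψ : ℂ → ℂ} (h : PvChart D d ψ) {x : ℝ} {𝔇 : PvoFam} {εs : ℕ → ℝ} {𝒯 : ℕ → Set PvGeoT}
    (hG : PvoGuard 𝔇 D d ψ x εs 𝒯) :
    ∃ ms : ℕ → ℕ, StrictMono ms ∧ ((∀ f : ℂ → ℝ, PvoTest D f → PvoCrLim (𝔇.sys D ψ (εs ∘ ms) (𝒯 ∘ ms)) f) ∨
      (∀ f : ℂ → ℝ, PvoTest D f → PvoCrLim (𝔇.sys D ψ (εs ∘ ms) (𝒯 ∘ ms)).conj f)) := by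
  obtain ⟨φ, hφ, a, ha⟩ := hT εs hG.pos hG.lim
  have hG' := hG.sub hφ.tendsto_atTop
  refine ⟨φ, hφ, ?_⟩
  -- the deterministic identities, eventually
  have key : ∀ (f : ℂ → ℝ) (x0 : ℂ) (R : ℝ), 0 < R → Metric.closedBall x0 (6 * R) ⊆ D → tsupport f ⊆ Metric.ball x0 R →
      ∀ᶠ k in atTop, ∀ g ∈ (𝒯 ∘ φ) k, PvgOk g ∧
        (𝔇.sys D ψ (εs ∘ φ) (𝒯 ∘ φ)).sumF f (fun _ => 1) k g = 2 * 𝔇.bulk.crS (fun Y => (𝔇 Y).q) x0 R (fun z => (f z : ℂ)) (pvgSites g) ∧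
        (𝔇.sys D ψ (εs ∘ φ) (𝒯 ∘ φ)).conj.sumF f (fun _ => 1) k g
          = 2 * 𝔇.bulk.crSc (fun Y => (𝔇 Y).q) x0 R (fun z => (f z : ℂ)) (pvgSites g) := by
    intro f x0 R hR hx hf
    obtain ⟨t0, ht0, hK0⟩ := pvoj_depth h hx
    obtain ⟨s, -, hs⟩ := hG'.good (min t0 R) (lt_min ht0 hR)
    have hK : Metric.closedBall x0 (6 * R) ⊆ {z | min t0 R ≤ Metric.infDist z Dᶜ} := fun z hz =>
      show min t0 R ≤ Metric.infDist z Dᶜ from (min_le_left _ _).trans (hK0 hz)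
    filter_upwards [hs] with k hk g hg
    exact ⟨(hG'.ok k g hg).1, pvoj_sumF_good hg (hk g hg) hK (min_le_right _ _) hf, pvoj_sumF_good_conj hg (hk g hg) hK (min_le_right _ _) hf⟩
  by_cases h1a : a = 1
  · right
    rintro f ⟨hfc, -, x0, R, hR, hx, hsupp⟩
    obtain ⟨u, hum, hub, hul⟩ := ha (Fin 3) 𝔇.bulk (fun Y => (𝔇 Y).q) x0 R (fun z => (f z : ℂ)) hR (pvsc_contDiff hfc)
      (by rw [pvsc_tsupport]; exact hsupp)
    refine pvoj_cr_glue (𝒯 := 𝒯 ∘ φ) (Z := fun g => 𝔇.bulk.crSc (fun Y => (𝔇 Y).q) x0 R (fun z => (f z : ℂ)) (pvgSites g))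
      (c := a) (by rw [h1a]; exact one_ne_zero) hum (fun k g hg => (hub k g hg).2) hul ?_
    filter_upwards [key f x0 R hR hx hsupp] with k hk g
    exact ⟨fun hg => ⟨(hk g hg).1, (hk g hg).2.2⟩, fun hg => (pvoj_sumF_off hg f).2⟩
  · left
    rintro f ⟨hfc, -, x0, R, hR, hx, hsupp⟩
    obtain ⟨u, hum, hub, hul⟩ := ha (Fin 3) 𝔇.bulk (fun Y => (𝔇 Y).q) x0 R (fun z => (f z : ℂ)) hR (pvsc_contDiff hfc)
      (by rw [pvsc_tsupport]; exact hsupp)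
    refine pvoj_cr_glue (𝒯 := 𝒯 ∘ φ) (Z := fun g => 𝔇.bulk.crS (fun Y => (𝔇 Y).q) x0 R (fun z => (f z : ℂ)) (pvgSites g))
      (c := 1 - a) (sub_ne_zero.2 (Ne.symm h1a)) hum (fun k g hg => (hub k g hg).1) hul ?_
    filter_upwards [key f x0 R hR hx hsupp] with k hk g
    exact ⟨fun hg => ⟨(hk g hg).1, (hk g hg).2.1⟩, fun hg => (pvoj_sumF_off hg f).1⟩

theorem pvoj_om_ne : (1 : ℂ) ≠ pvOm := by
  intro h
  have h1 : pvOm.im = 0 := by rw [← h]; rfl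
  unfold pvOm at h1
  have e : (2 * (Real.pi : ℂ) * Complex.I / 3) = ((2 * Real.pi / 3 : ℝ) : ℂ) * Complex.I := by push_cast; ring
  rw [e, Complex.exp_ofReal_mul_I_im] at h1
  have h2 : 0 < Real.sin (2 * Real.pi / 3) := Real.sin_pos_of_pos_of_lt_pi (by positivity) (by linarith [Real.pi_pos])
  exact h2.ne' h1

/-! ## 4. junk, selection of the best level -/

/-- the double triangle (junk value of a family) -/
def pvoJunkMap : PvMap (Fin 3) (Fin 3 × Bool) where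
  src d := d.1
  nxt d := if d.2 then (d.1 + 1, true) else (d.1 - 1, false)
  opp d := if d.2 then (d.1 + 1, false) else (d.1 - 1, true)
  nxt3 := by decide
  opp_opp := by decide
  src_opp := by decide
  src_ne := by decide

/-- junk -/
def pvoJunk : PvoDat where
  V := Fin 3
  D := Fin 3 × Bool
  fV := inferInstance
  fD := inferInstance
  T := pvoJunkMap
  lab := Sum.inr
  q := (0, true)

instance : Inhabited PvoDat := ⟨pvoJunk⟩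

/-- `Good` reads the family at `Y` only -/
theorem PvoFam.Good.congr {𝔇 𝔇' : PvoFam} {D : Set ℂ} {d : ℂ} {ψ : ℂ → ℂ} {x : ℝ} {Y : Set ℂ} {s t : ℝ} (h : 𝔇.Good D d ψ x Y s t) (e : 𝔇' Y = 𝔇 Y) :
    𝔇'.Good D d ψ x Y s t := by
  have key : ∀ X : PvoDat, 𝔇 Y = X → PvoFam.Good (fun _ => X) D d ψ x Y s t := by
    intro X hX
    subst hX
    exact ⟨⟨h.ok.sph, h.ok.simple, h.ok.inj, h.ok.site, h.ok.face, h.ok.del, h.ok.emb⟩, h.cl0, h.cl2, h.cl1, h.inD, h.adj, h.arc, h.densD, h.densB, h.conn, h.sec⟩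
  have h1 := key (𝔇' Y) e.symm
  exact ⟨⟨h1.ok.sph, h1.ok.simple, h1.ok.inj, h1.ok.site, h1.ok.face, h1.ok.del, h1.ok.emb⟩, h1.cl0, h1.cl2, h1.cl1, h1.inD, h1.adj, h1.arc, h1.densD, h1.densB, h1.conn, h1.sec⟩

open Classical in
/-- **SELECTION**: one family which realises, at every `Y`, every level `m ≤ N Y` that can be realised -/
theorem pvoj_select (Q : ℕ → Set ℂ → PvoDat → Prop) (hmono : ∀ m Y X, Q (m + 1) Y X → Q m Y X) (N : Set ℂ → ℕ) :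
    ∃ 𝔇 : PvoFam, ∀ m Y, (∃ X, Q m Y X) → m ≤ N Y → Q m Y (𝔇 Y) := by
  have hle : ∀ Y X m n, m ≤ n → Q n Y X → Q m Y X := by
    intro Y X m n hmn
    induction hmn with
    | refl => exact id
    | step _ ih => exact fun h => ih (hmono _ Y X h)
  refine ⟨fun Y => if h : ∃ X, Q (Nat.findGreatest (fun m => ∃ X, Q m Y X) (N Y)) Y X then h.choose else default, fun m Y hm hN => ?_⟩
  have h1 : ∃ X, Q (Nat.findGreatest (fun m => ∃ X, Q m Y X) (N Y)) Y X := Nat.findGreatest_spec (P := fun m => ∃ X, Q m Y X) hN hm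
  have h2 : m ≤ Nat.findGreatest (fun m => ∃ X, Q m Y X) (N Y) := Nat.le_findGreatest hN hm
  simp only [dif_pos h1]
  exact hle Y _ m _ h2 h1.choose_spec

/-- **from levels to ONE family**: it is enough to produce, whp, ONE marked sphere which is good at the levels `m' ≤ m` -/
theorem pvoj_whp_of {D : Set ℂ} {d : ℂ} {ψ : ℂ → ℂ} {x : ℝ} (sq : ℕ → ℝ) (hs : ∀ m, 0 < sq m) (N : Set ℂ → ℕ)
    (hN : ∀ m : ℕ, Tendsto (fun ε : ℝ => pvGeo ε {g | N (pvgSites g) < m}) (𝓝[>] 0) (𝓝 0))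
    (hex : ∀ m : ℕ, Tendsto (fun ε : ℝ => pvGeo ε {g | ¬ ∃ X : PvoDat, ∀ m' ≤ m, PvoFam.Good (fun _ => X) D d ψ x (pvgSites g) (sq m') (1 / ((m' : ℝ) + 1))})
      (𝓝[>] 0) (𝓝 0)) : ∃ 𝔇 : PvoFam, 𝔇.Whp D d ψ x := by
  obtain ⟨𝔇, h𝔇⟩ := pvoj_select (fun m Y X => ∀ m' ≤ m, PvoFam.Good (fun _ => X) D d ψ x Y (sq m') (1 / ((m' : ℝ) + 1)))
    (fun m Y X h m' hm' => h m' (Nat.le_succ_of_le hm')) N
  refine ⟨𝔇, fun t ht => ?_⟩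
  obtain ⟨m, hm⟩ := exists_nat_one_div_lt ht
  refine ⟨sq m, hs m, ?_⟩
  have hsum := (hex m).add (hN m)
  rw [add_zero] at hsum
  refine tendsto_of_tendsto_of_tendsto_of_le_of_le tendsto_const_nhds hsum (fun _ => zero_le) fun ε => ?_
  refine (measure_mono ?_).trans (measure_union_le _ _)
  intro g hg
  by_contra hcon
  simp only [mem_union, Set.mem_ofPred_eq, not_or, not_not, not_lt] at hcon
  refine hg ?_
  have h1 := h𝔇 m (pvgSites g) hcon.1 hcon.2 m le_rfl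
  exact (h1.congr (𝔇' := 𝔇) rfl).mono hm.le

end Claimed.Agent.R289
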