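import Claimed.Agent.R289.Fan.Dict
import Claimed.Agent.R289.Exit.Arm1

/-!
# Row 289 (S0537, Cardy for Poisson-Voronoi), unit OBS, file Obs/ArmD: THE DISCRETE HALF OF THE ARM TEST (8.2)      (owner helper184; prefix `pvoa_`, `Pvoa`; `PvMap.FV`, `PvMap.MonoOff`)

TEX: 08-observable.tex, proof of Lemma 8.3 (l.256-300): "different indicators force a selected-rim visit ... a monochromatic path of original disk sites from their neighbourhood to a fixed positive distance".
HERE: the same conclusion on `PvMap` (Pl/Defs) WITHOUT the rim lemma and WITHOUT planarity: only the `link` field of `IsSph` is used (sec. A-E need S1/Defs only).   0 sorry.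

* (A) `pvoa_status`     `InComp s d₀ ·` is invariant under `CStep`; if no face of the star of `v` is on the wall of `d₀` it is constant on the darts issued from `v` (`rot = opp ∘ nxt ∘ nxt`, `link`).
                        Hence: two probes issued from the two ends of a PRIMAL path in `X` with different status ⟹ a dart `c` with `src c ∈ X` and `Wall s d₀ c`.
* (B) `pvoa_wall_mono`  `Wall s d₀ a` ⟹ a vertex of the face of `a` and a vertex of the face of `d₀` of the same colour are joined by a monochromatic primal path (induction on the chain of faces).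
* (C) `pvoa_first_exit` a monochromatic path from `x ∉ Ex` to `y ∈ Ex`: its part before the first exterior vertex.
* (D) `pvoa_arm`, `pvoa_arm_join`   `d₀` tag of the closing face (vertices exterior), `t` the only exterior vertex seen from the stars of `X` (apex `s_j` of the fan for probes near the open arc `j`; arbitrary in the bulk):
                        different status ⟹ `PvoaEv T Ex t X s`: a disc site `x` of a face of a star of `X` is joined by a monochromatic path of DISC SITES to a site `w` adjacent to an exterior vertex `z ≠ t` of its colour.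
                        (take the colour opposite to `s t`: the wall face has a vertex of that colour, it is not exterior; the closing face has one too, it is not `t`.)
* (E) `pvoa_test` (form consumed by the event-agnostic count of Fan/ObsArm);  `pvoaG T w d m s = w_* H_{λ_*}(m)` (so `F_m^η = 4 E[pvoaG T w d m ·]`), `pvoa_G_arm`: `‖pvoaG e s - pvoaG e' s‖ ≤ 1{PvoaEv}` POINTWISE in the colouring; fan probes are darts issued from their attachment.

* (F) `pvoa_ev_arm1`    `PvoaEv` + positions ⟹ `∃ b, PvArm1 η b z s₀ r` (vertex arm of the full-plane model, Exit/Arm1: `exit_pv_arm1*` bound its outer probability).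
* (G) ON THE COMPLETED SPHERE `F.map` (`F : PvFan V D`, Fan/Sphere + Fan/Dict of helper92): `F.ArmD j X₀ s'` (arm of the CLOSED DISC from `X₀` or a neighbour of `X₀` to an inclusive arc `i ≠ j`);
                        `pvoa_fan_test`: `X₀ ⊆ VOf c.Left` avoiding the arcs `i ≠ j`, `T.Join c.Left X₀ a b`, probes `e`, `e'` issued from `iv a`, `iv b` ⟹ `∀ s' d, SF (.s l) d → Tag s' d → (InComp s' d e ↔ InComp s' d e') ∨ F.ArmD j X₀ s'`
                        (= hypothesis of the event-agnostic count `pv82a_gen` of helper119);   `pvoa_fan_arm1`: `F.ArmD j X₀ s'` + positions, mesh `m`, `X₀ ⊆ closedBall z s₁`, arcs `i ≠ j` at distance `≥ r` ⟹ `∃ b, PvArm1 η b z (s₁ + m) r`.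

For the instance: `X` from (D4) of DISC; `w` adjacent to `z ≠ t` puts `w` on another inclusive boundary arc, at distance `≥ ρ(p) > 0`; consecutive disc sites of the path are Delaunay neighbours.
-/

set_option autoImplicit false

namespace Claimed.Agent.R289

open Relation

namespace PvMap

variable {V D : Type} (T : PvMap V D)

/-- `x` is a vertex of the face of `d` -/
def FV (d : D) (x : V) : Prop := x = T.src d ∨ x = T.tgt d ∨ x = T.apex d

/-- monochromatic path all of whose vertices after the first avoid `Ex` -/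
def MonoOff (s : V → Bool) (Ex : Set V) (a b : V) : Prop := ReflTransGen (fun u v => T.Adj u v ∧ s u = s v ∧ v ∉ Ex) a b

end PvMap

theorem pvoa_eqns_cite : True := by
  have := @PvMap.FV.eq_1; have := @PvMap.MonoOff.eq_1
  trivial

variable {V D : Type} {T : PvMap V D}

/-! ## A. the status `InComp s d₀ ·` changes only at the wall -/

theorem pvoa_cstep {s : V → Bool} {d₀ a b : D} (h : T.CStep s d₀ a b) : T.InComp s d₀ a ↔ T.InComp s d₀ b :=
  ⟨fun h1 => ReflTransGen.tail h1 h, fun h1 => ReflTransGen.tail h1 (T.cstep_symm s d₀ a b h)⟩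

theorem pvoa_opp (s : V → Bool) (d₀ a : D) : T.InComp s d₀ a ↔ T.InComp s d₀ (T.opp a) := pvoa_cstep (Or.inl rfl)

theorem pvoa_sf {s : V → Bool} {d₀ a b : D} (h : T.SF a b) (hw : ¬ T.Wall s d₀ a) : T.InComp s d₀ a ↔ T.InComp s d₀ b :=
  pvoa_cstep (Or.inr ⟨h, hw⟩)

theorem pvoa_rot {s : V → Bool} {d₀ a : D} (hw : ¬ T.Wall s d₀ a) : T.InComp s d₀ a ↔ T.InComp s d₀ (T.rot a) :=
  (pvoa_sf (T.sf_nxt2 a) hw).trans (pvoa_opp s d₀ _)

theorem pvoa_rot_iter {s : V → Bool} {d₀ a : D} (hw : ∀ c, T.src c = T.src a → ¬ T.Wall s d₀ c) (n : ℕ) :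
    T.InComp s d₀ a ↔ T.InComp s d₀ (T.rot^[n] a) := by
  induction n with
  | zero => exact Iff.rfl
  | succ n ih =>
    rw [Function.iterate_succ_apply']
    exact ih.trans (pvoa_rot (hw _ (T.src_rot_iter n a)))

/-- the status is constant on the darts issued from a vertex whose star misses the wall -/
theorem pvoa_star (hlink : ∀ d d', T.src d = T.src d' → ∃ n : ℕ, T.rot^[n] d = d') {s : V → Bool} {d₀ a b : D}
    (hab : T.src a = T.src b) (hw : ∀ c, T.src c = T.src a → ¬ T.Wall s d₀ c) : T.InComp s d₀ a ↔ T.InComp s d₀ b := by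
  obtain ⟨n, rfl⟩ := hlink a b hab
  exact pvoa_rot_iter hw n

/-- **(A) STATUS**: two probes issued from the ends of a primal path in `X` with different status: a face of the star of a vertex of `X` lies on the wall -/
theorem pvoa_status (hlink : ∀ d d', T.src d = T.src d' → ∃ n : ℕ, T.rot^[n] d = d') {s : V → Bool} {d₀ : D} {X : Set V} {a b : V}
    (ha : a ∈ X) (hab : ReflTransGen (fun u v => T.Adj u v ∧ v ∈ X) a b) {e e' : D} (he : T.src e = a) (he' : T.src e' = b)
    (h : ¬ (T.InComp s d₀ e ↔ T.InComp s d₀ e')) : ∃ c, T.src c ∈ X ∧ T.Wall s d₀ c := by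
  by_contra hno
  have hfree : ∀ c, T.src c ∈ X → ¬ T.Wall s d₀ c := fun c hc hw => hno ⟨c, hc, hw⟩
  have key : ∀ v, ReflTransGen (fun u v => T.Adj u v ∧ v ∈ X) a v → v ∈ X ∧ ∀ c, T.src c = v → (T.InComp s d₀ e ↔ T.InComp s d₀ c) := by
    intro v hv
    induction hv with
    | refl =>
      exact ⟨ha, fun c hc => pvoa_star hlink (he.trans hc.symm) fun c' hc' => hfree c' (by rw [hc', he]; exact ha)⟩
    | tail _ hstep ih =>
      obtain ⟨⟨d, hd1, hd2⟩, hX⟩ := hstep
      refine ⟨hX, fun c hc => ?_⟩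
      have h1 := ih.2 d hd1
      have h2 : T.src (T.opp d) = T.src c := by rw [T.src_opp', hd2, hc]
      exact h1.trans ((pvoa_opp s d₀ d).trans (pvoa_star hlink h2 fun c' hc' => hfree c' (by rw [hc', T.src_opp', hd2]; exact hX)))
  exact h ((key b hab).2 e' he')

/-! ## B. the two sides of a wall are monochromatic paths -/

theorem pvoa_fv_sf {a b : D} (h : T.SF a b) {x : V} (hx : T.FV b x) : T.FV a x := by
  unfold PvMap.FV at hx ⊢
  rcases h with rfl | rfl | rfl
  · exact hx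
  · rw [T.src_nxt, T.tgt_nxt, T.apex_nxt] at hx
    tauto
  · rw [T.src_nxt2, T.tgt_nxt2, T.apex_nxt2] at hx
    tauto

/-- two distinct vertices of a face are adjacent -/
theorem pvoa_fv_adj {d : D} {x y : V} (hx : T.FV d x) (hy : T.FV d y) (hxy : x ≠ y) : T.Adj x y := by
  have a1 : T.Adj (T.src d) (T.tgt d) := ⟨d, rfl, rfl⟩
  have a2 : T.Adj (T.tgt d) (T.apex d) := ⟨T.nxt d, rfl, rfl⟩
  have a3 : T.Adj (T.apex d) (T.src d) := ⟨T.nxt (T.nxt d), rfl, T.tgt_nxt2 d⟩
  rcases hx with rfl | rfl | rfl <;> rcases hy with rfl | rfl | rfl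
  · exact absurd rfl hxy
  · exact a1
  · exact T.adj_symm a3
  · exact T.adj_symm a1
  · exact absurd rfl hxy
  · exact a2
  · exact a3
  · exact T.adj_symm a2
  · exact absurd rfl hxy

theorem pvoa_fv_mono {s : V → Bool} {d : D} {x y : V} (hx : T.FV d x) (hy : T.FV d y) (hs : s x = s y) : T.Mono s x y := by
  by_cases hxy : x = y
  · subst hxy
    exact ReflTransGen.refl
  · exact ReflTransGen.single ⟨pvoa_fv_adj hx hy hxy, hs⟩

/-- **(B) WALL SIDES** -/
theorem pvoa_wall_mono {s : V → Bool} {d₀ a : D} (h : T.Wall s d₀ a) :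
    ∀ x y, T.FV a x → T.FV d₀ y → s x = s y → T.Mono s x y := by
  induction h with
  | refl => exact fun x y hx hy hs => pvoa_fv_mono hx hy hs
  | tail _ hstep ih =>
    intro x y hx hy hs
    rcases hstep with hsf | ⟨hocc, rfl⟩
    · exact ih x y (pvoa_fv_sf hsf hx) hy hs
    · rename_i b _
      -- the shared vertex of the colour of `x`
      have hz : ∃ z, (z = T.src b ∨ z = T.tgt b) ∧ s z = s x := by
        unfold PvMap.Occ at hocc
        by_cases h1 : s (T.src b) = s x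
        · exact ⟨_, Or.inl rfl, h1⟩
        · refine ⟨_, Or.inr rfl, ?_⟩
          cases h2 : s (T.src b) <;> cases h3 : s (T.tgt b) <;> cases h4 : s x <;> simp_all
      obtain ⟨z, hz1, hz2⟩ := hz
      have hzb : T.FV b z := by
        rcases hz1 with rfl | rfl
        · exact Or.inl rfl
        · exact Or.inr (Or.inl rfl)
      have hzo : T.FV (T.opp b) z := by
        unfold PvMap.FV
        rw [T.src_opp', T.tgt_opp]
        tauto
      exact (pvoa_fv_mono hx hzo hz2.symm).trans (ih z y hzb hy (hz2.trans hs))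

/-! ## C. first exit -/

/-- **(C) FIRST EXIT** of a monochromatic path from `x ∉ Ex` to `y ∈ Ex` -/
theorem pvoa_first_exit {s : V → Bool} {Ex : Set V} {x y : V} (h : T.Mono s x y) (hx : x ∉ Ex) (hy : y ∈ Ex) :
    ∃ w z, T.MonoOff s Ex x w ∧ w ∉ Ex ∧ z ∈ Ex ∧ T.Adj w z ∧ s w = s x ∧ s z = s x := by
  have key : ∀ v, T.Mono s x v → (T.MonoOff s Ex x v ∧ v ∉ Ex ∧ s v = s x) ∨
      ∃ w z, T.MonoOff s Ex x w ∧ w ∉ Ex ∧ z ∈ Ex ∧ T.Adj w z ∧ s w = s x ∧ s z = s x := by
    intro v hv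
    induction hv with
    | refl => exact Or.inl ⟨ReflTransGen.refl, hx, rfl⟩
    | tail _ hstep ih =>
      rename_i u v _
      rcases ih with ⟨h1, h2, h3⟩ | h
      · by_cases hv : v ∈ Ex
        · exact Or.inr ⟨u, v, h1, h2, hv, hstep.1, h3, hstep.2.symm.trans h3⟩
        · exact Or.inl ⟨ReflTransGen.tail h1 ⟨hstep.1, hstep.2, hv⟩, hv, hstep.2.symm.trans h3⟩
      · exact Or.inr h
  rcases key y h with ⟨-, h2, -⟩ | h
  · exact absurd hy h2
  · exact h

theorem pvoa_monoOff_color {s : V → Bool} {Ex : Set V} {x w : V} (h : T.MonoOff s Ex x w) : s w = s x := by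
  induction h with
  | refl => rfl
  | tail _ hstep ih => exact hstep.2.1.symm.trans ih

theorem pvoa_monoOff_mono {s : V → Bool} {Ex : Set V} {x w : V} (h : T.MonoOff s Ex x w) : T.Mono s x w :=
  ReflTransGen.mono (fun _ _ h => ⟨h.1, h.2.1⟩) _ _ h

/-! ## D. the discrete arm -/

/-- **THE DISCRETE HALF OF (8.2)**.   `d₀` = the missing spoke of the closing face (all of whose vertices are exterior), `X` = the vertices of a primal comparison path between the two probes `e`, `e'`;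
the only exterior vertex of the faces of the stars of `X` is `t` (the apex `s_j` of the fan when the probes are near the open arc `j`; any exterior vertex in the bulk).
If the component indicators of the two probes differ, a face of the star of `X` has a vertex `x` which is a disc site and is joined by a monochromatic path of DISC SITES to a site `w` adjacent to an
exterior vertex `z ≠ t` (so `w` lies on another boundary arc). -/
theorem pvoa_arm (hlink : ∀ d d', T.src d = T.src d' → ∃ n : ℕ, T.rot^[n] d = d') {s : V → Bool} {d₀ : D} (htag : T.Tag s d₀)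
    {Ex : Set V} (hEx : ∀ y, T.FV d₀ y → y ∈ Ex) {t : V} {X : Set V} (hXt : ∀ c, T.src c ∈ X → ∀ x, T.FV c x → x ∈ Ex → x = t)
    {a b : V} (ha : a ∈ X) (hab : ReflTransGen (fun u v => T.Adj u v ∧ v ∈ X) a b) {e e' : D} (he : T.src e = a) (he' : T.src e' = b)
    (h : ¬ (T.InComp s d₀ e ↔ T.InComp s d₀ e')) :
    ∃ c x w z, T.src c ∈ X ∧ T.FV c x ∧ x ∉ Ex ∧ T.MonoOff s Ex x w ∧ w ∉ Ex ∧ z ∈ Ex ∧ z ≠ t ∧ T.Adj w z ∧ s z = s w := by
  obtain ⟨c, hcX, hcW⟩ := pvoa_status hlink ha hab he he' h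
  obtain ⟨b', hsf, hocc⟩ := T.wall_occ htag hcW
  -- a vertex of the face of `c` whose colour is not the colour of `t`
  obtain ⟨x, hxc, hxt⟩ : ∃ x, T.FV c x ∧ s x ≠ s t := by
    unfold PvMap.Occ at hocc
    by_cases h1 : s (T.src b') = s t
    · exact ⟨T.tgt b', pvoa_fv_sf hsf (Or.inr (Or.inl rfl)), fun h2 => hocc (h1.trans h2.symm)⟩
    · exact ⟨T.src b', pvoa_fv_sf hsf (Or.inl rfl), h1⟩
  have hxE : x ∉ Ex := fun hx => hxt (by rw [hXt c hcX x hxc hx])
  -- a vertex of the closing face of the same colour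
  obtain ⟨y, hyd, hys⟩ : ∃ y, T.FV d₀ y ∧ s x = s y := by
    by_cases h1 : s x = s (T.src d₀)
    · exact ⟨_, Or.inl rfl, h1⟩
    · refine ⟨_, Or.inr (Or.inr rfl), ?_⟩
      have h2 := htag.2
      cases h3 : s (T.src d₀) <;> cases h4 : s (T.apex d₀) <;> cases h5 : s x <;> simp_all
  obtain ⟨w, z, h1, h2, h3, h4, h5, h6⟩ := pvoa_first_exit (pvoa_wall_mono hcW x y hxc hyd hys) hxE (hEx y hyd)
  exact ⟨c, x, w, z, hcX, hxc, hxE, h1, h2, h3, fun hz => hxt (by rw [← h6, hz]), h4, h6.trans h5.symm⟩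

/-- the same for a comparison path given by `PvMap.Join` -/
theorem pvoa_arm_join (hlink : ∀ d d', T.src d = T.src d' → ∃ n : ℕ, T.rot^[n] d = d') {s : V → Bool} {d₀ : D} (htag : T.Tag s d₀)
    {Ex : Set V} (hEx : ∀ y, T.FV d₀ y → y ∈ Ex) {t : V} {X : Set V} (hXt : ∀ c, T.src c ∈ X → ∀ x, T.FV c x → x ∈ Ex → x = t)
    {A : Set D} {a b : V} (hab : T.Join A X a b) {e e' : D} (he : T.src e = a) (he' : T.src e' = b)
    (h : ¬ (T.InComp s d₀ e ↔ T.InComp s d₀ e')) :
    ∃ c x w z, T.src c ∈ X ∧ T.FV c x ∧ x ∉ Ex ∧ T.MonoOff s Ex x w ∧ w ∉ Ex ∧ z ∈ Ex ∧ z ≠ t ∧ T.Adj w z ∧ s z = s w :=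
  pvoa_arm hlink htag hEx hXt hab.1 (ReflTransGen.mono (fun _ _ h => ⟨by
    obtain ⟨d, -, h1, h2⟩ := h.1
    exact ⟨d, h1, h2⟩, h.2⟩) _ _ hab.2) he he' h
/-! ## E. the integrand `w_* H_{λ_*}(m)` of the observable and the pointwise form of (8.2) -/

open Classical in
/-- `w_* H_{λ_*}(m)`: `d` a dart of the closing face, `w 0`, `w 1`, `w 2` the labels of the spokes `d`, `nxt d`, `nxt (nxt d)`;   `F_m^η = 4 E[pvoaG T w d m ·]` -/
noncomputable def pvoaG (T : PvMap V D) (w : Fin 3 → ℂ) (d m : D) (s : V → Bool) : ℂ :=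
  (if T.Tag s d ∧ T.InComp s d m then w 0 else 0) + (if T.Tag s (T.nxt d) ∧ T.InComp s (T.nxt d) m then w 1 else 0)
    + (if T.Tag s (T.nxt (T.nxt d)) ∧ T.InComp s (T.nxt (T.nxt d)) m then w 2 else 0)

/-- the discrete arm event -/
def PvoaEv (T : PvMap V D) (Ex : Set V) (t : V) (X : Set V) (s : V → Bool) : Prop :=
  ∃ c x w z, T.src c ∈ X ∧ T.FV c x ∧ x ∉ Ex ∧ T.MonoOff s Ex x w ∧ w ∉ Ex ∧ z ∈ Ex ∧ z ≠ t ∧ T.Adj w z ∧ s z = s w

theorem pvoa_eqns_cite2 : True := by
  have := @pvoaG.eq_1; have := @PvoaEv.eq_1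
  trivial

theorem pvoa_ite_diff {p q : Prop} [Decidable p] [Decidable q] {w : ℂ} (hw : ‖w‖ ≤ 1) :
    ‖(if p then w else 0) - (if q then w else 0)‖ ≤ 1 := by
  split_ifs <;> simp [hw]

theorem pvoa_G_le {w : Fin 3 → ℂ} (hw : ∀ i, ‖w i‖ ≤ 1) (d m m' : D) (s : V → Bool) : ‖pvoaG T w d m s - pvoaG T w d m' s‖ ≤ 1 := by
  classical
  unfold pvoaG
  by_cases h0 : T.Tag s d
  · have h1 : ¬ T.Tag s (T.nxt d) := fun h => T.nxt_ne_self d (T.tag_unique s h0 h (T.sf_nxt d))
    have h2 : ¬ T.Tag s (T.nxt (T.nxt d)) := fun h => T.nxt2_ne_self d (T.tag_unique s h0 h (T.sf_nxt2 d))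
    simp only [h1, h2, false_and, if_false, add_zero]
    exact pvoa_ite_diff (hw 0)
  · by_cases h1 : T.Tag s (T.nxt d)
    · have h2 : ¬ T.Tag s (T.nxt (T.nxt d)) := fun h => T.nxt_ne_self _ (T.tag_unique s h1 h (T.sf_nxt _))
      simp only [h0, h2, false_and, if_false, add_zero, zero_add]
      exact pvoa_ite_diff (hw 1)
    · simp only [h0, h1, false_and, if_false, zero_add]
      exact pvoa_ite_diff (hw 2)

theorem pvoa_G_eq {w : Fin 3 → ℂ} {d m m' : D} {s : V → Bool}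
    (h : ∀ d', T.SF d d' → T.Tag s d' → (T.InComp s d' m ↔ T.InComp s d' m')) : pvoaG T w d m s = pvoaG T w d m' s := by
  classical
  unfold pvoaG
  have e : ∀ d', T.SF d d' → ((T.Tag s d' ∧ T.InComp s d' m) ↔ (T.Tag s d' ∧ T.InComp s d' m')) := fun d' hd =>
    and_congr_right fun ht => h d' hd ht
  simp only [e d (T.sf_refl d), e _ (T.sf_nxt d), e _ (T.sf_nxt2 d)]

/-- **the pointwise test in the form of the event-agnostic count** (`Fan/ObsArm`, helper119: `‖obsF q e - obsF q e'‖ ≤ 4 #{Ev} / 2^|V|`) -/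
theorem pvoa_test (hlink : ∀ d d', T.src d = T.src d' → ∃ n : ℕ, T.rot^[n] d = d') {q : D}
    {Ex : Set V} (hEx : ∀ y, T.FV q y → y ∈ Ex) {t : V} {X : Set V} (hXt : ∀ c, T.src c ∈ X → ∀ x, T.FV c x → x ∈ Ex → x = t)
    {a b : V} (ha : a ∈ X) (hab : ReflTransGen (fun u v => T.Adj u v ∧ v ∈ X) a b) {e e' : D} (he : T.src e = a) (he' : T.src e' = b) :
    ∀ s d, T.SF q d → T.Tag s d → (T.InComp s d e ↔ T.InComp s d e') ∨ PvoaEv T Ex t X s := by
  intro s d hd htag
  by_cases h : T.InComp s d e ↔ T.InComp s d e'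
  · exact Or.inl h
  · exact Or.inr (pvoa_arm hlink htag (fun y hy => hEx y (pvoa_fv_sf hd hy)) hXt ha hab he he' h)

open Classical in
/-- **(8.2), POINTWISE**: `|w_* H_{λ_*}(m) - w_* H_{λ_*}(m')| ≤ 1{discrete arm}` -/
theorem pvoa_G_arm (hlink : ∀ d d', T.src d = T.src d' → ∃ n : ℕ, T.rot^[n] d = d') {w : Fin 3 → ℂ} (hw : ∀ i, ‖w i‖ ≤ 1) {d : D}
    {Ex : Set V} (hEx : ∀ y, T.FV d y → y ∈ Ex) {t : V} {X : Set V} (hXt : ∀ c, T.src c ∈ X → ∀ x, T.FV c x → x ∈ Ex → x = t)
    {a b : V} (ha : a ∈ X) (hab : ReflTransGen (fun u v => T.Adj u v ∧ v ∈ X) a b) {e e' : D} (he : T.src e = a) (he' : T.src e' = b)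
    (s : V → Bool) : ‖pvoaG T w d e s - pvoaG T w d e' s‖ ≤ if PvoaEv T Ex t X s then 1 else 0 := by
  split_ifs with hev
  · exact pvoa_G_le hw d e e' s
  · rw [pvoa_G_eq, sub_self, norm_zero]
    intro d' hd' htag
    by_contra hne
    exact hev (pvoa_arm hlink htag (fun y hy => hEx y (pvoa_fv_sf hd' hy)) hXt ha hab he he' hne)

/-! ## F. dictionary with the vertex arm event `PvArm1` of Exit/Arm1 (abstract form) -/

/-- **DICTIONARY: the discrete arm is a vertex arm of the full-plane model** (`PvArm1`, Exit/Arm1).   `pos` = position of the disc vertices; the disc sites are sites of `η` with their colours; adjacent disc sites have touching cells;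
the faces of the stars of `X` are within `s₀` of `z`;  the sites adjacent to an exterior vertex `≠ t` are at distance `≥ r` of `z`. -/
theorem pvoa_ev_arm1 {η : Conf PvPt} {s : V → Bool} {Ex : Set V} {t : V} {X : Set V} (pos : V → ℂ) {z : ℂ} {s₀ r : ℝ}
    (hpts : ∀ v, v ∉ Ex → (pos v, s v) ∈ η.pts)
    (hadj : ∀ u v, u ∉ Ex → v ∉ Ex → T.Adj u v → (cfCell η (pos u) ∩ cfCell η (pos v)).Nonempty)
    (hnear : ∀ c x, T.src c ∈ X → T.FV c x → x ∉ Ex → ‖pos x - z‖ ≤ s₀)
    (hfar : ∀ w y, w ∉ Ex → y ∈ Ex → y ≠ t → T.Adj w y → r ≤ ‖pos w - z‖)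
    (h : PvoaEv T Ex t X s) : ∃ b : Bool, PvArm1 η b z s₀ r := by
  obtain ⟨c, x, w, y, hc, hx, hxE, hpath, hwE, hyE, hyt, hwy, -⟩ := h
  refine ⟨s x, pos x, pos w, hnear c x hc hx hxE, hfar w y hwE hyE hyt hwy, hpts x hxE, ?_⟩
  have key : ∀ v, T.MonoOff s Ex x v → v ∉ Ex ∧ s v = s x ∧
      ReflTransGen (fun p q => (q, s x) ∈ η.pts ∧ (cfCell η p ∩ cfCell η q).Nonempty) (pos x) (pos v) := by
    intro v hv
    induction hv with
    | refl => exact ⟨hxE, rfl, ReflTransGen.refl⟩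
    | tail _ hstep ih =>
      rename_i u v _
      obtain ⟨h1, h2, h3⟩ := ih
      have hs : s v = s x := hstep.2.1.symm.trans h2
      refine ⟨hstep.2.2, hs, ReflTransGen.tail h3 ⟨?_, hadj u v h1 hstep.2.2 hstep.1⟩⟩
      rw [← hs]
      exact hpts v hstep.2.2
  exact (key w hpath).2.2

/-! ## G. the completed sphere `F.map` of `Fan/Sphere` -/

/-- **the arm event in the closed disc**: a disc vertex `x` in `X₀` or joined to `X₀` by an edge of the disc is joined, by a path of the closed disc of the colour of `x`, to a vertex of an inclusive boundary arc `i ≠ j` -/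
def PvFan.ArmD (F : PvFan V D) (j : Fin 3) (X₀ : Set V) (s' : F.V' → Bool) : Prop :=
  ∃ x, ∃ hx : x ∈ F.T.VOf F.c.Left, (x ∈ X₀ ∨ ∃ v ∈ X₀, F.T.EdgeIn F.c.Left v x) ∧ ∃ i w, i ≠ j ∧ w ∈ F.c.arc (F.lo i) (F.hi i) ∧
    F.T.Join F.c.Left {y | ∃ hy, s' (F.iv y hy) = s' (F.iv x hx)} x w

theorem pvoa_fan_eqns_cite : True := by
  have := @PvFan.ArmD.eq_1
  trivial

theorem pvoa_fan_closing (F : PvFan V D) (l : Fin 3) {y : F.V'} (hy : F.map.FV (.s l) y) : ∃ i, y = F.sv i := by
  rcases hy with rfl | rfl | rfl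
  · exact ⟨l, rfl⟩
  · exact ⟨PvFan.pj l, rfl⟩
  · exact ⟨PvFan.pj (PvFan.pj l), rfl⟩

/-- **(8.2) on the completed sphere, pointwise test**: `X₀` = vertices of a primal comparison path of the closed disc which avoids the inclusive arcs `i ≠ j`; the probes `e`, `e'` are darts of the sphere issued from its two ends
(bulk edges, boundary edges or fan probes). -/
theorem pvoa_fan_test (F : PvFan V D) (j l : Fin 3) {X₀ : Set V} (hX₀ : X₀ ⊆ F.T.VOf F.c.Left)
    (harc : ∀ i, i ≠ j → ∀ v ∈ F.c.arc (F.lo i) (F.hi i), v ∉ X₀) {a b : V} (hab : F.T.Join F.c.Left X₀ a b)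
    {e e' : F.D'} (he : F.map.src e = F.iv a (hX₀ hab.1)) (hb : b ∈ F.T.VOf F.c.Left) (he' : F.map.src e' = F.iv b hb) :
    ∀ s' d, F.map.SF (.s l) d → F.map.Tag s' d → (F.map.InComp s' d e ↔ F.map.InComp s' d e') ∨ F.ArmD j X₀ s' := by
  intro s' d hd htag
  by_cases h : F.map.InComp s' d e ↔ F.map.InComp s' d e'
  · exact Or.inl h
  refine Or.inr ?_
  -- the path in the sphere
  obtain ⟨X, hXdef⟩ : ∃ X : Set F.V', X = {y | ∃ v, ∃ hv : v ∈ F.T.VOf F.c.Left, v ∈ X₀ ∧ y = F.iv v hv} := ⟨_, rfl⟩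
  have hpath : ∀ v, ReflTransGen (fun u v => F.T.EdgeIn F.c.Left u v ∧ v ∈ X₀) a v → ∃ hv : v ∈ F.T.VOf F.c.Left,
      ReflTransGen (fun u v => F.map.Adj u v ∧ v ∈ X) (F.iv a (hX₀ hab.1)) (F.iv v hv) := by
    intro v hv
    induction hv with
    | refl => exact ⟨_, ReflTransGen.refl⟩
    | tail _ hstep ih =>
      rename_i u v _
      obtain ⟨hu, ih⟩ := ih
      refine ⟨hX₀ hstep.2, ReflTransGen.tail ih ⟨(F.adj_iv_iff hu (hX₀ hstep.2)).2 hstep.1, ?_⟩⟩
      rw [hXdef]
      exact ⟨v, hX₀ hstep.2, hstep.2, rfl⟩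
  obtain ⟨_, hp⟩ := hpath b hab.2
  have haX : F.iv a (hX₀ hab.1) ∈ X := by
    rw [hXdef]
    exact ⟨a, hX₀ hab.1, hab.1, rfl⟩
  obtain ⟨c, hcX, hcW⟩ := pvoa_status F.isSph.link haX hp he he' h
  rw [hXdef] at hcX
  obtain ⟨v, hv, hvX, hcv⟩ := hcX
  obtain ⟨b', hsf, hocc⟩ := F.map.wall_occ htag hcW
  -- a vertex of the wall face whose colour is not the colour of `s_j`
  obtain ⟨x', hxc, hxt⟩ : ∃ x', F.map.FV c x' ∧ s' x' ≠ s' (F.sv j) := by
    unfold PvMap.Occ at hocc
    by_cases h1 : s' (F.map.src b') = s' (F.sv j)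
    · exact ⟨F.map.tgt b', pvoa_fv_sf hsf (Or.inr (Or.inl rfl)), fun h2 => hocc (h1.trans h2.symm)⟩
    · exact ⟨F.map.src b', pvoa_fv_sf hsf (Or.inl rfl), h1⟩
  have hcFV : F.map.FV c (F.iv v hv) := Or.inl hcv.symm
  -- it is a disc vertex
  obtain ⟨x, hx, rfl⟩ : ∃ x, ∃ hx : x ∈ F.T.VOf F.c.Left, x' = F.iv x hx := by
    rcases x' with ⟨x, hx⟩ | i
    · exact ⟨x, hx, rfl⟩
    · exfalso
      have hij : i ≠ j := fun hij => hxt (by rw [hij]; rfl)
      have hadj : F.map.Adj (F.sv i) (F.iv v hv) := pvoa_fv_adj hxc hcFV (by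
        intro hne
        exact Sum.inr_ne_inl hne)
      exact harc i hij v ((F.adj_sv_iff i hv).1 hadj) hvX
  -- a vertex of the closing face of the same colour
  obtain ⟨y, hyd, hys⟩ : ∃ y, F.map.FV d y ∧ s' (F.iv x hx) = s' y := by
    by_cases h1 : s' (F.iv x hx) = s' (F.map.src d)
    · exact ⟨_, Or.inl rfl, h1⟩
    · refine ⟨_, Or.inr (Or.inr rfl), ?_⟩
      have h2 := htag.2
      cases h3 : s' (F.map.src d) <;> cases h4 : s' (F.map.apex d) <;> cases h5 : s' (F.iv x hx) <;> simp_all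
  obtain ⟨i₀, rfl⟩ := pvoa_fan_closing F l (pvoa_fv_sf hd hyd)
  obtain ⟨i, w, hw, hi, hjoin⟩ := F.mono_hit s' hx (pvoa_wall_mono hcW _ _ hxc hyd hys)
  refine ⟨x, hx, ?_, i, w, fun hij => hxt (by rw [← hi, hij]), hw, hjoin⟩
  by_cases hxv : x = v
  · exact Or.inl (hxv ▸ hvX)
  · refine Or.inr ⟨v, hvX, (F.adj_iv_iff hv hx).1 (pvoa_fv_adj hcFV hxc fun hne => hxv ?_)⟩
    have := Sum.inl.inj hne
    exact (congrArg Subtype.val this).symm

/-- **DICTIONARY: the arm of the closed disc is a vertex arm of the full-plane model** (`PvArm1`, Exit/Arm1) -/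
theorem pvoa_fan_arm1 (F : PvFan V D) (j : Fin 3) {X₀ : Set V} {s' : F.V' → Bool} {η : Conf PvPt} (pos : V → ℂ) {z : ℂ} {s₁ m r : ℝ}
    (hpts : ∀ v, ∀ hv : v ∈ F.T.VOf F.c.Left, (pos v, s' (F.iv v hv)) ∈ η.pts)
    (hadj : ∀ u v, F.T.EdgeIn F.c.Left u v → (cfCell η (pos u) ∩ cfCell η (pos v)).Nonempty)
    (hX : ∀ v ∈ X₀, ‖pos v - z‖ ≤ s₁) (hm0 : 0 ≤ m) (hmesh : ∀ u v, F.T.EdgeIn F.c.Left u v → ‖pos u - pos v‖ ≤ m)
    (hfar : ∀ i, i ≠ j → ∀ w ∈ F.c.arc (F.lo i) (F.hi i), r ≤ ‖pos w - z‖)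
    (h : F.ArmD j X₀ s') : ∃ b : Bool, PvArm1 η b z (s₁ + m) r := by
  obtain ⟨x, hx, hnear, i, w, hij, hw, hjoin⟩ := h
  refine ⟨s' (F.iv x hx), pos x, pos w, ?_, hfar i hij w hw, hpts x hx, ?_⟩
  · rcases hnear with h1 | ⟨v, hv, hvx⟩
    · linarith [hX x h1]
    · have h1 := hX v hv
      have h2 := hmesh v x hvx
      have h3 : ‖pos x - z‖ ≤ ‖pos v - pos x‖ + ‖pos v - z‖ := by
        have := norm_sub_le (pos v - z) (pos v - pos x)
        have e : pos v - z - (pos v - pos x) = pos x - z := by ring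
        rw [e] at this
        linarith
      linarith
  · refine ReflTransGen.lift pos (fun u v huv => ?_) x w hjoin.2
    obtain ⟨h1, hv, h2⟩ := huv
    refine ⟨?_, hadj u v h1⟩
    rw [← h2]
    exact hpts v hv

end Claimed.Agent.R289
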