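import Claimed.Agent.R289.S1.Meas
import Claimed.Agent.R289.PppQ
import Claimed.Agent.R289.Obs.Mean

/-!
# Row 289 (S0537, Cardy for Poisson-Voronoi), unit OBS, file Obs/Col: (J3) FINITE COLOUR COUNTS ↔ `colLaw PvfIx` ↔ `pvLaw`      (helper258, post of helper174; prefix `pvol_`, defs `pvol*`)

The quenched observable of Sec. 8 is a COUNT over the colourings `s : V → Bool` of a finite triangulated sphere `T(b)` chosen from the geometry `b : PvfBase` (disc vertices `W ↪ V`, three extra vertices).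
The neighbours (ARM, MESH, TRANSPORT) give bounds for the OUTER measure `pvLaw ε A` of events `A : Set PVSample` of the frozen model.      This file is the bridge; NO measurability of `A`, of the disc, of the count is ever asked.

* §1  `pvol_fin`, `pvol_fin_real`: `colLaw V E = #E / 2^#V`;   `pvol_integral`: `∫ g d(colLaw V) = 2^{-#V} ∑_s g s`.
* §2  `pvol_comp`: `colLaw I {c | c ∘ ι ∈ E} = colLaw V E` (`ι` injective, `V` finite, `E` arbitrary);   `pvol_sub`: events which read the colours of a sub-family `j : W ↪ V` only;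
      `pvol_le`: **the transfer inequality** `#E / 2^#V ≤ colLaw I A` as soon as every `c : I → Bool` which copies (on `W`) a colouring of `E` lies in `A`.
* §3  `pvolE`: `pvfGlue` as a measurable equivalence;   `pvol_law`: `pvLaw ε A = (pvfBaseLaw ε × colLaw PvfIx) (pvfGlue ⁻¹' A)` for EVERY set `A`.
* §4  `pvolQ ε A b` = the colour probability of the section at `b` of the measurable hull of `A`: measurable in `b`, values in `[0,1]`, `∫ pvolQ ε A = (pvLaw ε A).toReal`, monotone / subadditive majorant;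
      `pvol_count_le`: **`#E / 2^#V ≤ pvolQ ε A b`** (form consumed by the fields `arm`, `out`, `lim` of Obs/Abs: `q = 4 pvolQ (arm event) + 2 pvolQ (bad event)`).
* §5  `pvol_q`: the packaged modulus `q = min 2 (4 pvolQ A + 2 pvolQ B)` of the field `arm` of `PvoArm`.
* §6  DICTIONARY between the two quench seams of the row: `PppQ.lean` (helper261: `PvGeoT pvGeo pvCol pvMerge pvgSite pvgAct pvgSites pvQ`) and `S1/Meas.lean` (helper268: `PvfBase pvfBaseLaw colLaw PvfIx pvfGlue pvfPos pvfAct pvfSites`):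
      they are EQUAL (`pvol_dict_*`), so a majorant on `(PvGeoT, pvGeo ε)` (unit CR) is a majorant on `(PvfBase, pvfBaseLaw ε)` (unit OBS).
* §7  SEAMS AT THE LEVEL OF THE MEANS (`pvoMean`, `pvomR` of Obs/Mean):   `pvolB μ Bad` measurable majorant of the indicator of ANY set;   `pvol_bad` (bounded families equal off bad sets have the same limit of means);
      `pvol_side` (quenched side line `R = w + t v` off bad ⟹ `pvoMean R - (w + pvomR t · v) → 0`: the four fields of `PvoBd`);   `pvol_link`, `pvol_link'` (`pvomR f ≤ pvLaw A + P*(bad)`: last clause of `PvonQuad`);   `pvol_geo_law`.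
-/

set_option autoImplicit false

namespace Claimed.Agent.R289

open MeasureTheory Set
open Claims.C0465
open scoped ENNReal

/-! ## 1. finite colourings -/

section fin

variable {V : Type} [Fintype V]

theorem pvol_fin (E : Set (V → Bool)) : colLaw V E = (E.ncard : ℝ≥0∞) * (2⁻¹ : ℝ≥0∞) ^ Fintype.card V := pvf_colLaw_fintype E

theorem pvol_fin_real (E : Set (V → Bool)) : (colLaw V E).toReal = (E.ncard : ℝ) / 2 ^ Fintype.card V := by
  rw [pvol_fin, ENNReal.toReal_mul, ENNReal.toReal_natCast, ENNReal.toReal_pow, ENNReal.toReal_inv]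
  simp [div_eq_mul_inv]

theorem pvol_fin_ofReal (E : Set (V → Bool)) : colLaw V E = ENNReal.ofReal ((E.ncard : ℝ) / 2 ^ Fintype.card V) := by
  rw [← pvol_fin_real, ENNReal.ofReal_toReal (measure_ne_top _ _)]

/-- on a finite set of vertices every set of colourings is measurable -/
theorem pvol_meas (E : Set (V → Bool)) : MeasurableSet E := E.toFinite.measurableSet

/-- the quenched mean is the normalised sum -/
theorem pvol_integral [DecidableEq V] {F : Type} [NormedAddCommGroup F] [NormedSpace ℝ F] [CompleteSpace F] (g : (V → Bool) → F) :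
    ∫ s, g s ∂colLaw V = ((2 : ℝ) ^ Fintype.card V)⁻¹ • ∑ s, g s := by
  rw [integral_fintype (Integrable.of_finite), Finset.smul_sum]
  refine Finset.sum_congr rfl fun s _ => ?_
  congr 1
  rw [measureReal_def, pvf_colLaw_singleton, ENNReal.toReal_pow, ENNReal.toReal_inv]
  simp

end fin

/-! ## 2. sub-families and injections -/

/-- **copying the colours along an injection** (no measurability: `V` is finite) -/
theorem pvol_comp {V I : Type} [Fintype V] (ι : V → I) (hι : Function.Injective ι) (E : Set (V → Bool)) :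
    colLaw I {c | c ∘ ι ∈ E} = colLaw V E := by
  have hm : Measurable (fun s : I → Bool => s ∘ ι) := measurable_pi_lambda _ fun v => measurable_pi_apply (ι v)
  rw [← pvf_colLaw_comp ι hι, Measure.map_apply hm (pvol_meas E)]
  rfl

/-- the trace of a set of colourings on a sub-family -/
def pvolTr {V W : Type} (j : W → V) (E : Set (V → Bool)) : Set (W → Bool) := {t | ∃ s ∈ E, s ∘ j = t}

theorem pvol_le_tr {V W : Type} [Fintype V] [Fintype W] (j : W → V) (hj : Function.Injective j) (E : Set (V → Bool)) :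
    colLaw V E ≤ colLaw W (pvolTr j E) := by
  rw [← pvol_comp j hj (pvolTr j E)]
  exact measure_mono fun s hs => ⟨s, hs, rfl⟩

/-- an event which reads the colours of the sub-family only -/
theorem pvol_sub {V W : Type} [Fintype V] [Fintype W] (j : W → V) (hj : Function.Injective j) (E : Set (V → Bool))
    (hE : ∀ s s' : V → Bool, s ∘ j = s' ∘ j → s ∈ E → s' ∈ E) : colLaw V E = colLaw W (pvolTr j E) := by
  rw [← pvol_comp j hj (pvolTr j E)]
  congr 1
  ext s
  constructor
  · intro hs; exact ⟨s, hs, rfl⟩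
  · rintro ⟨s', hs', h⟩; exact hE s' s h hs'

/-- **the transfer inequality**: `E` = colourings of the finite sphere, `W` = the vertices which are sites, `ι` = their indices, `A` = ANY set of colourings of the index set -/
theorem pvol_le {V W I : Type} [Fintype V] [Fintype W] (j : W → V) (hj : Function.Injective j) (ι : W → I) (hι : Function.Injective ι)
    (E : Set (V → Bool)) (A : Set (I → Bool)) (h : ∀ s ∈ E, ∀ c : I → Bool, (∀ w, c (ι w) = s (j w)) → c ∈ A) : colLaw V E ≤ colLaw I A := by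
  refine (pvol_le_tr j hj E).trans ?_
  rw [← pvol_comp ι hι (pvolTr j E)]
  refine measure_mono ?_
  rintro c ⟨s, hs, hsc⟩
  exact h s hs c fun w => (congrFun hsc w).symm

/-- equality, when `A` is exactly the copy of an event which reads `W` only -/
theorem pvol_eq {V W I : Type} [Fintype V] [Fintype W] (j : W → V) (hj : Function.Injective j) (ι : W → I) (hι : Function.Injective ι)
    (E : Set (V → Bool)) (hE : ∀ s s' : V → Bool, s ∘ j = s' ∘ j → s ∈ E → s' ∈ E) :
    colLaw V E = colLaw I {c | ∃ s ∈ E, ∀ w, c (ι w) = s (j w)} := by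
  rw [pvol_sub j hj E hE, ← pvol_comp ι hι (pvolTr j E)]
  congr 1
  ext c
  constructor
  · rintro ⟨s, hs, h⟩; exact ⟨s, hs, fun w => (congrFun h w).symm⟩
  · rintro ⟨s, hs, h⟩; exact ⟨s, hs, funext fun w => (h w).symm⟩

/-! ## 3. the frozen law of an arbitrary set -/

/-- `pvfGlue` as a measurable equivalence -/
def pvolE : PvfBase × (PvfIx → Bool) ≃ᵐ PVSample where
  toFun := pvfGlue
  invFun := fun o => (pvfBase o, pvfCol o)
  left_inv := fun _ => rfl
  right_inv := fun _ => rfl
  measurable_toFun := pvf_measurable_glue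
  measurable_invFun := pvf_measurable_base.prodMk pvf_measurable_col

/-- **outer measures agree**: no measurability of `A` -/
theorem pvol_law (ε : ℝ) (A : Set PVSample) : pvLaw ε A = ((pvfBaseLaw ε).prod (colLaw PvfIx)) (pvfGlue ⁻¹' A) := by
  rw [pvf_qcol]
  exact pvolE.map_apply A

/-! ## 4. the measurable majorant of a quenched probability -/

/-- the measurable hull of `A` in (geometry) × (colours) -/
def pvolH (ε : ℝ) (A : Set PVSample) : Set (PvfBase × (PvfIx → Bool)) := toMeasurable ((pvfBaseLaw ε).prod (colLaw PvfIx)) (pvfGlue ⁻¹' A)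

/-- **the measurable majorant of `b ↦ P^b(A)`** -/
noncomputable def pvolQ (ε : ℝ) (A : Set PVSample) (b : PvfBase) : ℝ := (colLaw PvfIx {c | (b, c) ∈ pvolH ε A}).toReal

theorem pvol_eqns_cite : True := by
  have := @pvolTr.eq_1; have := @pvolE.eq_1; have := @pvolH.eq_1; have := @pvolQ.eq_1
  trivial

theorem pvol_H_meas (ε : ℝ) (A : Set PVSample) : MeasurableSet (pvolH ε A) := measurableSet_toMeasurable _ _

theorem pvol_H_sub (ε : ℝ) (A : Set PVSample) : pvfGlue ⁻¹' A ⊆ pvolH ε A := subset_toMeasurable _ _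

theorem pvol_H_law (ε : ℝ) (A : Set PVSample) : ((pvfBaseLaw ε).prod (colLaw PvfIx)) (pvolH ε A) = pvLaw ε A := by
  rw [pvol_law]; exact measure_toMeasurable _

theorem pvol_Q_meas (ε : ℝ) (A : Set PVSample) : Measurable (pvolQ ε A) :=
  (measurable_measure_prodMk_left (pvol_H_meas ε A)).ennreal_toReal

theorem pvol_Q_nonneg (ε : ℝ) (A : Set PVSample) (b : PvfBase) : 0 ≤ pvolQ ε A b := ENNReal.toReal_nonneg

theorem pvol_Q_le_one (ε : ℝ) (A : Set PVSample) (b : PvfBase) : pvolQ ε A b ≤ 1 := by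
  unfold pvolQ
  have := prob_le_one (μ := colLaw PvfIx) (s := {c | (b, c) ∈ pvolH ε A})
  exact ENNReal.toReal_le_of_le_ofReal zero_le_one (by simpa using this)

theorem pvol_Q_ofReal (ε : ℝ) (A : Set PVSample) (b : PvfBase) : ENNReal.ofReal (pvolQ ε A b) = colLaw PvfIx {c | (b, c) ∈ pvolH ε A} :=
  ENNReal.ofReal_toReal (measure_ne_top _ _)

theorem pvol_Q_lintegral (ε : ℝ) (A : Set PVSample) : ∫⁻ b, ENNReal.ofReal (pvolQ ε A b) ∂pvfBaseLaw ε = pvLaw ε A := by
  simp only [pvol_Q_ofReal]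
  rw [← pvol_H_law, Measure.prod_apply (pvol_H_meas ε A)]
  rfl

theorem pvol_Q_integrable (ε : ℝ) (A : Set PVSample) : Integrable (pvolQ ε A) (pvfBaseLaw ε) :=
  (integrable_const (1 : ℝ)).mono' (pvol_Q_meas ε A).aestronglyMeasurable (Filter.Eventually.of_forall fun b => by
    rw [Real.norm_of_nonneg (pvol_Q_nonneg ε A b)]; exact pvol_Q_le_one ε A b)

/-- **the mean of the majorant is the outer probability of the event** -/
theorem pvol_Q_integral (ε : ℝ) (A : Set PVSample) : ∫ b, pvolQ ε A b ∂pvfBaseLaw ε = (pvLaw ε A).toReal := by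
  rw [integral_eq_lintegral_of_nonneg_ae (Filter.Eventually.of_forall (pvol_Q_nonneg ε A)) (pvol_Q_meas ε A).aestronglyMeasurable, pvol_Q_lintegral]

/-- the quenched OUTER probability of `A` is below the majorant, at EVERY `b` -/
theorem pvol_sec_le (ε : ℝ) (A : Set PVSample) (b : PvfBase) : (colLaw PvfIx {c | pvfGlue (b, c) ∈ A}).toReal ≤ pvolQ ε A b :=
  ENNReal.toReal_mono (measure_ne_top _ _) (measure_mono fun _ hc => pvol_H_sub ε A hc)

/-- **(J3), the form consumed by the instance**: `E` = a set of colourings of the finite sphere chosen at the geometry `b`, `W` = its vertices which are sites, `ι` their indices;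
if every colouring of the index set which copies a colouring of `E` puts the frozen sample in `A`, then `#E / 2^#V ≤ pvolQ ε A b` -/
theorem pvol_count_le (ε : ℝ) (A : Set PVSample) (b : PvfBase) {V W : Type} [Fintype V] [Fintype W] (j : W → V) (hj : Function.Injective j)
    (ι : W → PvfIx) (hι : Function.Injective ι) (E : Set (V → Bool))
    (h : ∀ s ∈ E, ∀ c : PvfIx → Bool, (∀ w, c (ι w) = s (j w)) → pvfGlue (b, c) ∈ A) :
    (E.ncard : ℝ) / 2 ^ Fintype.card V ≤ pvolQ ε A b := by
  rw [← pvol_fin_real]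
  refine le_trans ?_ (pvol_sec_le ε A b)
  exact ENNReal.toReal_mono (measure_ne_top _ _) (pvol_le j hj ι hι E _ h)

/-- a geometric event (it does not read the colours): the majorant is `≥` its indicator -/
theorem pvol_one_le (ε : ℝ) (A : Set PVSample) (b : PvfBase) (h : ∀ c : PvfIx → Bool, pvfGlue (b, c) ∈ A) : pvolQ ε A b = 1 := by
  refine le_antisymm (pvol_Q_le_one ε A b) ?_
  refine le_trans ?_ (pvol_sec_le ε A b)
  have : {c : PvfIx → Bool | pvfGlue (b, c) ∈ A} = univ := eq_univ_of_forall h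
  rw [this, measure_univ]
  simp

/-- convergence: outer probabilities `→ 0` give means of the majorants `→ 0` -/
theorem pvol_Q_tendsto {εs : ℕ → ℝ} {A : ℕ → Set PVSample} (h : Filter.Tendsto (fun k => pvLaw (εs k) (A k)) Filter.atTop (nhds 0)) :
    Filter.Tendsto (fun k => ∫ b, pvolQ (εs k) (A k) b ∂pvfBaseLaw (εs k)) Filter.atTop (nhds 0) := by
  simp only [pvol_Q_integral]
  have := (ENNReal.tendsto_toReal ENNReal.zero_ne_top).comp h
  simpa [Function.comp_def] using this

theorem pvol_Q_tendsto_lintegral {εs : ℕ → ℝ} {A : ℕ → Set PVSample} (h : Filter.Tendsto (fun k => pvLaw (εs k) (A k)) Filter.atTop (nhds 0)) :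
    Filter.Tendsto (fun k => ∫⁻ b, ENNReal.ofReal (pvolQ (εs k) (A k) b) ∂pvfBaseLaw (εs k)) Filter.atTop (nhds 0) := by
  simpa only [pvol_Q_lintegral] using h

/-! ## 5. the modulus of the field `arm` -/

/-- **the modulus**: `A k` = arm event, `B k` = bad geometry;   `q = min 2 (4 pvolQ A + 2 pvolQ B)` -/
theorem pvol_q (εs : ℕ → ℝ) (A B : ℕ → Set PVSample) {η : ℝ}
    (hA : ∀ᶠ k in Filter.atTop, (pvLaw (εs k) (A k)).toReal ≤ η / 8) (hB : ∀ᶠ k in Filter.atTop, (pvLaw (εs k) (B k)).toReal ≤ η / 4) :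
    ∃ q : ℕ → PvfBase → ℝ, (∀ k, Measurable (q k)) ∧ (∀ k o, 0 ≤ q k o ∧ q k o ≤ 2) ∧
      (∀ᶠ k in Filter.atTop, ∫ o, q k o ∂pvfBaseLaw (εs k) ≤ η) ∧
      ∀ k o, q k o = min 2 (4 * pvolQ (εs k) (A k) o + 2 * pvolQ (εs k) (B k) o) := by
  refine ⟨fun k o => min 2 (4 * pvolQ (εs k) (A k) o + 2 * pvolQ (εs k) (B k) o), fun k => ?_, fun k o => ⟨?_, min_le_left _ _⟩, ?_, fun _ _ => rfl⟩
  · exact measurable_const.min (((pvol_Q_meas _ _).const_mul 4).add ((pvol_Q_meas _ _).const_mul 2))
  · exact le_min zero_le_two (by have := pvol_Q_nonneg (εs k) (A k) o; have := pvol_Q_nonneg (εs k) (B k) o; positivity)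
  · filter_upwards [hA, hB] with k h1 h2
    have hi : Integrable (fun o => 4 * pvolQ (εs k) (A k) o + 2 * pvolQ (εs k) (B k) o) (pvfBaseLaw (εs k)) :=
      ((pvol_Q_integrable _ _).const_mul 4).add ((pvol_Q_integrable _ _).const_mul 2)
    have hm : Measurable (fun o => min 2 (4 * pvolQ (εs k) (A k) o + 2 * pvolQ (εs k) (B k) o)) :=
      measurable_const.min (((pvol_Q_meas _ _).const_mul 4).add ((pvol_Q_meas _ _).const_mul 2))
    have hi' : Integrable (fun o => min 2 (4 * pvolQ (εs k) (A k) o + 2 * pvolQ (εs k) (B k) o)) (pvfBaseLaw (εs k)) := by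
      refine (integrable_const (2 : ℝ)).mono' hm.aestronglyMeasurable (Filter.Eventually.of_forall fun o => ?_)
      rw [Real.norm_of_nonneg (le_min zero_le_two (by
        have := pvol_Q_nonneg (εs k) (A k) o; have := pvol_Q_nonneg (εs k) (B k) o; positivity))]
      exact min_le_left _ _
    calc ∫ o, min 2 (4 * pvolQ (εs k) (A k) o + 2 * pvolQ (εs k) (B k) o) ∂pvfBaseLaw (εs k)
        ≤ ∫ o, (4 * pvolQ (εs k) (A k) o + 2 * pvolQ (εs k) (B k) o) ∂pvfBaseLaw (εs k) := integral_mono hi' hi fun o => min_le_right _ _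
      _ = 4 * (pvLaw (εs k) (A k)).toReal + 2 * (pvLaw (εs k) (B k)).toReal := by
          rw [integral_add ((pvol_Q_integrable _ _).const_mul 4) ((pvol_Q_integrable _ _).const_mul 2), integral_const_mul, integral_const_mul,
            pvol_Q_integral, pvol_Q_integral]
      _ ≤ η := by linarith

/-- how the modulus is used: a difference of two quenched observables which is `≤ 2` always, `≤ 4 #E / 2^#V` off the bad geometry -/
theorem pvol_q_use {ε : ℝ} {A B : Set PVSample} {b : PvfBase} {x y : ℝ} (hx2 : x ≤ 2) (hy : y ≤ pvolQ ε A b)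
    (h : (∀ c : PvfIx → Bool, pvfGlue (b, c) ∈ B) ∨ x ≤ 4 * y) : x ≤ min 2 (4 * pvolQ ε A b + 2 * pvolQ ε B b) := by
  refine le_min hx2 ?_
  rcases h with h | h
  · rw [pvol_one_le ε B b h]
    have := pvol_Q_nonneg ε A b
    linarith
  · have := pvol_Q_nonneg ε B b
    linarith

/-! ## 6. the dictionary between the two quench seams -/

theorem pvol_dict_geo (ε : ℝ) : pvGeo ε = pvfBaseLaw ε := rfl

theorem pvol_dict_col : pvCol = colLaw PvfIx := rfl

theorem pvol_dict_merge : pvMerge = pvfGlue := rfl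

theorem pvol_dict_geoOf : pvGeoOf = pvfBase := rfl

theorem pvol_dict_colOf : pvColOf = pvfCol := rfl

theorem pvol_dict_site : pvgSite = pvfPos := rfl

theorem pvol_dict_act : pvgAct = pvfAct := rfl

theorem pvol_dict_sites : pvgSites = pvfSites := rfl

/-- the quenched probability of helper261 is below the majorant -/
theorem pvol_dict_Q_le (ε : ℝ) (A : Set PVSample) (g : PvGeoT) : pvQ A g ≤ ENNReal.ofReal (pvolQ ε A g) := by
  rw [pvol_Q_ofReal]
  exact measure_mono fun _ hc => pvol_H_sub ε A hc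

theorem pvol_dict_Qr_le (ε : ℝ) (A : Set PVSample) (g : PvGeoT) : pvQr A g ≤ pvolQ ε A g := pvol_sec_le ε A g

/-- for a measurable event the majorant is a.e. the quenched probability -/
theorem pvol_dict_Q_ae (ε : ℝ) {A : Set PVSample} (hA : MeasurableSet A) : (fun g => ENNReal.ofReal (pvolQ ε A g)) =ᵐ[pvfBaseLaw ε] pvQ A := by
  have h1 : ∀ g, pvQ A g ≤ ENNReal.ofReal (pvolQ ε A g) := pvol_dict_Q_le ε A
  have h2 : ∫⁻ g, ENNReal.ofReal (pvolQ ε A g) ∂pvfBaseLaw ε = ∫⁻ g, pvQ A g ∂pvfBaseLaw ε := by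
    rw [pvol_Q_lintegral]; exact (pvqu_Q_lintegral ε hA).symm
  have hfin : ∫⁻ g, pvQ A g ∂pvfBaseLaw ε ≠ ∞ := by
    rw [← h2, pvol_Q_lintegral]; exact measure_ne_top _ _
  exact (ae_eq_of_ae_le_of_lintegral_le (Filter.Eventually.of_forall h1) hfin (pvol_Q_meas ε A).ennreal_ofReal.aemeasurable h2.le).symm

/-! ## 7. the seams at the level of the means (`pvoMean`, `pvomR` of Obs/Mean): BAD GEOMETRY, LINK, SIDE LINES -/

section means

variable {Ω : Type} [MeasurableSpace Ω]

/-- the measurable majorant of the indicator of an ARBITRARY set of geometries -/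
noncomputable def pvolB (μ : Measure Ω) (Bad : Set Ω) (o : Ω) : ℝ := (toMeasurable μ Bad).indicator (fun _ => (1 : ℝ)) o

theorem pvol_eqns_cite2 : True := by
  have := @pvolB.eq_1
  trivial

theorem pvol_B_meas (μ : Measure Ω) (Bad : Set Ω) : Measurable (pvolB μ Bad) :=
  measurable_const.indicator (measurableSet_toMeasurable _ _)

theorem pvol_B_nonneg (μ : Measure Ω) (Bad : Set Ω) (o : Ω) : 0 ≤ pvolB μ Bad o :=
  indicator_nonneg (fun _ _ => zero_le_one) o

theorem pvol_B_le_one (μ : Measure Ω) (Bad : Set Ω) (o : Ω) : pvolB μ Bad o ≤ 1 :=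
  indicator_le_self' (fun _ _ => zero_le_one) o

theorem pvol_B_one (μ : Measure Ω) {Bad : Set Ω} {o : Ω} (h : o ∈ Bad) : pvolB μ Bad o = 1 :=
  indicator_of_mem (subset_toMeasurable μ Bad h) _

theorem pvol_B_lintegral (μ : Measure Ω) (Bad : Set Ω) : ∫⁻ o, ENNReal.ofReal (pvolB μ Bad o) ∂μ = μ Bad := by
  have : (fun o => ENNReal.ofReal (pvolB μ Bad o)) = (toMeasurable μ Bad).indicator (fun _ => (1 : ℝ≥0∞)) := by
    funext o
    by_cases h : o ∈ toMeasurable μ Bad
    · simp [pvolB, h]
    · simp [pvolB, h]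
  rw [this, lintegral_indicator (measurableSet_toMeasurable _ _)]
  simp

theorem pvol_B_integrable (μ : Measure Ω) [IsFiniteMeasure μ] (Bad : Set Ω) : Integrable (pvolB μ Bad) μ :=
  (integrable_const (1 : ℝ)).indicator (measurableSet_toMeasurable _ _)

theorem pvol_B_integral (μ : Measure Ω) [IsFiniteMeasure μ] (Bad : Set Ω) : ∫ o, pvolB μ Bad o ∂μ = (μ Bad).toReal := by
  rw [integral_eq_lintegral_of_nonneg_ae (Filter.Eventually.of_forall (pvol_B_nonneg μ Bad)) (pvol_B_meas μ Bad).aestronglyMeasurable, pvol_B_lintegral]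

/-- **(BAD)** two families which agree off bad sets of outer probability `→ 0` and are bounded have the same limit of means -/
theorem pvol_bad {μ : ℕ → Measure Ω} [∀ k, IsProbabilityMeasure (μ k)] {f g : ℕ → Ω → ℂ} {Bad : ℕ → Set Ω} (C : ℝ)
    (hf : ∀ k o, ‖f k o‖ ≤ C) (hg : ∀ k o, ‖g k o‖ ≤ C) (h : ∀ k o, o ∉ Bad k → f k o = g k o)
    (hB : Filter.Tendsto (fun k => μ k (Bad k)) Filter.atTop (nhds 0)) :
    Filter.Tendsto (fun k => pvoMean (μ k) (f k) - pvoMean (μ k) (g k)) Filter.atTop (nhds 0) := by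
  have hC : 0 ≤ C := (norm_nonneg _).trans (hf 0 (Classical.choice (by
    exact (μ 0).nonempty_of_neZero)))
  have h1 : ∀ k, pvoMean (μ k) (f k) - pvoMean (μ k) (g k) = pvoMean (μ k) (fun o => f k o - g k o) := fun k =>
    (pvom_sub (PvoDom.of_bound C (hf k)) (PvoDom.of_bound C (hg k))).symm
  simp only [h1]
  refine pvom_tendsto_zero (g := fun k o => 2 * C * pvolB (μ k) (Bad k) o) (fun k => (pvol_B_meas _ _).const_mul _) (fun k o => ?_) ?_
  · by_cases ho : o ∈ Bad k
    · rw [pvol_B_one _ ho]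
      calc ‖f k o - g k o‖ ≤ ‖f k o‖ + ‖g k o‖ := norm_sub_le _ _
        _ ≤ 2 * C * 1 := by linarith [hf k o, hg k o]
    · rw [h k o ho, sub_self, norm_zero]
      exact mul_nonneg (by positivity) (pvol_B_nonneg _ _ _)
  · have h2 : ∀ k, ∫⁻ o, ENNReal.ofReal (2 * C * pvolB (μ k) (Bad k) o) ∂μ k = ENNReal.ofReal (2 * C) * μ k (Bad k) := fun k => by
      simp only [ENNReal.ofReal_mul (by positivity : (0 : ℝ) ≤ 2 * C)]
      rw [lintegral_const_mul _ (pvol_B_meas _ _).ennreal_ofReal, pvol_B_lintegral]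
    simp only [h2]
    have := ENNReal.Tendsto.const_mul (a := ENNReal.ofReal (2 * C)) hB (Or.inr ENNReal.ofReal_ne_top)
    simpa using this

/-- **(SIDE)** quenched side line `R = w + t v` (`t` real, bounded) off a bad set of geometries ⟹ the annealed value is on the same line up to `o(1)`, with coefficient `pvomR t` -/
theorem pvol_side {μ : ℕ → Measure Ω} [∀ k, IsProbabilityMeasure (μ k)] {R : ℕ → Ω → ℂ} {t : ℕ → Ω → ℝ} {Bad : ℕ → Set Ω} (w v : ℂ) (C : ℝ)
    (hR : ∀ k o, ‖R k o‖ ≤ 1) (ht : ∀ k o, |t k o| ≤ C) (h : ∀ k o, o ∉ Bad k → R k o = w + t k o * v)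
    (hB : Filter.Tendsto (fun k => μ k (Bad k)) Filter.atTop (nhds 0)) :
    Filter.Tendsto (fun k => pvoMean (μ k) (R k) - (w + (pvomR (μ k) (t k) : ℝ) * v)) Filter.atTop (nhds 0) := by
  have hC : 0 ≤ C := (abs_nonneg _).trans (ht 0 (Classical.choice (by
    exact (μ 0).nonempty_of_neZero)))
  have hb : ∀ k o, ‖w + (t k o : ℂ) * v‖ ≤ 1 + ‖w‖ + C * ‖v‖ := fun k o => by
    calc ‖w + (t k o : ℂ) * v‖ ≤ ‖w‖ + ‖(t k o : ℂ) * v‖ := norm_add_le _ _
      _ = ‖w‖ + |t k o| * ‖v‖ := by rw [norm_mul, Complex.norm_real, Real.norm_eq_abs]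
      _ ≤ 1 + ‖w‖ + C * ‖v‖ := by nlinarith [ht k o, norm_nonneg v]
  have hb1 : ∀ k o, ‖R k o‖ ≤ 1 + ‖w‖ + C * ‖v‖ := fun k o => (hR k o).trans (by nlinarith [norm_nonneg w, norm_nonneg v])
  have key := pvol_bad (μ := μ) (1 + ‖w‖ + C * ‖v‖) hb1 hb h hB
  have h2 : ∀ k, pvoMean (μ k) (fun o => w + (t k o : ℂ) * v) = w + (pvomR (μ k) (t k) : ℝ) * v := fun k => by
    have hd : PvoDom (μ k) (fun o => (t k o : ℂ)) := PvoDom.of_bound C fun o => by rw [Complex.norm_real, Real.norm_eq_abs]; exact ht k o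
    have hd2 : PvoDom (μ k) (fun o => v * (t k o : ℂ)) := hd.const_mul v
    have e : (fun o => w + (t k o : ℂ) * v) = fun o => (fun _ => w) o + (fun o => v * (t k o : ℂ)) o := by funext o; ring
    rw [e, pvom_add (PvoDom.of_bound ‖w‖ fun _ => le_rfl) hd2, pvom_const, pvom_const_mul v hd, pvom_ofReal]
    ring
  simpa only [h2] using key

end means

/-- **(LINK)** `f b` = a quenched probability at the geometry `b` (a count in the selected disc; `f` is NOT asked to be measurable), dominated off the bad geometries by the majorant of the frozen event `A`: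
its mean is `≤ pvLaw ε A + outer P(bad)` -/
theorem pvol_link (ε : ℝ) (A : Set PVSample) (Bad : Set PvfBase) (f : PvfBase → ℝ) (h0 : ∀ b, 0 ≤ f b) (h1 : ∀ b, f b ≤ 1)
    (h : ∀ b, b ∉ Bad → f b ≤ pvolQ ε A b) :
    pvomR (pvfBaseLaw ε) f ≤ (pvLaw ε A).toReal + (pvfBaseLaw ε Bad).toReal := by
  have hd : PvomDomR (pvfBaseLaw ε) f := ⟨fun _ => 1, integrable_const _, fun o => by rw [abs_of_nonneg (h0 o)]; exact h1 o⟩
  have hi : Integrable (fun b => pvolQ ε A b + pvolB (pvfBaseLaw ε) Bad b) (pvfBaseLaw ε) := (pvol_Q_integrable ε A).add (pvol_B_integrable _ _)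
  refine (pvom_R_le hd hi fun b => ?_).trans_eq ?_
  · by_cases hb : b ∈ Bad
    · rw [pvol_B_one _ hb]
      linarith [h1 b, pvol_Q_nonneg ε A b]
    · linarith [h b hb, pvol_B_nonneg (pvfBaseLaw ε) Bad b]
  · rw [integral_add (pvol_Q_integrable ε A) (pvol_B_integrable _ _), pvol_Q_integral, pvol_B_integral]

/-- a GEOMETRIC event of the frozen model: outer `pvLaw` = outer law of the geometry (EVERY set of geometries) -/
theorem pvol_geo_law (ε : ℝ) (Bad : Set PvfBase) : pvLaw ε (pvfBase ⁻¹' Bad) = pvfBaseLaw ε Bad := by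
  rw [pvol_law]
  have : pvfGlue ⁻¹' (pvfBase ⁻¹' Bad) = Bad ×ˢ (univ : Set (PvfIx → Bool)) := by
    ext ⟨b, c⟩
    simp [pvf_base_glue]
  rw [this, Measure.prod_prod, measure_univ, mul_one]

/-- (LINK) with the bad geometries given as an event of the frozen model which contains ALL colourings of the bad geometries -/
theorem pvol_link' (ε : ℝ) (A B : Set PVSample) (f : PvfBase → ℝ) (h0 : ∀ b, 0 ≤ f b) (h1 : ∀ b, f b ≤ 1)
    (h : ∀ b, (∀ c : PvfIx → Bool, pvfGlue (b, c) ∈ B) ∨ f b ≤ pvolQ ε A b) :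
    pvomR (pvfBaseLaw ε) f ≤ (pvLaw ε A).toReal + (pvLaw ε B).toReal := by
  have hd : PvomDomR (pvfBaseLaw ε) f := ⟨fun _ => 1, integrable_const _, fun o => by rw [abs_of_nonneg (h0 o)]; exact h1 o⟩
  have hi : Integrable (fun b => pvolQ ε A b + pvolQ ε B b) (pvfBaseLaw ε) := (pvol_Q_integrable ε A).add (pvol_Q_integrable ε B)
  refine (pvom_R_le hd hi fun b => ?_).trans_eq ?_
  · rcases h b with hb | hb
    · rw [pvol_one_le ε B b hb]
      linarith [h1 b, pvol_Q_nonneg ε A b]
    · linarith [pvol_Q_nonneg ε B b]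
  · rw [integral_add (pvol_Q_integrable ε A) (pvol_Q_integrable ε B), pvol_Q_integral, pvol_Q_integral]

end Claimed.Agent.R289
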