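-- KEEP
import Claimed.Agent.R289.Defs.Nice
import Claimed.Agent.R289.Del.Meas
import Claimed.Agent.R289.S1.Meas

/-!
# Row 289 (S0537, Cardy for Poisson-Voronoi), unit OBS, file Obs/Link : THE EXIT EVENT, AND THE MEANS OF THE QUENCHED BOUNDARY VALUES      (sec. 1: helper61, prefix `pvoe_`;  sec. 2-4: helper174, prefix `pvok_`)

## 1. (J1) THE EXIT EVENT OF `PvNice`      (text of helper61, first landed as Obs/Ev.lean)
The ONLY measurable set of the unit OBS (ruling 4 of 174).      `pvoeEv W A B` = INDEX FORM of "there is a chain of black sites lying in `W`, consecutive ones Delaunay neighbours, from a site in `A` to a site in `B`".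
* `pvoe_meas`      `pvoeEv W A B` is measurable (`W A B` Borel): countable unions (`pvf_meas_rtg` of 268, `delm_pv_adj` of 120).
* `pvoe_iff`       SITE FORM: `ω ∈ pvoeEv W A B ↔ ∃ u ∈ A, ∃ v ∈ B`, `u` black in `W`, chain of black sites in `W` with `DelAdj` steps.      (what the instance produces from a black vertex crossing of the discrete disc)
* `pvoe_of_list`   the same from a LIST of sites;   `pvoe_of_tri` one step from a common Delaunay triangle (`DelTri`, any two of its vertices).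
* `pvoe_sub`       `pvoeEv W A B ⊆ {ω | PvVC (pvConf ω) W A B}` (the event of `PvNice`, `Defs/Top.lean`).
* `pvoe_mono`      monotone in `W A B`.
* `pvoe_nice`      the reduction of `PvNice` to a lower bound for the law of `pvoeEv`.

## 2. bad sets: `pvokB μ B` = indicator of the measurable hull;  its integral is the OUTER measure of `B`
## 3. (S3) SIDE LINES IN THE MEAN      `pvok_side`:  `R = p + t v` off a bad set, `t` real  ⟹  `pvoMean μ R` is within `(1 + ‖p‖ + ‖v‖) μ*(B)` of the real line `p + ℝ v`, at the parameter `pvomR μ t`;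
      `pvok_side_tendsto` (the shape of the four fields of `PvoBd`),  **`pvok_bd`**: `PvoBd` from the quenched side values of Prop. 8.2 (E1 of helper91 / helper119) and `P(bad) → 0`.
## 4. (S2) LINK      **`pvok_link`**:  `t ≤` quenched probability of a measurable event `A` off a bad set  ⟹  `pvomR (pvGeo ε) t ≤ pvLaw ε A + pvGeo ε (bad)`;   `pvok_exit` = the last four clauses of `PvonQuad` (`Defs/Nice.lean`).
-/

set_option autoImplicit false

namespace Claimed.Agent.R289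

open MeasureTheory ProbabilityTheory Set Filter Topology Relation Claims.C0465

/-! ## 1. the exit event (helper61) -/

/-- the index `i` is active, black, and its site lies in `W` -/
def PvoeBk (W : Set ℂ) (ω : PVSample) (i : DelgpIx) : Prop := i.2 < ω.1 i.1 ∧ (ω.2 i).2 = true ∧ delgpW ω i ∈ W

/-- **the exit event**, index form -/
def pvoeEv (W A B : Set ℂ) : Set PVSample :=
  {ω | ∃ i j : DelgpIx, delgpW ω i ∈ A ∧ delgpW ω j ∈ B ∧ PvoeBk W ω i ∧
    ReflTransGen (fun a b => PvoeBk W ω b ∧ DelAdj (cfSites (pvConf ω)) (delgpW ω a) (delgpW ω b)) i j}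

theorem pvoe_eqns_cite : True := by
  have := @PvoeBk.eq_1; have := @pvoeEv.eq_1
  trivial

theorem pvoe_meas_site {W : Set ℂ} (hW : MeasurableSet W) (i : DelgpIx) : MeasurableSet {ω : PVSample | delgpW ω i ∈ W} :=
  delgp_measurable_W i hW

theorem pvoe_meas_col (i : DelgpIx) : MeasurableSet {ω : PVSample | (ω.2 i).2 = true} := by
  have h : Measurable fun ω : PVSample => (ω.2 i).2 := measurable_snd.comp ((measurable_pi_apply i).comp measurable_snd)
  exact h (measurableSet_singleton true)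

theorem pvoe_meas_bk {W : Set ℂ} (hW : MeasurableSet W) (i : DelgpIx) : MeasurableSet {ω : PVSample | PvoeBk W ω i} :=
  (delm_pv_act i).inter ((pvoe_meas_col i).inter (pvoe_meas_site hW i))

/-- **the exit event is measurable** -/
theorem pvoe_meas {W A B : Set ℂ} (hW : MeasurableSet W) (hA : MeasurableSet A) (hB : MeasurableSet B) : MeasurableSet (pvoeEv W A B) := by
  have e : pvoeEv W A B = ⋃ (i : DelgpIx) (j : DelgpIx), {ω : PVSample | delgpW ω i ∈ A} ∩ ({ω | delgpW ω j ∈ B} ∩ ({ω | PvoeBk W ω i} ∩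
      {ω | ReflTransGen (fun a b => PvoeBk W ω b ∧ DelAdj (cfSites (pvConf ω)) (delgpW ω a) (delgpW ω b)) i j})) := by
    ext ω
    simp only [pvoeEv, mem_ofPred_eq, mem_iUnion, mem_inter_iff]
  rw [e]
  refine MeasurableSet.iUnion fun i => MeasurableSet.iUnion fun j => (pvoe_meas_site hA i).inter ((pvoe_meas_site hB j).inter ((pvoe_meas_bk hW i).inter ?_))
  exact pvf_meas_rtg (fun ω a b => PvoeBk W ω b ∧ DelAdj (cfSites (pvConf ω)) (delgpW ω a) (delgpW ω b))
    (fun a b => (pvoe_meas_bk hW b).inter (delm_pv_adj a b)) i j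

/-- a black index gives a black site -/
theorem PvoeBk.bk {W : Set ℂ} {ω : PVSample} {i : DelgpIx} (h : PvoeBk W ω i) : PvBk (pvConf ω) W (delgpW ω i) :=
  ⟨⟨i.1, i.2, h.1, by rw [pvPt, ← h.2.1]; rfl⟩, h.2.2⟩

/-- a black site has a black index -/
theorem pvoe_bk_ix {W : Set ℂ} {ω : PVSample} {v : ℂ} (h : PvBk (pvConf ω) W v) : ∃ i : DelgpIx, PvoeBk W ω i ∧ delgpW ω i = v := by
  obtain ⟨⟨k, j, hj, e⟩, hv⟩ := h
  have e1 : v = pvSite ω k j := congrArg Prod.fst e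
  have e2 : true = (ω.2 (k, j)).2 := congrArg Prod.snd e
  exact ⟨(k, j), ⟨hj, e2.symm, by rw [delgpW, ← e1]; exact hv⟩, e1.symm⟩

/-- **site form of the exit event** -/
theorem pvoe_iff {W A B : Set ℂ} {ω : PVSample} : ω ∈ pvoeEv W A B ↔ ∃ u v : ℂ, u ∈ A ∧ v ∈ B ∧ PvBk (pvConf ω) W u ∧
    ReflTransGen (fun a b => PvBk (pvConf ω) W b ∧ DelAdj (cfSites (pvConf ω)) a b) u v := by
  constructor
  · rintro ⟨i, j, hA, hB, hi, hr⟩
    refine ⟨_, _, hA, hB, hi.bk, ?_⟩
    clear hB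
    induction hr with
    | refl => exact ReflTransGen.refl
    | tail _ hbc ih => exact ih.tail ⟨hbc.1.bk, hbc.2⟩
  · rintro ⟨u, v, hA, hB, hu, hr⟩
    obtain ⟨i, hi, rfl⟩ := pvoe_bk_ix hu
    suffices H : ∃ j : DelgpIx, delgpW ω j = v ∧
        ReflTransGen (fun a b => PvoeBk W ω b ∧ DelAdj (cfSites (pvConf ω)) (delgpW ω a) (delgpW ω b)) i j by
      obtain ⟨j, rfl, hj⟩ := H
      exact ⟨i, j, hA, hB, hi, hj⟩
    clear hB
    induction hr with
    | refl => exact ⟨i, rfl, ReflTransGen.refl⟩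
    | tail _ hbc ih =>
      obtain ⟨j, rfl, hj⟩ := ih
      obtain ⟨l, hl, rfl⟩ := pvoe_bk_ix hbc.1
      exact ⟨l, rfl, hj.tail ⟨hl, hbc.2⟩⟩

/-- two vertices of a Delaunay triangle are Delaunay neighbours -/
theorem pvoe_of_tri {Y : Set ℂ} {a b c : ℂ} (h : DelTri Y a b c) : DelAdj Y a b ∧ DelAdj Y b c ∧ DelAdj Y c a ∧ DelAdj Y b a ∧ DelAdj Y c b ∧ DelAdj Y a c := by
  obtain ⟨ha, hb, hc, hd, z, ⟨hza, hzb⟩, hzc⟩ := h
  have hab : a ≠ b := fun e => by subst e; simp [vorDet] at hd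
  have hbc : b ≠ c := fun e => by subst e; simp [vorDet] at hd; linarith
  have hca : c ≠ a := fun e => by subst e; simp [vorDet] at hd
  exact ⟨⟨ha, hb, hab, z, hza, hzb⟩, ⟨hb, hc, hbc, z, hzb, hzc⟩, ⟨hc, ha, hca, z, hzc, hza⟩, ⟨hb, ha, hab.symm, z, hzb, hza⟩,
    ⟨hc, hb, hbc.symm, z, hzc, hzb⟩, ⟨ha, hc, hca.symm, z, hza, hzc⟩⟩

/-- the exit event from a LIST of black sites -/
theorem pvoe_of_list {W A B : Set ℂ} {ω : PVSample} (u : ℂ) (l : List ℂ) (hu : u ∈ A) (hv : (u :: l).getLast (List.cons_ne_nil _ _) ∈ B)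
    (hbk : ∀ w ∈ u :: l, PvBk (pvConf ω) W w) (hch : List.IsChain (DelAdj (cfSites (pvConf ω))) (u :: l)) : ω ∈ pvoeEv W A B := by
  rw [pvoe_iff]
  refine ⟨u, _, hu, hv, hbk u (List.mem_cons_self), ?_⟩
  clear hu hv
  induction l generalizing u with
  | nil => exact ReflTransGen.refl
  | cons w l ih =>
    rw [List.isChain_cons_cons] at hch
    have h1 := ih w (fun x hx => hbk x (List.mem_cons_of_mem _ hx)) hch.2
    rw [List.getLast_cons (List.cons_ne_nil _ _)]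
    exact ReflTransGen.head ⟨hbk w (List.mem_cons_of_mem _ List.mem_cons_self), hch.1⟩ h1

/-- **the exit event is inside the event of `PvNice`** -/
theorem pvoe_sub (W A B : Set ℂ) : pvoeEv W A B ⊆ {ω | PvVC (pvConf ω) W A B} := by
  intro ω hω
  obtain ⟨u, v, hA, hB, hu, hr⟩ := pvoe_iff.1 hω
  refine ⟨u, v, hA, hB, hu, ReflTransGen.mono (fun a b hab => ⟨hab.1, ?_⟩) u v hr⟩
  rw [cfCell_eq_vor, cfCell_eq_vor]
  exact hab.2.2.2.2

theorem pvoe_mono {W W' A A' B B' : Set ℂ} (hW : W ⊆ W') (hA : A ⊆ A') (hB : B ⊆ B') : pvoeEv W A B ⊆ pvoeEv W' A' B' := by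
  intro ω hω
  obtain ⟨u, v, h1, h2, hu, hr⟩ := pvoe_iff.1 hω
  exact pvoe_iff.2 ⟨u, v, hA h1, hB h2, ⟨hu.1, hW hu.2⟩, ReflTransGen.mono (fun a b hab => ⟨⟨hab.1.1, hW hab.1.2⟩, hab.2⟩) u v hr⟩

/-- **reduction of `PvNice`**: a lower bound for the law of the exit event of every analytic quad -/
theorem pvoe_nice
    (H : ∀ (D : Set ℂ) (d : ℂ) (ψ : ℂ → ℂ), PvAn D d ψ → ∀ x : ℝ, 0 < x → x < 1 → ∀ ρ η : ℝ, 0 < ρ → 0 < η → ∀ᶠ ε in 𝓝[>] (0 : ℝ),
      ENNReal.ofReal (cardyF x - η) ≤ pvLaw ε (pvoeEv (Metric.thickening ρ D) (Metric.thickening ρ (pvArcL D d ψ x)) (Metric.thickening ρ (pvArcR D d ψ)))) :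
    PvNice := by
  intro D d ψ h x hx0 hx1 ρ η hρ hη
  filter_upwards [H D d ψ h x hx0 hx1 ρ η hρ hη] with ε hε
  exact ⟨_, pvoe_meas Metric.isOpen_thickening.measurableSet Metric.isOpen_thickening.measurableSet Metric.isOpen_thickening.measurableSet,
    pvoe_sub _ _ _, hε⟩

/-! ## 2. bad sets -/

section mean

variable {Ω : Type} [MeasurableSpace Ω]

/-- indicator of the measurable hull of a bad set -/
noncomputable def pvokB (μ : Measure Ω) (B : Set Ω) : Ω → ℝ := (toMeasurable μ B).indicator fun _ => 1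

theorem pvok_eqns_cite : True := by
  have := @pvokB.eq_1
  trivial

theorem pvok_B_meas (μ : Measure Ω) (B : Set Ω) : Measurable (pvokB μ B) :=
  measurable_const.indicator (measurableSet_toMeasurable μ B)

theorem pvok_B_nonneg (μ : Measure Ω) (B : Set Ω) (o : Ω) : 0 ≤ pvokB μ B o :=
  indicator_nonneg (fun _ _ => zero_le_one) o

theorem pvok_B_le_one (μ : Measure Ω) (B : Set Ω) (o : Ω) : pvokB μ B o ≤ 1 :=
  indicator_le_self' (fun _ _ => zero_le_one) o

theorem pvok_B_of_mem {μ : Measure Ω} {B : Set Ω} {o : Ω} (h : o ∈ B) : pvokB μ B o = 1 :=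
  indicator_of_mem (subset_toMeasurable μ B h) _

theorem pvok_B_integrable (μ : Measure Ω) [IsFiniteMeasure μ] (B : Set Ω) : Integrable (pvokB μ B) μ :=
  (integrable_const (1 : ℝ)).indicator (measurableSet_toMeasurable μ B)

/-- the integral is the OUTER measure of the bad set -/
theorem pvok_B_integral (μ : Measure Ω) [IsFiniteMeasure μ] (B : Set Ω) : ∫ o, pvokB μ B o ∂μ = (μ B).toReal := by
  unfold pvokB
  rw [integral_indicator (measurableSet_toMeasurable μ B), setIntegral_const, smul_eq_mul, mul_one, measureReal_def, measure_toMeasurable]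

/-- a function which vanishes off a bad set and is bounded by `C` has a mean `≤ C μ*(B)` -/
theorem pvok_small {μ : Measure Ω} [IsFiniteMeasure μ] {f : Ω → ℂ} {B : Set Ω} {C : ℝ} (hC : ∀ o, ‖f o‖ ≤ C) (h0 : ∀ o, o ∉ B → f o = 0) :
    ‖pvoMean μ f‖ ≤ C * (μ B).toReal := by
  rw [← pvok_B_integral μ B, ← integral_const_mul]
  refine pvom_norm_le ((pvok_B_integrable μ B).const_mul C) fun o => ?_
  by_cases ho : o ∈ B
  · rw [pvok_B_of_mem ho, mul_one]
    exact hC o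
  · rw [h0 o ho, norm_zero]
    exact mul_nonneg ((norm_nonneg _).trans (hC o)) (pvok_B_nonneg μ B o)

/-! ## 3. (S3) side lines in the mean -/

theorem pvok_domR_of_bound {μ : Measure Ω} [IsFiniteMeasure μ] {t : Ω → ℝ} (C : ℝ) (h : ∀ o, |t o| ≤ C) : PvomDomR μ t :=
  ⟨fun _ => C, integrable_const C, h⟩

/-- **(S3)** `R = p + t v` off the bad set `B`: the mean of `R` is close to the point of parameter `pvomR μ t` of the real line `p + ℝ v` -/
theorem pvok_side {μ : Measure Ω} [IsProbabilityMeasure μ] {R : Ω → ℂ} {t : Ω → ℝ} {p v : ℂ} {B : Set Ω} (hR : ∀ o, ‖R o‖ ≤ 1) (ht : ∀ o, |t o| ≤ 1)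
    (h : ∀ o, o ∉ B → R o = p + t o * v) : ‖pvoMean μ R - (p + pvomR μ t * v)‖ ≤ (1 + ‖p‖ + ‖v‖) * (μ B).toReal := by
  have dR : PvoDom μ R := PvoDom.of_bound 1 hR
  have dt : PvoDom μ (fun o => ((t o : ℝ) : ℂ)) := PvoDom.of_bound 1 fun o => by
    rw [Complex.norm_real, Real.norm_eq_abs]; exact ht o
  have dp : PvoDom μ (fun _ => p) := PvoDom.of_bound ‖p‖ fun _ => le_rfl
  have dtv : PvoDom μ (fun o => v * ((t o : ℝ) : ℂ)) := dt.const_mul v
  have e1 : pvoMean μ (fun o => p + v * ((t o : ℝ) : ℂ)) = p + pvomR μ t * v := by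
    rw [pvom_add dp dtv, pvom_const, pvom_const_mul v dt, pvom_ofReal, mul_comm]
  rw [← e1, ← pvom_sub dR (dp.add dtv)]
  refine pvok_small (fun o => ?_) fun o ho => ?_
  · refine (norm_sub_le _ _).trans ?_
    have h1 : ‖p + v * ((t o : ℝ) : ℂ)‖ ≤ ‖p‖ + ‖v‖ := by
      refine (norm_add_le _ _).trans (add_le_add le_rfl ?_)
      rw [norm_mul, Complex.norm_real, Real.norm_eq_abs]
      exact mul_le_of_le_one_right (norm_nonneg v) (ht o)
    linarith [hR o]
  · rw [h o ho]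
    ring

/-- the shape of the fields of `PvoBd` -/
theorem pvok_side_tendsto {μ : ℕ → Measure Ω} (hμ : ∀ k, IsProbabilityMeasure (μ k)) {R : ℕ → Ω → ℂ} {t : ℕ → Ω → ℝ} {p v : ℂ} {B : ℕ → Set Ω}
    (hR : ∀ k o, ‖R k o‖ ≤ 1) (ht : ∀ k o, |t k o| ≤ 1) (h : ∀ k o, o ∉ B k → R k o = p + t k o * v) (hB : Tendsto (fun k => μ k (B k)) atTop (𝓝 0)) :
    Tendsto (fun k => pvoMean (μ k) (R k) - (p + (pvomR (μ k) (t k) : ℝ) * v)) atTop (𝓝 0) := by
  rw [tendsto_zero_iff_norm_tendsto_zero]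
  have h1 : Tendsto (fun k => (1 + ‖p‖ + ‖v‖) * (μ k (B k)).toReal) atTop (𝓝 ((1 + ‖p‖ + ‖v‖) * 0)) :=
    ((ENNReal.tendsto_toReal ENNReal.zero_ne_top).comp hB).const_mul _
  rw [mul_zero] at h1
  refine squeeze_zero (fun k => norm_nonneg _) (fun k => ?_) h1
  have := hμ k
  exact pvok_side (hR k) (ht k) (h k)

/-- **`PvoBd` from the quenched side values.**   For every boundary point `z` off the marks: a bad set `B z k` of vanishing outer probability off which the representative `R k z` lies on the side of its arc, at a real parameter in `[-1, 1]`.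
At `b` the parameter is `tb k`;  `pc k := pvomR (P k) (tb k)`. -/
theorem pvok_bd {S : PvoSys Ω} (hP : ∀ k, IsProbabilityMeasure (S.P k)) (hR : ∀ k p o, ‖S.R k p o‖ ≤ 1) {D : Set ℂ} {d : ℂ} {ψ : ℂ → ℂ} {w0 w1 b : ℂ}
    (h01 : ∀ z ∈ frontier D, z ≠ d → 0 < (ψ z).re → (ψ z).re < 1 → ∃ (t : ℕ → Ω → ℝ) (B : ℕ → Set Ω), (∀ k o, |t k o| ≤ 1) ∧
      (∀ k o, o ∉ B k → S.R k z o = w0 + t k o * (w1 - w0)) ∧ Tendsto (fun k => S.P k (B k)) atTop (𝓝 0))
    (h1 : ∀ z ∈ frontier D, z ≠ d → 1 < (ψ z).re → ∃ (t : ℕ → Ω → ℝ) (B : ℕ → Set Ω), (∀ k o, |t k o| ≤ 1) ∧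
      (∀ k o, o ∉ B k → S.R k z o = w1 + t k o * ((w1 - w0) * Complex.exp (2 * Real.pi * Complex.I / 3))) ∧ Tendsto (fun k => S.P k (B k)) atTop (𝓝 0))
    (h0 : ∀ z ∈ frontier D, z ≠ d → (ψ z).re < 0 → ∃ (t : ℕ → Ω → ℝ) (B : ℕ → Set Ω), (∀ k o, |t k o| ≤ 1) ∧
      (∀ k o, o ∉ B k → S.R k z o = w0 + t k o * ((w1 - w0) * Complex.exp (Real.pi * Complex.I / 3))) ∧ Tendsto (fun k => S.P k (B k)) atTop (𝓝 0))
    {tb : ℕ → Ω → ℝ} {Bb : ℕ → Set Ω} (htb : ∀ k o, |tb k o| ≤ 1) (hb : ∀ k o, o ∉ Bb k → S.R k b o = w0 + tb k o * (w1 - w0))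
    (hBb : Tendsto (fun k => S.P k (Bb k)) atTop (𝓝 0)) :
    PvoBd S D d ψ w0 w1 b fun k => pvomR (S.P k) (tb k) := by
  refine ⟨fun z hz hzd a1 a2 => ?_, fun z hz hzd a1 => ?_, fun z hz hzd a1 => ?_, ?_⟩
  · obtain ⟨t, B, g1, g2, g3⟩ := h01 z hz hzd a1 a2
    exact ⟨fun k => pvomR (S.P k) (t k), pvok_side_tendsto hP (fun k o => hR k z o) g1 g2 g3⟩
  · obtain ⟨t, B, g1, g2, g3⟩ := h1 z hz hzd a1
    exact ⟨fun k => pvomR (S.P k) (t k), pvok_side_tendsto hP (fun k o => hR k z o) g1 g2 g3⟩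
  · obtain ⟨t, B, g1, g2, g3⟩ := h0 z hz hzd a1
    exact ⟨fun k => pvomR (S.P k) (t k), pvok_side_tendsto hP (fun k o => hR k z o) g1 g2 g3⟩
  · exact pvok_side_tendsto hP (fun k o => hR k b o) htb hb hBb

end mean

/-! ## 4. (S2) LINK -/

/-- **(S2)** the mean of a quenched coefficient which, off a bad set of geometries, is at most the quenched probability of a measurable event -/
theorem pvok_link (ε : ℝ) {t : PvGeoT → ℝ} {A : Set PVSample} (hA : MeasurableSet A) {B : Set PvGeoT} (ht : ∀ g, |t g| ≤ 1)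
    (h : ∀ g, g ∉ B → t g ≤ pvQr A g) : pvomR (pvGeo ε) t ≤ (pvLaw ε A).toReal + (pvGeo ε B).toReal := by
  rw [← pvqu_Qr_integral ε hA, ← pvok_B_integral (pvGeo ε) B, ← integral_add (pvqu_Qr_integrable ε hA) (pvok_B_integrable _ B)]
  refine pvom_R_le (pvok_domR_of_bound 1 ht) ((pvqu_Qr_integrable ε hA).add (pvok_B_integrable _ B)) fun g => ?_
  by_cases hg : g ∈ B
  · show t g ≤ pvQr A g + pvokB (pvGeo ε) B g
    rw [pvok_B_of_mem hg]
    linarith [(abs_le.1 (ht g)).2, pvqu_Qr_nonneg A g]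
  · show t g ≤ pvQr A g + pvokB (pvGeo ε) B g
    linarith [h g hg, pvok_B_nonneg (pvGeo ε) B g]

/-- **the last four clauses of `PvonQuad`** with `E k := pvoeEv ..`, `pc k := pvomR (pvGeo (εs k)) (tb k)`, `r k :=` outer probability of the bad geometries -/
theorem pvok_exit {D : Set ℂ} {d : ℂ} {ψ : ℂ → ℂ} {x ρ : ℝ} {εs : ℕ → ℝ} {tb : ℕ → PvGeoT → ℝ} {B : ℕ → Set PvGeoT} (htb : ∀ k g, |tb k g| ≤ 1)
    (h : ∀ k g, g ∉ B k →
      tb k g ≤ pvQr (pvoeEv (Metric.thickening ρ D) (Metric.thickening ρ (pvArcL D d ψ x)) (Metric.thickening ρ (pvArcR D d ψ))) g)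
    (hB : Tendsto (fun k => pvGeo (εs k) (B k)) atTop (𝓝 0)) :
    ∃ (r : ℕ → ℝ) (E : ℕ → Set PVSample), (∀ k, MeasurableSet (E k)) ∧
      (∀ k, E k ⊆ {o | PvVC (pvConf o) (Metric.thickening ρ D) (Metric.thickening ρ (pvArcL D d ψ x)) (Metric.thickening ρ (pvArcR D d ψ))}) ∧
      Tendsto r atTop (𝓝 0) ∧ ∀ k, pvomR (pvGeo (εs k)) (tb k) ≤ (pvLaw (εs k) (E k)).toReal + r k := by
  have hm : MeasurableSet (pvoeEv (Metric.thickening ρ D) (Metric.thickening ρ (pvArcL D d ψ x)) (Metric.thickening ρ (pvArcR D d ψ))) :=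
    pvoe_meas Metric.isOpen_thickening.measurableSet Metric.isOpen_thickening.measurableSet Metric.isOpen_thickening.measurableSet
  refine ⟨fun k => (pvGeo (εs k) (B k)).toReal, fun _ => _, fun _ => hm, fun _ => pvoe_sub _ _ _,
    (ENNReal.tendsto_toReal ENNReal.zero_ne_top).comp hB, fun k => pvok_link (εs k) hm (htb k) (h k)⟩

end Claimed.Agent.R289
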