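-- KEEP
import Claimed.Agent.R289.Obs.Sys
import Claimed.Agent.R289.Obs.Link
import Claimed.Agent.R289.Obs.Col
import Claimed.Agent.R289.Fan.Cross

/-!
# Row 289 (S0537, Cardy for Poisson-Voronoi), unit OBS, file Obs/Ev : THE J-EV HALF OF `pvoj_bd`      (helper156, post LINK of helper243; prefix `pvev_`)

TEX 08-observable.tex, Prop 8.2 last assertion + the end of Sec. 8.3.      Typed against the concrete system of helper111 (`Obs/Sys.lean`: `PvoFam`, `𝔇.Pc`, `𝔇.probe`, `𝔇.Good`, `PvoGuard`).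
`pc k := pvomR (pvGeo (εs k)) fun g => 𝔇.Pc (pvgSites g) (𝔇.probe D ψ (pvgSites g) b)` = mean of the quenched coefficient of `w1 = ω` at the canonical probe of the mark `b`.

* sec. 1  `pvev_probe_spec`   the canonical probe is an admissible probe nearest to `p` as soon as there is ONE admissible probe (finite `D`);   `pvev_probe_bd` (boundary points: source = site within `t` of `p`, head = the apex of the arc of `p`);
* sec. 2  `pvev_obsP_le_one`, `pvev_Pc_nonneg`, `pvev_Pc_le_one`, `pvev_Pc_abs`   `0 ≤ 𝔇.Pc Y e ≤ 1` at EVERY `Y`, `e` (no `IsSph`: `pv82_tag_card`);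
* sec. 3  `pvev_site`         a vertex off the closing face is named by a site;
* sec. 4  `pvev_ev_of_xb`     the crossing event `XB q e (dcol q σ true)` of `pv82_cross_le` (helper173) at a dart `e : s₀ → a`, `‖a - b‖ < s`, gives the SITE FORM of the exit event `pvoeEv` (helper61) at tolerance `t`      [`Good.sec .arc .inD .adj`];
* sec. 5  `pvev_count`        `#E / 2^#V ≤ pvQr A g` for a set `E` of colourings of the sphere selected at `g`      [`pvol_le` of helper258; indices `pvgIdx g`];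
* sec. 6  **`pvev_quench`**   `𝔇.Pc Y (probe b) ≤ pvQr (pvoeEv …) g`, `Y = pvgSites g`, from `Good s t` and `Good s' s`;
* sec. 7  **`pvev_exit`**     the last four clauses of `PvonQuad` / of `pvoj_bd` for `pc` as above      [`pvok_exit` of helper174].
-/

set_option autoImplicit false

namespace Claimed.Agent.R289

open MeasureTheory ProbabilityTheory Set Filter Topology Relation Claims.C0465
open scoped ENNReal

/-! ## 1. the canonical probe -/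

/-- the canonical probe is an admissible probe nearest to `p` -/
theorem pvev_probe_spec (𝔇 : PvoFam) (D : Set ℂ) (ψ : ℂ → ℂ) (Y : Set ℂ) (p : ℂ) (h : ∃ e, 𝔇.Cand D ψ Y p e) :
    𝔇.Cand D ψ Y p (𝔇.probe D ψ Y p) ∧
      ∀ e', 𝔇.Cand D ψ Y p e' → ‖𝔇.bulk.pos Y ((𝔇 Y).T.src (𝔇.probe D ψ Y p)) - p‖ ≤ ‖𝔇.bulk.pos Y ((𝔇 Y).T.src e') - p‖ := by
  classical
  have := (𝔇 Y).fD
  have hex : ∃ e, 𝔇.Cand D ψ Y p e ∧ ∀ e', 𝔇.Cand D ψ Y p e' → ‖𝔇.bulk.pos Y ((𝔇 Y).T.src e) - p‖ ≤ ‖𝔇.bulk.pos Y ((𝔇 Y).T.src e') - p‖ := by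
    obtain ⟨e0, he0⟩ := h
    obtain ⟨e, he, hmin⟩ := Finset.exists_min_image (Finset.univ.filter fun e => 𝔇.Cand D ψ Y p e) (fun e => ‖𝔇.bulk.pos Y ((𝔇 Y).T.src e) - p‖)
      ⟨e0, by simp [he0]⟩
    exact ⟨e, (Finset.mem_filter.1 he).2, fun e' he' => hmin e' (by simp [he'])⟩
  unfold PvoFam.probe
  rw [dif_pos hex]
  exact hex.choose_spec

/-! ## 2. the coefficient lies in `[0, 1]` -/

theorem pvev_obsP_le_one {V D : Type} [Fintype V] (T : PvMap V D) (d e : D) : T.obsP d e ≤ 1 := by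
  classical
  have h1 : T.obsN d e ≤ (Finset.univ.filter fun s : V → Bool => T.Tag s d).card := by
    unfold PvMap.obsN
    refine Finset.card_le_card fun s hs => ?_
    simp only [Finset.mem_filter, Finset.mem_univ, true_and] at hs ⊢
    exact hs.1
  have h2 := pv82_tag_card (T := T) d
  have h3 : 4 * T.obsN d e ≤ 2 ^ Fintype.card V := by
    rw [← h2]
    refine Nat.mul_le_mul_left 4 (h1.trans (le_of_eq ?_))
    congr
  unfold PvMap.obsP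
  rw [div_le_one (by positivity)]
  exact_mod_cast h3

theorem pvev_Pc_nonneg (𝔇 : PvoFam) (Y : Set ℂ) (e : (𝔇 Y).D) : 0 ≤ 𝔇.Pc Y e := by
  let _ := (𝔇 Y).fV
  exact pv82_P_nonneg _ _

theorem pvev_Pc_le_one (𝔇 : PvoFam) (Y : Set ℂ) (e : (𝔇 Y).D) : 𝔇.Pc Y e ≤ 1 := by
  let _ := (𝔇 Y).fV
  exact pvev_obsP_le_one _ _ _

theorem pvev_Pc_abs (𝔇 : PvoFam) (Y : Set ℂ) (e : (𝔇 Y).D) : |𝔇.Pc Y e| ≤ 1 := by
  rw [abs_of_nonneg (pvev_Pc_nonneg 𝔇 Y e)]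
  exact pvev_Pc_le_one 𝔇 Y e


/-! ## 3. names -/

/-- a vertex off the closing face is named by a site -/
theorem pvev_site {𝔇 : PvoFam} {D : Set ℂ} {d : ℂ} {ψ : ℂ → ℂ} {x : ℝ} {Y : Set ℂ} {s t : ℝ} (hG : 𝔇.Good D d ψ x Y s t) {v : (𝔇 Y).V}
    (h0 : v ≠ (𝔇 Y).T.src (𝔇 Y).q) (h2 : v ≠ (𝔇 Y).T.tgt (𝔇 Y).q) (h1 : v ≠ (𝔇 Y).T.apex (𝔇 Y).q) : ∃ p : ℂ, (𝔇 Y).lab v = Sum.inl p := by
  rcases hl : (𝔇 Y).lab v with p | j
  · exact ⟨p, rfl⟩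
  · exfalso
    have hinj : Function.Injective (𝔇 Y).lab := hG.ok.inj
    match j, hl with
    | 0, hl => exact h0 (hinj (hl.trans hG.cl0.symm))
    | 1, hl => exact h1 (hinj (hl.trans hG.cl1.symm))
    | 2, hl => exact h2 (hinj (hl.trans hG.cl2.symm))

theorem pvev_arc_one (D : Set ℂ) (d : ℂ) (ψ : ℂ → ℂ) : pvoArc D d ψ 1 ⊆ pvArcR D d ψ := by
  rintro z (⟨hz, -⟩ | ⟨hz, hzd, h⟩)
  · exact Or.inl hz
  · rcases h with ⟨h, -⟩ | ⟨-, h⟩ | ⟨h, -⟩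
    · exact absurd h (by decide)
    · exact Or.inr ⟨hz, hzd, h⟩
    · exact absurd h (by decide)

/-! ## 4. the crossing event of the sphere gives the exit event -/

/-- **`XB` ⟹ site form of the exit event** -/
theorem pvev_ev_of_xb {𝔇 : PvoFam} {D : Set ℂ} {d : ℂ} {ψ : ℂ → ℂ} {x : ℝ} {Y : Set ℂ} {s t : ℝ} (hG : 𝔇.Good D d ψ x Y s t)
    {b : ℂ} (hb : b ∈ frontier D) (hbd : b ≠ d) (hψb : ψ b = x) {e : (𝔇 Y).D} {a : ℂ} (he0 : (𝔇 Y).lab ((𝔇 Y).T.src e) = Sum.inr 0)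
    (hea : (𝔇 Y).lab ((𝔇 Y).T.tgt e) = Sum.inl a) (hab : ‖a - b‖ < s) {σ : (𝔇 Y).V → Bool}
    (hx : (𝔇 Y).T.XB (𝔇 Y).q e ((𝔇 Y).T.dcol (𝔇 Y).q σ true)) {η : Conf PvPt}
    (hcol : ∀ v p, (𝔇 Y).lab v = Sum.inl p → σ v = true → (p, true) ∈ η.pts) :
    ∃ u v : ℂ, u ∈ Metric.thickening t (pvArcL D d ψ x) ∧ v ∈ Metric.thickening t (pvArcR D d ψ) ∧ PvBk η (Metric.thickening t D) u ∧
      ReflTransGen (fun a b => PvBk η (Metric.thickening t D) b ∧ DelAdj Y a b) u v := by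
  obtain ⟨e', he', y, hy, hj0, hj⟩ := hx
  obtain ⟨a', ha'⟩ := pvev_site hG hj0.1 hj0.2.1 hj0.2.2.1
  have key : ∀ z, ReflTransGen (fun u v => (𝔇 Y).T.EdgeIn Set.univ u v ∧ v ∈ (𝔇 Y).T.dcol (𝔇 Y).q σ true) ((𝔇 Y).T.tgt e') z →
      ∃ pz : ℂ, (𝔇 Y).lab z = Sum.inl pz ∧ ReflTransGen (fun a b => PvBk η (Metric.thickening t D) b ∧ DelAdj Y a b) a' pz := by
    intro z hz
    induction hz with
    | refl => exact ⟨a', ha', ReflTransGen.refl⟩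
    | tail _ hstep ih =>
      obtain ⟨pz, hpz, hr⟩ := ih
      obtain ⟨⟨d0, -, hs0, ht0⟩, hX⟩ := hstep
      obtain ⟨pw, hpw⟩ := pvev_site hG hX.1 hX.2.1 hX.2.2.1
      refine ⟨pw, hpw, hr.tail ⟨⟨hcol _ pw hpw hX.2.2.2, hG.inD _ pw hpw⟩, ?_⟩⟩
      exact (hG.adj d0 pz pw (by rw [hs0]; exact hpz) (by rw [ht0]; exact hpw)).1
  obtain ⟨py, hpy, hr⟩ := key y hj
  obtain ⟨d1, hs1, ht1⟩ := hy
  refine ⟨a', py, hG.sec b hb hbd hψb e a he0 hea hab e' he' a' ha', ?_, ⟨hcol _ a' ha' hj0.2.2.2, hG.inD _ a' ha'⟩, hr⟩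
  exact Metric.thickening_subset_of_subset t (pvev_arc_one D d ψ) (hG.arc d1 py 1 (by rw [hs1]; exact hpy) (by rw [ht1]; exact hG.cl1))

/-! ## 5. from the count of colourings to the quenched probability -/

/-- **count ≤ quenched probability** -/
theorem pvev_count {𝔇 : PvoFam} {g : PvGeoT} {K : Set ℂ} (hok : 𝔇.bulk.Ok (pvgSites g) K) (E : Set ((𝔇 (pvgSites g)).V → Bool)) (A : Set PVSample)
    (h : ∀ σ ∈ E, ∀ c : PvColT, (∀ v p, (𝔇 (pvgSites g)).lab v = Sum.inl p → σ v = true → (p, true) ∈ (pvConf (pvMerge (g, c))).pts) →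
      pvMerge (g, c) ∈ A) :
    (E.ncard : ℝ) / 2 ^ @Fintype.card (𝔇 (pvgSites g)).V (𝔇 (pvgSites g)).fV ≤ pvQr A g := by
  classical
  let _ := (𝔇 (pvgSites g)).fV
  let W : Type := {v : (𝔇 (pvgSites g)).V // ∃ p : ℂ, (𝔇 (pvgSites g)).lab v = Sum.inl p}
  let ι : W → PvfIx := fun w => pvgIdx g w.2.choose
  have hι : Function.Injective ι := by
    intro w w' hww
    have h1 : w.2.choose ∈ pvgSites g := hok.site _ _ w.2.choose_spec
    have h2 : w'.2.choose ∈ pvgSites g := hok.site _ _ w'.2.choose_spec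
    have h3 : w.2.choose = w'.2.choose := pvqu_idx_injOn g h1 h2 hww
    apply Subtype.ext
    apply hok.inj
    exact w.2.choose_spec.trans ((congrArg Sum.inl h3).trans w'.2.choose_spec.symm)
  rw [← pvol_fin_real]
  refine ENNReal.toReal_mono (measure_ne_top _ _) ?_
  refine pvol_le (W := W) Subtype.val Subtype.val_injective ι hι E {c | pvMerge (g, c) ∈ A} fun σ hσ c hc => h σ hσ c fun v p hv hσv => ?_
  have hw : ∃ p : ℂ, (𝔇 (pvgSites g)).lab v = Sum.inl p := ⟨p, hv⟩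
  have hp : hw.choose = p := Sum.inl.inj (hw.choose_spec.symm.trans hv)
  have hpY : p ∈ pvgSites g := hok.site _ _ hv
  have h4 : c (pvgIdx g p) = true := by
    have := hc ⟨v, hw⟩
    simp only [ι] at this
    rw [hp] at this
    rw [this, hσv]
  exact pvqu_mem_conf.2 ⟨pvgIdx g p, (pvqu_idx_spec hpY).1, by rw [(pvqu_idx_spec hpY).2, h4]⟩


/-! ## 1'. the canonical probe of a boundary point -/

theorem pvev_pos_eq {𝔇 : PvoFam} {Y : Set ℂ} {v : (𝔇 Y).V} {p : ℂ} (h : (𝔇 Y).lab v = Sum.inl p) : 𝔇.bulk.pos Y v = p := by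
  have h' : 𝔇.bulk.lab Y v = Sum.inl p := h
  unfold PvBulk.pos
  rw [h']
  rfl

/-- the canonical probe of a point `p` of the closed arc `j = pvoArcIx ψ p`: a dart from a site within `t` of `p` to the apex `s_j` -/
theorem pvev_probe_bd {𝔇 : PvoFam} {D : Set ℂ} {d : ℂ} {ψ : ℂ → ℂ} {x : ℝ} {Y : Set ℂ} {s t : ℝ} (hG : 𝔇.Good D d ψ x Y s t) {p : ℂ} (hpD : p ∉ D)
    (hp : p ∈ pvoArc D d ψ (pvoArcIx ψ p)) :
    ∃ a : ℂ, (𝔇 Y).lab ((𝔇 Y).T.src (𝔇.probe D ψ Y p)) = Sum.inl a ∧ (𝔇 Y).lab ((𝔇 Y).T.tgt (𝔇.probe D ψ Y p)) = Sum.inr (pvoArcIx ψ p) ∧ ‖a - p‖ < t := by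
  obtain ⟨e0, a0, h1, h2, h3⟩ := hG.densB _ p hp
  have hc0 : 𝔇.Cand D ψ Y p e0 := ⟨⟨a0, h1⟩, fun h => absurd h hpD, fun _ => h2⟩
  obtain ⟨⟨⟨a, ha⟩, -, hc⟩, hmin⟩ := pvev_probe_spec 𝔇 D ψ Y p ⟨e0, hc0⟩
  refine ⟨a, ha, hc hpD, ?_⟩
  have := hmin e0 hc0
  rw [pvev_pos_eq ha, pvev_pos_eq h1] at this
  exact this.trans_lt h3

/-! ## 6. the quenched step -/

/-- **(Q)** the quenched coefficient of `w1` at the canonical probe of `b` is at most the quenched probability of the exit event -/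
theorem pvev_quench {𝔇 : PvoFam} {D : Set ℂ} {d : ℂ} {ψ : ℂ → ℂ} {x : ℝ} {g : PvGeoT} {s s' t : ℝ} (hD : IsOpen D) (hx0 : 0 < x) (hx1 : x < 1)
    {b : ℂ} (hb : b ∈ frontier D) (hbd : b ≠ d) (hψb : ψ b = x)
    (hG : 𝔇.Good D d ψ x (pvgSites g) s t) (hG' : 𝔇.Good D d ψ x (pvgSites g) s' s) :
    𝔇.Pc (pvgSites g) (𝔇.probe D ψ (pvgSites g) b)
      ≤ pvQr (pvoeEv (Metric.thickening t D) (Metric.thickening t (pvArcL D d ψ x)) (Metric.thickening t (pvArcR D d ψ))) g := by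
  classical
  have hbD : b ∉ D := by
    rw [hD.frontier_eq] at hb
    exact hb.2
  have hre : (ψ b).re = x := by rw [hψb]; simp
  have hix : pvoArcIx ψ b = 0 := by
    unfold pvoArcIx
    rw [hre, if_neg (not_lt.2 hx0.le), if_pos hx1.le]
  have hbarc : b ∈ pvoArc D d ψ (pvoArcIx ψ b) := by
    rw [hix]
    exact Or.inr ⟨hb, hbd, Or.inl ⟨rfl, by rw [hre]; exact hx0.le, by rw [hre]; exact hx1.le⟩⟩
  obtain ⟨a, ha, hh, hab⟩ := pvev_probe_bd hG' hbD hbarc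
  rw [hix] at hh
  set Y := pvgSites g with hY
  set e := 𝔇.probe D ψ Y b with he
  let _ := (𝔇 Y).fV
  have : Finite (𝔇 Y).D := @Finite.of_fintype _ (𝔇 Y).fD
  have hinj : Function.Injective (𝔇 Y).lab := hG.ok.inj
  have hsph : (𝔇 Y).T.IsSph := hG.ok.sph
  have hsim : (𝔇 Y).T.Simple := hG.ok.simple
  -- the reversed probe `s₀ → a`
  have h1 : (𝔇 Y).T.src ((𝔇 Y).T.opp e) = (𝔇 Y).T.src (𝔇 Y).q := by
    rw [(𝔇 Y).T.src_opp']
    exact hinj (hh.trans hG.cl0.symm)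
  have h3 : (𝔇 Y).T.opp e ≠ (𝔇 Y).T.rot (𝔇 Y).q := by
    intro h
    have h4 := congrArg (fun z => (𝔇 Y).lab ((𝔇 Y).T.tgt z)) h
    simp only [(𝔇 Y).T.tgt_opp, (𝔇 Y).T.tgt_rot] at h4
    rw [ha, hG.cl1] at h4
    cases h4
  have hcr := pv82_cross_le hsph hsim h1 h3
  rw [pv82_N_opp] at hcr
  have hcnt := pvev_count hG.ok {σ | (𝔇 Y).T.XB (𝔇 Y).q ((𝔇 Y).T.opp e) ((𝔇 Y).T.dcol (𝔇 Y).q σ true)}
    (pvoeEv (Metric.thickening t D) (Metric.thickening t (pvArcL D d ψ x)) (Metric.thickening t (pvArcR D d ψ))) (fun σ hσ c hc => by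
      rw [pvoe_iff, pvqu_cfSites]
      exact pvev_ev_of_xb hG hb hbd hψb (by rw [(𝔇 Y).T.src_opp']; exact hh) (by rw [(𝔇 Y).T.tgt_opp]; exact ha) hab hσ hc)
  refine le_trans ?_ hcnt
  have hcard : ({σ | (𝔇 Y).T.XB (𝔇 Y).q ((𝔇 Y).T.opp e) ((𝔇 Y).T.dcol (𝔇 Y).q σ true)} : Set ((𝔇 Y).V → Bool)).ncard
      = (Finset.univ.filter fun σ : (𝔇 Y).V → Bool => (𝔇 Y).T.XB (𝔇 Y).q ((𝔇 Y).T.opp e) ((𝔇 Y).T.dcol (𝔇 Y).q σ true)).card := by
    rw [← Set.ncard_coe_finset]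
    congr 1
    ext σ
    simp
  rw [hcard]
  show (𝔇 Y).T.obsP ((𝔇 Y).T.nxt ((𝔇 Y).T.nxt (𝔇 Y).q)) e ≤ _
  unfold PvMap.obsP
  refine div_le_div_of_nonneg_right ?_ (by positivity)
  have : (4 * (𝔇 Y).T.obsN ((𝔇 Y).T.nxt ((𝔇 Y).T.nxt (𝔇 Y).q)) e : ℕ)
      ≤ (Finset.univ.filter fun σ : (𝔇 Y).V → Bool => (𝔇 Y).T.XB (𝔇 Y).q ((𝔇 Y).T.opp e) ((𝔇 Y).T.dcol (𝔇 Y).q σ true)).card := by
    convert hcr
  exact_mod_cast this

/-! ## 7. the exit -/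

/-- **(E)** the J-EV half of `pvoj_bd` -/
theorem pvev_exit {D : Set ℂ} {d : ℂ} {ψ : ℂ → ℂ} (h : PvChart D d ψ) {x : ℝ} (hx0 : 0 < x) (hx1 : x < 1) {b : ℂ} (hb : b ∈ frontier D) (hbd : b ≠ d) (hψb : ψ b = x)
    {𝔇 : PvoFam} {εs : ℕ → ℝ} {𝒯 : ℕ → Set PvGeoT} (hG : PvoGuard 𝔇 D d ψ x εs 𝒯) {ρ : ℝ} (hρ : 0 < ρ) :
    ∃ (r : ℕ → ℝ) (E : ℕ → Set PVSample), (∀ k, MeasurableSet (E k)) ∧
      (∀ k, E k ⊆ {o | PvVC (pvConf o) (Metric.thickening ρ D) (Metric.thickening ρ (pvArcL D d ψ x)) (Metric.thickening ρ (pvArcR D d ψ))}) ∧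
      Tendsto r atTop (𝓝 0) ∧
      ∀ k, pvomR (pvGeo (εs k)) (fun g => 𝔇.Pc (pvgSites g) (𝔇.probe D ψ (pvgSites g) b)) ≤ (pvLaw (εs k) (E k)).toReal + r k := by
  classical
  obtain ⟨s, hs, hk⟩ := hG.good ρ hρ
  obtain ⟨s', hs', hk'⟩ := hG.good s hs
  refine pvok_exit (tb := fun _ g => 𝔇.Pc (pvgSites g) (𝔇.probe D ψ (pvgSites g) b))
    (B := fun k => {g | ¬ (𝔇.Good D d ψ x (pvgSites g) s ρ ∧ 𝔇.Good D d ψ x (pvgSites g) s' s)}) (fun _ g => pvev_Pc_abs _ _ _) (fun k g hg => ?_) ?_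
  · have hg' : 𝔇.Good D d ψ x (pvgSites g) s ρ ∧ 𝔇.Good D d ψ x (pvgSites g) s' s := not_not.1 hg
    exact pvev_quench h.isOpen hx0 hx1 hb hbd hψb hg'.1 hg'.2
  · refine tendsto_of_tendsto_of_tendsto_of_le_of_le' tendsto_const_nhds hG.prob (Eventually.of_forall fun _ => zero_le) ?_
    filter_upwards [hk, hk'] with k h1 h2
    refine measure_mono fun g hg hgT => hg ⟨h1 g hgT, h2 g hgT⟩

end Claimed.Agent.R289
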