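-- KEEP
import Claimed.Agent.R289.Rsw.Exports
import Claimed.Agent.R289.S1.Meas
import Claimed.Agent.R289.Obs.ArmD
import Claimed.Agent.R289.Obs.Abs
import Claimed.Agent.R289.Fan.Sphere
import Claimed.Agent.R289.Fan.ObsArm

/-!
# Row 289 (S0537, Cardy for Poisson-Voronoi), unit OBS, file Obs/ArmPr : THE PROBABILITY HALF OF THE `arm` FIELD OF `PvoArm`      (helper66; prefix `pvap_`, defs `pvap*`, `Pvap*`)

TEX: 08-observable.tex, (8.2) + Lemma 8.3.     The discrete half (status change of the probe => monochromatic path of disc sites from near `p` to distance `ρ`) is `Obs/ArmD` (helper184) and `Fan/ObsArm` (helper119).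
Here, on the seam of helper268 (`PvfBase`, `pvfBaseLaw`, `colLaw PvfIx`, `pvfGlue`):

* `pvapIn p t`, `pvapOut p r`   the closed square of radius `t`, the complement of the open square of radius `r`, centre `p`;
* `pvapEv p t r : Set PVSample` the arm event, EITHER colour, in the vocabulary `PvVC` of `Defs/Top`;
* `pvap_law`     `pvLaw ε (pvapEv p t r) ≤ 2 C (t / r)^a`   (outer measure; `pvre_arm1_vc` + colour flip);
* `pvap_q`       the quenched majorant: `q : PvfBase → ℝ` MEASURABLE, `0 ≤ q ≤ 1`, `∫ q ≤ 2 C (t / r)^a`, `colLaw PvfIx {s | pvfGlue (b, s) ∈ pvapEv p t r} ≤ q b` for ALL `b`;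
* `pvap_bad`     the same for a bad event of the geometry (indicator of the measurable hull);
* **`pvap_field`**  the shape of the field `arm`: for `p`, `ρ`, `η` there is `t > 0` such that for every sequence of bad events of vanishing outer probability there is `q k` measurable, `0 ≤ q ≤ 2`, eventually `∫ q ≤ η`, `q = 2` on the bad events, `min 2 (4 colLaw (arm)) ≤ q` everywhere;
* `pvap_of_chain`  DICTIONARY: a chain of vertices of one colour of ANY graph whose vertices are named by active indices and whose edges join sites with touching Voronoi cells, from the small square to the outside of the large one, puts `pvfGlue (b, s)` in `pvapEv`;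
* `pvap_ball_in`, `pvap_ball_out`    balls instead of squares;   `pvap_count`, `pvap_count'`  finite count of colourings `≤` quenched section;
* **`pvap_ev_of_disc`**  the discrete arm event `PvoaEv` of helper184 (`Obs/ArmD`) on a finite map whose non-exterior vertices are named by active indices is contained in `pvapEv`;
* **`pvap_arm_inst`**  the field `arm` of `PvoArm` for ANY system on `PvfBase` with `P k = pvfBaseLaw (εs k)`, from the DETERMINISTIC local statement `PvapLoc`: off a bad event of vanishing outer probability all probes within `s` of `p` differ from the representative by at most `4 pvapSec (pvapEv p t ρ)`.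

## (8.2) ON THE COMPLETED SPHERE OF A DISC OF SITES (sec. 9; prefix `pvai_`)
`b : PvfBase` (counts + positions), `F : PvFan ↥(pvfSites b) D` (helper92: a disc of a triangulation whose vertices are SITES, three marks), `F.map` the completed sphere.
* `pvaiNm F : F.V' → PvfIx`    names of the vertices: the index of the site; three INACTIVE indices for `s_0 s_1 s_2`;   `pvai_nm_inj`, `pvai_nm_act`, `pvai_nm_pos`;
* `pvai_ev`     `PvoaEv F.map Ex s_j X (s ∘ pvaiNm F) ⟹ pvfGlue (b, s) ∈ pvapEv p t r`   if the disc neighbours of `X` lie in the square of radius `t` and the inclusive arcs `l ≠ j` outside the square of radius `r`;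
* **`pvai_arm`**  `‖obsF e - obsF e'‖ ≤ 4 pvapSec (pvapEv p t r) b`   for two darts issued from the two ends of a primal path inside `X` (bulk edges AND fan probes issued from their attachment).
-/

set_option autoImplicit false

namespace Claimed.Agent.R289

open MeasureTheory ProbabilityTheory Set Filter Topology Metric
open scoped ENNReal NNReal
open Claims.C0465

/-! ## 0. vocabulary -/

/-- the closed square of radius `t` -/
def pvapIn (p : ℂ) (t : ℝ) : Set ℂ := rswRect (p.re - t) (p.re + t) (p.im - t) (p.im + t)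

/-- the complement of the open square of radius `r` -/
def pvapOut (p : ℂ) (r : ℝ) : Set ℂ := {b | ¬ (p.re - r < b.re ∧ b.re < p.re + r ∧ p.im - r < b.im ∧ b.im < p.im + r)}

/-- the black arm event on configurations -/
def pvapCf (p : ℂ) (t r : ℝ) : Set (Conf PvPt) := {η | PvVC η univ (pvapIn p t) (pvapOut p r)}

/-- the arm event, either colour, on the frozen sample space -/
def pvapEv (p : ℂ) (t r : ℝ) : Set PVSample := {ω | pvConf ω ∈ pvapCf p t r ∨ cfFlip (pvConf ω) ∈ pvapCf p t r}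

/-- the quenched probability of a set of samples -/
noncomputable def pvapSec (E : Set PVSample) (b : PvfBase) : ℝ := (colLaw PvfIx {s | pvfGlue (b, s) ∈ E}).toReal

theorem pvap_eqns_cite : True := by
  have := @pvapIn.eq_1; have := @pvapOut.eq_1; have := @pvapCf.eq_1; have := @pvapEv.eq_1; have := @pvapSec.eq_1
  trivial

/-! ## 1. the annealed bound -/

theorem pvap_law_le_P (ε : ℝ) (A : Set (Conf PvPt)) : pvLaw ε (pvConf ⁻¹' A) ≤ pvP ε A :=
  Measure.le_map_apply measurable_pvConf.aemeasurable A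

theorem pvap_law : ∃ C a : ℝ, 0 < C ∧ 0 < a ∧ ∀ ε : ℝ, 0 < ε → ∀ t r : ℝ, ε ≤ t → t ≤ r → ∀ p : ℂ,
    pvLaw ε (pvapEv p t r) ≤ ENNReal.ofReal (C * (t / r) ^ a) := by
  obtain ⟨C, a, hC, ha, h⟩ := pvre_arm1_vc
  refine ⟨2 * C, a, by positivity, ha, fun ε hε t r h1 h2 p => ?_⟩
  have h0 : pvP ε (pvapCf p t r) ≤ ENNReal.ofReal (C * (t / r) ^ a) := h ε hε t r h1 h2 p.re p.im univ
  have e : pvapEv p t r = pvConf ⁻¹' (pvapCf p t r) ∪ pvConf ⁻¹' (cfFlip ⁻¹' (pvapCf p t r)) := rfl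
  have ht : 0 < t := lt_of_lt_of_le hε h1
  have hnn : 0 ≤ C * (t / r) ^ a := by
    have : 0 ≤ t / r := div_nonneg ht.le (ht.le.trans h2)
    positivity
  calc pvLaw ε (pvapEv p t r) ≤ pvLaw ε (pvConf ⁻¹' (pvapCf p t r)) + pvLaw ε (pvConf ⁻¹' (cfFlip ⁻¹' (pvapCf p t r))) := by
        rw [e]; exact measure_union_le _ _
    _ ≤ pvP ε (pvapCf p t r) + pvP ε (cfFlip ⁻¹' (pvapCf p t r)) := add_le_add (pvap_law_le_P _ _) (pvap_law_le_P _ _)
    _ = pvP ε (pvapCf p t r) + pvP ε (pvapCf p t r) := by rw [pvr_flip_apply]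
    _ ≤ ENNReal.ofReal (C * (t / r) ^ a) + ENNReal.ofReal (C * (t / r) ^ a) := add_le_add h0 h0
    _ = ENNReal.ofReal (2 * C * (t / r) ^ a) := by
        rw [← ENNReal.ofReal_add hnn hnn]; congr 1; ring

/-! ## 2. quenched sections -/

theorem pvap_sec_nonneg (E : Set PVSample) (b : PvfBase) : 0 ≤ pvapSec E b := ENNReal.toReal_nonneg

theorem pvap_sec_le_one (E : Set PVSample) (b : PvfBase) : pvapSec E b ≤ 1 := by
  unfold pvapSec
  have h : colLaw PvfIx {s | pvfGlue (b, s) ∈ E} ≤ 1 := prob_le_one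
  exact ENNReal.toReal_le_of_le_ofReal zero_le_one (by simpa using h)

theorem pvap_sec_mono {E E' : Set PVSample} (h : E ⊆ E') (b : PvfBase) : pvapSec E b ≤ pvapSec E' b := by
  unfold pvapSec
  exact ENNReal.toReal_mono (measure_ne_top _ _) (measure_mono fun s hs => h hs)

theorem pvap_sec_meas {E : Set PVSample} (hE : MeasurableSet E) : Measurable (pvapSec E) := by
  unfold pvapSec
  exact (measurable_measure_prodMk_left (pvf_measurable_glue hE)).ennreal_toReal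

theorem pvap_sec_integral (ε : ℝ) {E : Set PVSample} (hE : MeasurableSet E) : ∫ b, pvapSec E b ∂pvfBaseLaw ε = (pvLaw ε E).toReal := by
  unfold pvapSec
  have hm : Measurable fun b : PvfBase => colLaw PvfIx {s | pvfGlue (b, s) ∈ E} := measurable_measure_prodMk_left (pvf_measurable_glue hE)
  rw [integral_toReal hm.aemeasurable (Filter.Eventually.of_forall fun b => measure_lt_top _ _), pvf_qcol_apply ε hE]

/-- **the quenched majorant of an arbitrary event** -/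
theorem pvap_major (ε : ℝ) (E : Set PVSample) : ∃ q : PvfBase → ℝ, Measurable q ∧ (∀ b, 0 ≤ q b ∧ q b ≤ 1) ∧
    ∫ b, q b ∂pvfBaseLaw ε = (pvLaw ε E).toReal ∧ ∀ b, pvapSec E b ≤ q b := by
  refine ⟨pvapSec (toMeasurable (pvLaw ε) E), pvap_sec_meas (measurableSet_toMeasurable _ _), fun b => ⟨pvap_sec_nonneg _ _, pvap_sec_le_one _ _⟩, ?_,
    fun b => pvap_sec_mono (subset_toMeasurable _ _) b⟩
  rw [pvap_sec_integral ε (measurableSet_toMeasurable _ _), measure_toMeasurable]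

/-- **the quenched arm majorant** -/
theorem pvap_q : ∃ C a : ℝ, 0 < C ∧ 0 < a ∧ ∀ ε : ℝ, 0 < ε → ∀ t r : ℝ, ε ≤ t → t ≤ r → ∀ p : ℂ,
    ∃ q : PvfBase → ℝ, Measurable q ∧ (∀ b, 0 ≤ q b ∧ q b ≤ 1) ∧ ∫ b, q b ∂pvfBaseLaw ε ≤ C * (t / r) ^ a ∧ ∀ b, pvapSec (pvapEv p t r) b ≤ q b := by
  obtain ⟨C, a, hC, ha, h⟩ := pvap_law
  refine ⟨C, a, hC, ha, fun ε hε t r h1 h2 p => ?_⟩
  obtain ⟨q, hq1, hq2, hq3, hq4⟩ := pvap_major ε (pvapEv p t r)
  refine ⟨q, hq1, hq2, ?_, hq4⟩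
  rw [hq3]
  have ht : 0 < t := lt_of_lt_of_le hε h1
  have hnn : 0 ≤ C * (t / r) ^ a := by
    have : 0 ≤ t / r := div_nonneg ht.le (ht.le.trans h2)
    positivity
  exact ENNReal.toReal_le_of_le_ofReal hnn (h ε hε t r h1 h2 p)

/-- **the majorant of a bad event of the geometry** -/
theorem pvap_bad (ε : ℝ) (B : Set PvfBase) : ∃ q : PvfBase → ℝ, Measurable q ∧ (∀ b, 0 ≤ q b ∧ q b ≤ 1) ∧
    ∫ b, q b ∂pvfBaseLaw ε = (pvfBaseLaw ε B).toReal ∧ ∀ b ∈ B, q b = 1 := by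
  refine ⟨(toMeasurable (pvfBaseLaw ε) B).indicator fun _ => 1, measurable_const.indicator (measurableSet_toMeasurable _ _), fun b => ?_, ?_, fun b hb => ?_⟩
  · by_cases hb : b ∈ toMeasurable (pvfBaseLaw ε) B
    · rw [indicator_of_mem hb]; exact ⟨zero_le_one, le_rfl⟩
    · rw [indicator_of_notMem hb]; exact ⟨le_rfl, zero_le_one⟩
  · rw [integral_indicator (measurableSet_toMeasurable _ _), setIntegral_const, smul_eq_mul, mul_one, Measure.real, measure_toMeasurable]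
  · rw [indicator_of_mem (subset_toMeasurable _ _ hb)]

/-! ## 3. the shape of the field `arm` -/

theorem pvap_int (ε : ℝ) {q : PvfBase → ℝ} (hm : Measurable q) (hb : ∀ b, 0 ≤ q b ∧ q b ≤ 1) : Integrable q (pvfBaseLaw ε) :=
  Integrable.of_bound hm.aestronglyMeasurable 1 (Filter.Eventually.of_forall fun b => by
    rw [Real.norm_of_nonneg (hb b).1]; exact (hb b).2)

/-- the choice of the small radius -/
theorem pvap_radius {C a ρ η : ℝ} (hC : 0 < C) (ha : 0 < a) (hρ : 0 < ρ) (hη : 0 < η) : ∃ t : ℝ, 0 < t ∧ t ≤ ρ ∧ C * (t / ρ) ^ a ≤ η := by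
  have hy : 0 < η / C := div_pos hη hC
  have hx : 0 < min 1 ((η / C) ^ a⁻¹) := lt_min one_pos (Real.rpow_pos_of_pos hy _)
  refine ⟨ρ * min 1 ((η / C) ^ a⁻¹), mul_pos hρ hx, ?_, ?_⟩
  · calc ρ * min 1 ((η / C) ^ a⁻¹) ≤ ρ * 1 := mul_le_mul_of_nonneg_left (min_le_left _ _) hρ.le
      _ = ρ := mul_one ρ
  · rw [mul_div_cancel_left₀ _ hρ.ne']
    have h1 : (min 1 ((η / C) ^ a⁻¹)) ^ a ≤ ((η / C) ^ a⁻¹) ^ a := Real.rpow_le_rpow hx.le (min_le_right _ _) ha.le
    rw [Real.rpow_inv_rpow hy.le ha.ne'] at h1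
    calc C * (min 1 ((η / C) ^ a⁻¹)) ^ a ≤ C * (η / C) := mul_le_mul_of_nonneg_left h1 hC.le
      _ = η := mul_div_cancel₀ _ hC.ne'

/-- **THE FIELD `arm`, probability half.**   `t` depends on `(p, ρ, η)` only; the bad events may depend on `t`. -/
theorem pvap_field (εs : ℕ → ℝ) (hpos : ∀ k, 0 < εs k) (hlim : Tendsto εs atTop (𝓝 0)) {ρ η : ℝ} (hρ : 0 < ρ) (hη : 0 < η) :
    ∃ t : ℝ, 0 < t ∧ t ≤ ρ ∧ ∀ (p : ℂ) (Bad : ℕ → Set PvfBase), Tendsto (fun k => pvfBaseLaw (εs k) (Bad k)) atTop (𝓝 0) →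
      ∃ q : ℕ → PvfBase → ℝ, (∀ k, Measurable (q k)) ∧ (∀ k b, 0 ≤ q k b ∧ q k b ≤ 2) ∧ (∀ᶠ k in atTop, ∫ b, q k b ∂pvfBaseLaw (εs k) ≤ η) ∧
        (∀ k, ∀ b ∈ Bad k, q k b = 2) ∧ ∀ k b, min 2 (4 * pvapSec (pvapEv p t ρ) b) ≤ q k b := by
  obtain ⟨C, a, hC, ha, hq⟩ := pvap_q
  obtain ⟨t, ht0, htρ, htC⟩ := pvap_radius hC ha hρ (show 0 < η / 8 by positivity)
  refine ⟨t, ht0, htρ, fun p Bad hBad => ?_⟩
  have h1 : ∀ k, ∃ qa : PvfBase → ℝ, Measurable qa ∧ (∀ b, 0 ≤ qa b ∧ qa b ≤ 1) ∧ (εs k ≤ t → ∫ b, qa b ∂pvfBaseLaw (εs k) ≤ η / 8) ∧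
      ∀ b, pvapSec (pvapEv p t ρ) b ≤ qa b := by
    intro k
    by_cases hk : εs k ≤ t
    · obtain ⟨q, a1, a2, a3, a4⟩ := hq (εs k) (hpos k) t ρ hk htρ p
      exact ⟨q, a1, a2, fun _ => a3.trans htC, a4⟩
    · exact ⟨fun _ => 1, measurable_const, fun _ => ⟨zero_le_one, le_rfl⟩, fun h => absurd h hk, fun b => pvap_sec_le_one _ _⟩
  choose qa qa1 qa2 qa3 qa4 using h1
  choose qb qb1 qb2 qb3 qb4 using fun k => pvap_bad (εs k) (Bad k)
  refine ⟨fun k b => min 2 (4 * qa k b + 2 * qb k b), fun k => ?_, fun k b => ⟨?_, min_le_left _ _⟩, ?_, fun k b hb => ?_, fun k b => ?_⟩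
  · exact measurable_const.min (((qa1 k).const_mul 4).add ((qb1 k).const_mul 2))
  · have := (qa2 k b).1; have := (qb2 k b).1
    exact le_min (by norm_num) (by positivity)
  · have e1 : ∀ᶠ k in atTop, εs k ≤ t := (hlim.eventually (gt_mem_nhds ht0)).mono fun k hk => le_of_lt hk
    have e2 : ∀ᶠ k in atTop, pvfBaseLaw (εs k) (Bad k) < ENNReal.ofReal (η / 4) :=
      hBad.eventually (gt_mem_nhds (ENNReal.ofReal_pos.2 (by positivity)))
    filter_upwards [e1, e2] with k hk1 hk2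
    have i1 := pvap_int (εs k) (qa1 k) (qa2 k)
    have i2 := pvap_int (εs k) (qb1 k) (qb2 k)
    have i3 : Integrable (fun b => 4 * qa k b + 2 * qb k b) (pvfBaseLaw (εs k)) := (i1.const_mul 4).add (i2.const_mul 2)
    have hb : (pvfBaseLaw (εs k) (Bad k)).toReal ≤ η / 4 := ENNReal.toReal_le_of_le_ofReal (by positivity) hk2.le
    have hm : Measurable fun b => min 2 (4 * qa k b + 2 * qb k b) := measurable_const.min (((qa1 k).const_mul 4).add ((qb1 k).const_mul 2))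
    have i4 : Integrable (fun b => min 2 (4 * qa k b + 2 * qb k b)) (pvfBaseLaw (εs k)) :=
      Integrable.of_bound hm.aestronglyMeasurable 2 (Filter.Eventually.of_forall fun b => by
        have := (qa2 k b).1; have := (qb2 k b).1
        rw [Real.norm_of_nonneg (le_min (by norm_num) (by positivity))]; exact min_le_left _ _)
    calc ∫ b, min 2 (4 * qa k b + 2 * qb k b) ∂pvfBaseLaw (εs k) ≤ ∫ b, (4 * qa k b + 2 * qb k b) ∂pvfBaseLaw (εs k) :=
          integral_mono i4 i3 fun b => min_le_right _ _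
      _ = 4 * ∫ b, qa k b ∂pvfBaseLaw (εs k) + 2 * ∫ b, qb k b ∂pvfBaseLaw (εs k) := by
          rw [integral_add (i1.const_mul 4) (i2.const_mul 2), integral_const_mul, integral_const_mul]
      _ ≤ 4 * (η / 8) + 2 * (η / 4) := by
          rw [qb3 k]
          have := qa3 k hk1
          linarith
      _ = η := by ring
  · show min 2 (4 * qa k b + 2 * qb k b) = 2
    rw [qb4 k b hb]
    have := (qa2 k b).1
    exact min_eq_left (by linarith)
  · have := qa4 k b; have := (qb2 k b).1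
    exact min_le_min le_rfl (by linarith)

/-! ## 4. the dictionary: chains of indices -/

theorem pvap_cell_glue (b : PvfBase) (s : PvfIx → Bool) (v : ℂ) : cfCell (pvConf (pvfGlue (b, s))) v = vorCell (pvfSites b) v := by
  rw [cfCell_eq_vor, pvf_cfSites_glue]

theorem pvap_cell_flip (η : Conf PvPt) (v : ℂ) : cfCell (cfFlip η) v = cfCell η v := by
  ext z
  constructor
  · intro h p hp
    exact h (p.1, !p.2) ((pvrm_flip_mem η p.1 (!p.2)).2 (by simpa using hp))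
  · intro h p hp
    exact h (p.1, !p.2) ((pvrm_flip_mem η p.1 p.2).1 hp)

/-- chain of active indices of colour `c`, consecutive Voronoi cells touching, from `A` to `B` -/
def PvapCh (b : PvfBase) (s : PvfIx → Bool) (c : Bool) (A B : Set ℂ) : Prop :=
  ∃ i j : PvfIx, pvfPos b i ∈ A ∧ pvfPos b j ∈ B ∧ (i ∈ pvfAct b ∧ s i = c) ∧
    Relation.ReflTransGen (fun i j => (j ∈ pvfAct b ∧ s j = c) ∧ (vorCell (pvfSites b) (pvfPos b i) ∩ vorCell (pvfSites b) (pvfPos b j)).Nonempty) i j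

theorem pvap_eqns_cite2 : True := by
  have := @PvapCh.eq_1
  trivial

theorem pvap_ch_vc {b : PvfBase} {s : PvfIx → Bool} {c : Bool} {A B : Set ℂ} (h : PvapCh b s c A B) (η : Conf PvPt)
    (h1 : ∀ i ∈ pvfAct b, s i = c → (pvfPos b i, true) ∈ η.pts) (h2 : ∀ v, cfCell η v = vorCell (pvfSites b) v) : PvVC η univ A B := by
  obtain ⟨i, j, hi, hj, hic, hch⟩ := h
  refine ⟨pvfPos b i, pvfPos b j, hi, hj, ⟨h1 i hic.1 hic.2, mem_univ _⟩, ?_⟩
  refine Relation.ReflTransGen.lift (pvfPos b) ?_ i j hch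
  rintro x y ⟨hy, hxy⟩
  refine ⟨⟨h1 y hy.1 hy.2, mem_univ _⟩, ?_⟩
  rw [h2, h2]
  exact hxy

/-- **a chain of either colour is an arm** -/
theorem pvap_ch_ev {b : PvfBase} {s : PvfIx → Bool} {c : Bool} {p : ℂ} {t r : ℝ} (h : PvapCh b s c (pvapIn p t) (pvapOut p r)) :
    pvfGlue (b, s) ∈ pvapEv p t r := by
  cases c with
  | true =>
    refine Or.inl (pvap_ch_vc h _ (fun i hi hs => pvf_mem_conf_glue.2 ⟨i, hi, by rw [hs]⟩) (pvap_cell_glue b s))
  | false =>
    refine Or.inr (pvap_ch_vc h _ (fun i hi hs => (pvrm_flip_mem _ _ _).2 (pvf_mem_conf_glue.2 ⟨i, hi, by rw [hs]; rfl⟩)) fun v => ?_)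
    rw [pvap_cell_flip, pvap_cell_glue]

/-- **DICTIONARY**: a monochromatic chain of ANY graph `(V, adj)` inside a vertex set `S` whose vertices are named by active indices and whose edges join sites with touching cells -/
theorem pvap_of_chain {V : Type} {b : PvfBase} {s : PvfIx → Bool} (ι : V → PvfIx) (adj : V → V → Prop) (S : Set V) (c : Bool)
    (hact : ∀ v ∈ S, ι v ∈ pvfAct b)
    (hadj : ∀ v ∈ S, ∀ w ∈ S, adj v w → (vorCell (pvfSites b) (pvfPos b (ι v)) ∩ vorCell (pvfSites b) (pvfPos b (ι w))).Nonempty)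
    {u w : V} (hu : u ∈ S) (hcu : s (ι u) = c) (hch : Relation.ReflTransGen (fun x y => adj x y ∧ y ∈ S ∧ s (ι y) = c) u w)
    {p : ℂ} {t r : ℝ} (huA : pvfPos b (ι u) ∈ pvapIn p t) (hwB : pvfPos b (ι w) ∈ pvapOut p r) : pvfGlue (b, s) ∈ pvapEv p t r := by
  refine pvap_ch_ev (c := c) ⟨ι u, ι w, huA, hwB, ⟨hact u hu, hcu⟩, ?_⟩
  clear hwB
  have key : w ∈ S ∧ Relation.ReflTransGen (fun i j => (j ∈ pvfAct b ∧ s j = c) ∧
      (vorCell (pvfSites b) (pvfPos b i) ∩ vorCell (pvfSites b) (pvfPos b j)).Nonempty) (ι u) (ι w) := by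
    induction hch with
    | refl => exact ⟨hu, Relation.ReflTransGen.refl⟩
    | tail _ hxy ih => exact ⟨hxy.2.1, ih.2.tail ⟨⟨hact _ hxy.2.1, hxy.2.2⟩, hadj _ ih.1 _ hxy.2.1 hxy.1⟩⟩
  exact key.2

/-! ## 5. monotonicity, balls -/

theorem pvap_vc_mono {η : Conf PvPt} {W A B A' B' : Set ℂ} (hA : A ⊆ A') (hB : B ⊆ B') (h : PvVC η W A B) : PvVC η W A' B' := by
  obtain ⟨u, v, hu, hv, h1, h2⟩ := h
  exact ⟨u, v, hA hu, hB hv, h1, h2⟩

theorem pvap_in_mono (p : ℂ) {t t' : ℝ} (h : t ≤ t') : pvapIn p t ⊆ pvapIn p t' := by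
  rintro z ⟨h1, h2, h3, h4⟩
  exact ⟨by linarith, by linarith, by linarith, by linarith⟩

theorem pvap_out_mono (p : ℂ) {r r' : ℝ} (h : r' ≤ r) : pvapOut p r ⊆ pvapOut p r' := by
  rintro z hz ⟨h1, h2, h3, h4⟩
  exact hz ⟨by linarith, by linarith, by linarith, by linarith⟩

theorem pvap_ev_mono (p : ℂ) {t t' r r' : ℝ} (ht : t ≤ t') (hr : r' ≤ r) : pvapEv p t r ⊆ pvapEv p t' r' := by
  rintro ω (h | h)
  · exact Or.inl (pvap_vc_mono (pvap_in_mono p ht) (pvap_out_mono p hr) h)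
  · exact Or.inr (pvap_vc_mono (pvap_in_mono p ht) (pvap_out_mono p hr) h)

theorem pvap_ball_in (p : ℂ) (t : ℝ) : closedBall p t ⊆ pvapIn p t := by
  intro z hz
  rw [mem_closedBall, Complex.dist_eq] at hz
  have h1 := (Complex.abs_re_le_norm (z - p)).trans hz
  have h2 := (Complex.abs_im_le_norm (z - p)).trans hz
  rw [Complex.sub_re, abs_le] at h1
  rw [Complex.sub_im, abs_le] at h2
  exact ⟨by linarith [h1.1], by linarith [h1.2], by linarith [h2.1], by linarith [h2.2]⟩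

theorem pvap_ball_out (p : ℂ) (r : ℝ) : {z : ℂ | 2 * r ≤ ‖z - p‖} ⊆ pvapOut p r := by
  rintro z hz ⟨h1, h2, h3, h4⟩
  have h5 : ‖z - p‖ ≤ |(z - p).re| + |(z - p).im| := Complex.norm_le_abs_re_add_abs_im _
  have h6 : |(z - p).re| < r := by rw [Complex.sub_re, abs_lt]; constructor <;> linarith
  have h7 : |(z - p).im| < r := by rw [Complex.sub_im, abs_lt]; constructor <;> linarith
  have : 2 * r ≤ ‖z - p‖ := hz
  linarith

/-! ## 6. finite colourings -/

/-- **finite count `≤` quenched section**: `A` an event of the finitely many colours of the disc, `ι` the names of its vertices -/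
theorem pvap_count {V : Type} [Fintype V] (ι : V → PvfIx) (hι : Function.Injective ι) (A : Set (V → Bool)) (E : Set PVSample) (b : PvfBase)
    (h : ∀ s : PvfIx → Bool, s ∘ ι ∈ A → pvfGlue (b, s) ∈ E) : (A.ncard : ℝ) / 2 ^ Fintype.card V ≤ pvapSec E b := by
  have hA : MeasurableSet A := (Set.toFinite A).measurableSet
  have hm : Measurable fun s : PvfIx → Bool => s ∘ ι := measurable_pi_lambda _ fun v => measurable_pi_apply _
  have e1 : colLaw V A = colLaw PvfIx ((fun s : PvfIx → Bool => s ∘ ι) ⁻¹' A) := by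
    rw [← pvf_colLaw_comp ι hι, Measure.map_apply hm hA]
  have e2 : (colLaw V A).toReal = (A.ncard : ℝ) / 2 ^ Fintype.card V := by
    rw [pvf_colLaw_fintype, ENNReal.toReal_mul, ENNReal.toReal_natCast, ENNReal.toReal_pow, ENNReal.toReal_inv]
    simp [div_eq_mul_inv]
  rw [← e2, e1]
  unfold pvapSec
  exact ENNReal.toReal_mono (measure_ne_top _ _) (measure_mono fun s hs => h s hs)

open Classical in
/-- the same with `Finset.filter` -/
theorem pvap_count' {V : Type} [Fintype V] (ι : V → PvfIx) (hι : Function.Injective ι) (Ev : (V → Bool) → Prop) (E : Set PVSample) (b : PvfBase)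
    (h : ∀ s : PvfIx → Bool, Ev (s ∘ ι) → pvfGlue (b, s) ∈ E) :
    ((Finset.univ.filter fun s : V → Bool => Ev s).card : ℝ) / 2 ^ Fintype.card V ≤ pvapSec E b := by
  have e : (Finset.univ.filter fun s : V → Bool => Ev s).card = {s : V → Bool | Ev s}.ncard := by
    rw [← Set.ncard_coe_finset]
    congr 1
    ext s
    simp
  rw [e]
  exact pvap_count ι hι {s | Ev s} E b h

/-! ## 7. the discrete arm event of `Obs/ArmD` is an arm of the continuum -/

theorem pvap_mono_off {V D : Type} {T : PvMap V D} {σ : V → Bool} {Ex : Set V} {x w : V} (h : T.MonoOff σ Ex x w) :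
    Relation.ReflTransGen (fun u v => T.Adj u v ∧ v ∈ Exᶜ ∧ σ v = σ x) x w := by
  have key : σ w = σ x ∧ Relation.ReflTransGen (fun u v => T.Adj u v ∧ v ∈ Exᶜ ∧ σ v = σ x) x w := by
    induction h with
    | refl => exact ⟨rfl, Relation.ReflTransGen.refl⟩
    | tail _ hxy ih => exact ⟨hxy.2.1.symm.trans ih.1, ih.2.tail ⟨hxy.1, hxy.2.2, hxy.2.1.symm.trans ih.1⟩⟩
  exact key.2

/-- **`PvoaEv ⟹ pvapEv`**.   `Ex` the exterior vertices, `t₀` the exterior vertex seen from the stars of `X`;   (`hin`) the disc sites of the faces of the stars of `X` lie in the small square;   (`hout`) a disc site adjacent to another exterior vertex lies outside the large square. -/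
theorem pvap_ev_of_disc {V D : Type} {T : PvMap V D} {Ex : Set V} {t₀ : V} {X : Set V} {b : PvfBase} (ι : V → PvfIx)
    (hact : ∀ v, v ∉ Ex → ι v ∈ pvfAct b)
    (hadj : ∀ v, v ∉ Ex → ∀ w, w ∉ Ex → T.Adj v w → (vorCell (pvfSites b) (pvfPos b (ι v)) ∩ vorCell (pvfSites b) (pvfPos b (ι w))).Nonempty)
    {p : ℂ} {t r : ℝ} (hin : ∀ c x, T.src c ∈ X → T.FV c x → x ∉ Ex → pvfPos b (ι x) ∈ pvapIn p t)
    (hout : ∀ w z, w ∉ Ex → z ∈ Ex → z ≠ t₀ → T.Adj w z → pvfPos b (ι w) ∈ pvapOut p r)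
    (s : PvfIx → Bool) (h : PvoaEv T Ex t₀ X (s ∘ ι)) : pvfGlue (b, s) ∈ pvapEv p t r := by
  obtain ⟨c, x, w, z, hc, hx, hxE, hmono, hwE, hz, hzt, hwz, -⟩ := h
  exact pvap_of_chain ι T.Adj Exᶜ (s (ι x)) hact hadj hxE rfl (pvap_mono_off hmono) (hin c x hc hx hxE) (hout w z hwE hz hzt hwz)

/-! ## 8. the field `arm` of `PvoArm` from the deterministic local statement -/

/-- **the deterministic local statement at `p`** (contract of the instance): radius `ρ`; for every `t ≤ ρ` a scale `s` and bad events of vanishing outer probability off which all probes within `s` of `p` are compared through the quenched arm probability -/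
def PvapLoc (S : PvoSys PvfBase) (X : Set ℂ) (εs : ℕ → ℝ) (p : ℂ) : Prop :=
  ∃ ρ : ℝ, 0 < ρ ∧ ∀ t : ℝ, 0 < t → t ≤ ρ → ∃ s : ℝ, 0 < s ∧ ∃ Bad : ℕ → Set PvfBase, Tendsto (fun k => pvfBaseLaw (εs k) (Bad k)) atTop (𝓝 0) ∧
    ∀ k, ∀ o, o ∉ Bad k →
      (∀ p' ∈ X, ‖p' - p‖ < s → ‖S.R k p' o - S.R k p o‖ ≤ 4 * pvapSec (pvapEv p t ρ) o) ∧
      (∀ e ∈ S.E k o, ‖S.mid k o e - p‖ < s → ‖S.Fe k o e - S.R k p o‖ ≤ 4 * pvapSec (pvapEv p t ρ) o)

theorem pvap_eqns_cite3 : True := by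
  have := @PvapLoc.eq_1
  trivial

/-- **THE FIELD `arm`** -/
theorem pvap_arm_inst (S : PvoSys PvfBase) (X : Set ℂ) (εs : ℕ → ℝ) (hpos : ∀ k, 0 < εs k) (hlim : Tendsto εs atTop (𝓝 0))
    (hP : ∀ k, S.P k = pvfBaseLaw (εs k)) (bddR : ∀ k p o, ‖S.R k p o‖ ≤ 1) (bddF : ∀ k o, ∀ e ∈ S.E k o, ‖S.Fe k o e‖ ≤ 1)
    (hloc : ∀ p ∈ X, PvapLoc S X εs p) :
    ∀ p ∈ X, ∀ η : ℝ, 0 < η → ∃ s : ℝ, 0 < s ∧ ∃ q : ℕ → PvfBase → ℝ, (∀ k, Measurable (q k)) ∧ (∀ k o, 0 ≤ q k o ∧ q k o ≤ 2) ∧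
      (∀ᶠ k in atTop, ∫ o, q k o ∂S.P k ≤ η) ∧
      (∀ k o, ∀ p' ∈ X, ‖p' - p‖ < s → ‖S.R k p' o - S.R k p o‖ ≤ q k o) ∧
      (∀ k o, ∀ e ∈ S.E k o, ‖S.mid k o e - p‖ < s → ‖S.Fe k o e - S.R k p o‖ ≤ q k o) := by
  intro p hp η hη
  obtain ⟨ρ, hρ, hl⟩ := hloc p hp
  obtain ⟨t, ht0, htρ, hf⟩ := pvap_field εs hpos hlim hρ hη
  obtain ⟨s, hs, Bad, hBad, hcmp⟩ := hl t ht0 htρ
  obtain ⟨q, q1, q2, q3, q4, q5⟩ := hf p Bad hBad
  refine ⟨s, hs, q, q1, q2, ?_, fun k o p' hp' hd => ?_, fun k o e he hd => ?_⟩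
  · simpa only [hP] using q3
  · by_cases ho : o ∈ Bad k
    · rw [q4 k o ho]
      calc ‖S.R k p' o - S.R k p o‖ ≤ ‖S.R k p' o‖ + ‖S.R k p o‖ := norm_sub_le _ _
        _ ≤ 1 + 1 := add_le_add (bddR _ _ _) (bddR _ _ _)
        _ = 2 := by norm_num
    · refine le_trans (le_min ?_ ((hcmp k o ho).1 p' hp' hd)) (q5 k o)
      calc ‖S.R k p' o - S.R k p o‖ ≤ ‖S.R k p' o‖ + ‖S.R k p o‖ := norm_sub_le _ _
        _ ≤ 1 + 1 := add_le_add (bddR _ _ _) (bddR _ _ _)
        _ = 2 := by norm_num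
  · by_cases ho : o ∈ Bad k
    · rw [q4 k o ho]
      calc ‖S.Fe k o e - S.R k p o‖ ≤ ‖S.Fe k o e‖ + ‖S.R k p o‖ := norm_sub_le _ _
        _ ≤ 1 + 1 := add_le_add (bddF _ _ _ he) (bddR _ _ _)
        _ = 2 := by norm_num
    · refine le_trans (le_min ?_ ((hcmp k o ho).2 e he hd)) (q5 k o)
      calc ‖S.Fe k o e - S.R k p o‖ ≤ ‖S.Fe k o e‖ + ‖S.R k p o‖ := norm_sub_le _ _
        _ ≤ 1 + 1 := add_le_add (bddF _ _ _ he) (bddR _ _ _)
        _ = 2 := by norm_num

/-! ## 9. (8.2) on the completed sphere of a disc of sites -/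

section sphere

open Relation

variable {b : PvfBase} {D : Type} (F : PvFan ↥(pvfSites b) D)

/-- names of the vertices of the completed sphere -/
noncomputable def pvaiNm : F.V' → PvfIx := Sum.elim (fun v => pvfIdx b v.1) (fun j => ((0, 0), b.1 (0, 0) + j.1))

theorem pvai_eqns_cite : True := by
  have := @pvaiNm.eq_1
  trivial

theorem pvai_nm_act (v : {v // v ∈ F.T.VOf F.c.Left}) : pvaiNm F (Sum.inl v) ∈ pvfAct b := pvf_idx_act b v.1

theorem pvai_nm_pos (v : {v // v ∈ F.T.VOf F.c.Left}) : pvfPos b (pvaiNm F (Sum.inl v)) = (v.1 : ℂ) := pvf_idx_pos b v.1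

theorem pvai_nm_inact (j : Fin 3) : pvaiNm F (Sum.inr j) ∉ pvfAct b := by
  intro h
  have h' : b.1 (0, 0) + j.1 < b.1 (0, 0) := h
  omega

theorem pvai_nm_inj : Function.Injective (pvaiNm F) := by
  rintro (u | i) (v | j) h
  · exact congrArg Sum.inl (Subtype.ext (pvf_idx_inj b h))
  · exact absurd (h ▸ pvai_nm_act F u) (pvai_nm_inact F j)
  · exact absurd (h ▸ pvai_nm_act F v) (pvai_nm_inact F i)
  · have h' : (((0 : ℤ), (0 : ℤ)), b.1 (0, 0) + i.1) = (((0 : ℤ), (0 : ℤ)), b.1 (0, 0) + j.1) := h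
    have h2 : b.1 (0, 0) + i.1 = b.1 (0, 0) + j.1 := congrArg Prod.snd h'
    exact congrArg Sum.inr (Fin.ext (by omega))

theorem pvai_not_ex {x : F.V'} (h : x ∉ range (Sum.inr : Fin 3 → F.V')) : ∃ v, x = Sum.inl v := by
  rcases x with v | j
  · exact ⟨v, rfl⟩
  · exact absurd ⟨j, rfl⟩ h

theorem pvai_edge_adj {u v : ↥(pvfSites b)} (h : F.T.EdgeIn F.c.Left u v) : F.T.Adj u v := by
  obtain ⟨d, -, h1, h2⟩ := h
  exact ⟨d, h1, h2⟩

/-- **the discrete arm event on the completed sphere is an arm of the continuum** -/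
theorem pvai_ev (hdel : ∀ u v : ↥(pvfSites b), F.T.Adj u v → (vorCell (pvfSites b) u ∩ vorCell (pvfSites b) v).Nonempty) (j : Fin 3) (X : Set F.V') {p : ℂ} {t r : ℝ}
    (hin : ∀ x ∈ X, ∀ v : {v // v ∈ F.T.VOf F.c.Left}, (Sum.inl v = x ∨ F.map.Adj x (Sum.inl v)) → ((v.1 : ↥(pvfSites b)) : ℂ) ∈ pvapIn p t)
    (hout : ∀ l, l ≠ j → ∀ v ∈ F.c.arc (F.lo l) (F.hi l), ((v : ↥(pvfSites b)) : ℂ) ∈ pvapOut p r)
    (s : PvfIx → Bool) (h : PvoaEv F.map (range Sum.inr) (F.sv j) X (s ∘ pvaiNm F)) : pvfGlue (b, s) ∈ pvapEv p t r := by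
  refine pvap_ev_of_disc (T := F.map) (Ex := range Sum.inr) (t₀ := F.sv j) (X := X) (pvaiNm F) ?_ ?_ ?_ ?_ s h
  · intro v hv
    obtain ⟨v, rfl⟩ := pvai_not_ex F hv
    exact pvai_nm_act F v
  · intro v hv w hw hvw
    obtain ⟨v, rfl⟩ := pvai_not_ex F hv
    obtain ⟨w, rfl⟩ := pvai_not_ex F hw
    rw [pvai_nm_pos, pvai_nm_pos]
    exact hdel _ _ (pvai_edge_adj F ((F.adj_iv_iff v.2 w.2).1 hvw))
  · intro c x hc hx hxE
    obtain ⟨v, rfl⟩ := pvai_not_ex F hxE
    rw [pvai_nm_pos]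
    by_cases he : Sum.inl v = F.map.src c
    · exact hin _ hc v (Or.inl he)
    · exact hin _ hc v (Or.inr (pvoa_fv_adj (Or.inl rfl) hx (Ne.symm he)))
  · rintro w z hw ⟨l, rfl⟩ hz hwz
    obtain ⟨w, rfl⟩ := pvai_not_ex F hw
    rw [pvai_nm_pos]
    exact hout l (fun e => hz (by rw [e]; rfl)) _ ((F.adj_sv_iff l w.2).1 (F.map.adj_symm hwz))

theorem pvai_disj {p z : ℂ} {t r : ℝ} (htr : t < r) (h1 : z ∈ pvapIn p t) (h2 : z ∈ pvapOut p r) : False := by
  obtain ⟨a1, a2, a3, a4⟩ := h1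
  exact h2 ⟨by linarith, by linarith, by linarith, by linarith⟩

/-- **(8.2) on the completed sphere** -/
theorem pvai_arm [Fintype F.V'] (hdel : ∀ u v : ↥(pvfSites b), F.T.Adj u v → (vorCell (pvfSites b) u ∩ vorCell (pvfSites b) v).Nonempty) (j : Fin 3) (X : Set F.V') (hX : X ⊆ range Sum.inl)
    {p : ℂ} {t r : ℝ} (htr : t < r)
    (hin : ∀ x ∈ X, ∀ v : {v // v ∈ F.T.VOf F.c.Left}, (Sum.inl v = x ∨ F.map.Adj x (Sum.inl v)) → ((v.1 : ↥(pvfSites b)) : ℂ) ∈ pvapIn p t)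
    (hout : ∀ l, l ≠ j → ∀ v ∈ F.c.arc (F.lo l) (F.hi l), ((v : ↥(pvfSites b)) : ℂ) ∈ pvapOut p r)
    {a a' : F.V'} (ha : a ∈ X) (hpath : ReflTransGen (fun u v => F.map.Adj u v ∧ v ∈ X) a a') {e e' : F.D'} (he : F.map.src e = a) (he' : F.map.src e' = a') :
    ‖F.map.obsF (.s 0) e - F.map.obsF (.s 0) e'‖ ≤ 4 * pvapSec (pvapEv p t r) b := by
  classical
  have hEx : ∀ y, F.map.FV (.s 0) y → y ∈ range (Sum.inr : Fin 3 → F.V') := by
    rintro y (rfl | rfl | rfl)
    · exact ⟨0, rfl⟩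
    · exact ⟨2, rfl⟩
    · exact ⟨1, rfl⟩
  have hXt : ∀ c, F.map.src c ∈ X → ∀ x, F.map.FV c x → x ∈ range (Sum.inr : Fin 3 → F.V') → x = F.sv j := by
    rintro c hc x hx ⟨l, rfl⟩
    by_contra hne
    obtain ⟨v, hv⟩ := hX hc
    have hl : l ≠ j := fun e => hne (by rw [e]; rfl)
    have hadj : F.map.Adj (F.sv l) (F.iv v.1 v.2) := by
      have h1 : F.map.Adj (F.map.src c) (Sum.inr l) := pvoa_fv_adj (Or.inl rfl) hx (by rw [← hv]; exact fun h => by cases h)
      rw [← hv] at h1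
      exact F.map.adj_symm h1
    exact pvai_disj htr (hin _ hc v (Or.inl hv)) (hout l hl _ ((F.adj_sv_iff l v.2).1 hadj))
  have h1 := pv82a_gen (T := F.map) (q := .s 0) (e := e) (e' := e') (PvoaEv F.map (range Sum.inr) (F.sv j) X)
    (pvoa_test F.isSph.link hEx hXt ha hpath he he')
  have h2 := pvap_count' (pvaiNm F) (pvai_nm_inj F) (PvoaEv F.map (range Sum.inr) (F.sv j) X) (pvapEv p t r) b (pvai_ev F hdel j X hin hout)
  refine h1.trans ?_
  rw [mul_div_assoc]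
  exact mul_le_mul_of_nonneg_left h2 (by norm_num)

end sphere

/-! ## 10. (8.2) on a finite sphere whose vertices are LABELLED by sites or by `Fin 3` (the data `PvoDat` of `Obs/Sys.lean`) -/

section lab

open Relation

open Classical in
/-- names of the labels: the index of a site; inactive indices for the three apexes -/
noncomputable def pvapNm (g : PvfBase) : ℂ ⊕ Fin 3 → PvfIx :=
  Sum.elim (fun c => if h : c ∈ pvfSites g then pvfIdx g ⟨c, h⟩ else ((0, 0), g.1 (0, 0) + 3)) (fun j => ((0, 0), g.1 (0, 0) + j.1))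

theorem pvap_eqns_cite4 : True := by
  have := @pvapNm.eq_1
  trivial

theorem pvap_nm_site {g : PvfBase} {c : ℂ} (h : c ∈ pvfSites g) : pvapNm g (Sum.inl c) = pvfIdx g ⟨c, h⟩ := by
  unfold pvapNm
  rw [Sum.elim_inl, dif_pos h]

theorem pvap_nm_act {g : PvfBase} {c : ℂ} (h : c ∈ pvfSites g) : pvapNm g (Sum.inl c) ∈ pvfAct g := by
  rw [pvap_nm_site h]; exact pvf_idx_act g _

theorem pvap_nm_pos {g : PvfBase} {c : ℂ} (h : c ∈ pvfSites g) : pvfPos g (pvapNm g (Sum.inl c)) = c := by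
  rw [pvap_nm_site h]; exact pvf_idx_pos g _

theorem pvap_nm_inact (g : PvfBase) (j : Fin 3) : pvapNm g (Sum.inr j) ∉ pvfAct g := by
  intro h
  have h' : g.1 (0, 0) + j.1 < g.1 (0, 0) := h
  omega

theorem pvap_nm_inj {V : Type} {g : PvfBase} {lab : V → ℂ ⊕ Fin 3} (hinj : Function.Injective lab) (hsite : ∀ v c, lab v = Sum.inl c → c ∈ pvfSites g) :
    Function.Injective (pvapNm g ∘ lab) := by
  intro u v h
  apply hinj
  have h' : pvapNm g (lab u) = pvapNm g (lab v) := h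
  rcases hu : lab u with c | i <;> rcases hv : lab v with c' | i'
  · rw [hu, hv] at h'
    have := congrArg (pvfPos g) h'
    rw [pvap_nm_pos (hsite u c hu), pvap_nm_pos (hsite v c' hv)] at this
    rw [this]
  · rw [hu, hv] at h'
    exact absurd (h' ▸ pvap_nm_act (hsite u c hu)) (pvap_nm_inact g i')
  · rw [hu, hv] at h'
    exact absurd (h' ▸ pvap_nm_act (hsite v c' hv)) (pvap_nm_inact g i)
  · rw [hu, hv] at h'
    have h2 : g.1 (0, 0) + i.1 = g.1 (0, 0) + i'.1 := congrArg Prod.snd h'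
    exact congrArg Sum.inr (Fin.ext (by omega))

theorem pvap_lab_site {V : Type} {lab : V → ℂ ⊕ Fin 3} {v : V} (h : v ∉ {v | ∃ l, lab v = Sum.inr l}) : ∃ c, lab v = Sum.inl c := by
  rcases hv : lab v with c | l
  · exact ⟨c, rfl⟩
  · exact absurd ⟨l, hv⟩ h

/-- **(8.2) on a labelled finite sphere.**   `τ`: the edges between sites are shorter than `τ`, the comparison path stays in `ball p τ`;   the sites attached to a fan `l ≠ j` are at distance `≥ 2ρ` from `p`. -/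
theorem pvap_lab_arm {V D : Type} [Fintype V] {T : PvMap V D} (hlink : ∀ d d', T.src d = T.src d' → ∃ n : ℕ, T.rot^[n] d = d')
    {lab : V → ℂ ⊕ Fin 3} (hinj : Function.Injective lab) {g : PvfBase} (hsite : ∀ v c, lab v = Sum.inl c → c ∈ pvfSites g)
    {q : D} (hq : ∀ y, T.FV q y → ∃ l, lab y = Sum.inr l) {j : Fin 3} {t₀ : V} (ht₀ : lab t₀ = Sum.inr j)
    {p : ℂ} {τ t ρ : ℝ} (hτt : 2 * τ ≤ t) (hτρ : τ ≤ 2 * ρ)
    (hadj : ∀ e a b, lab (T.src e) = Sum.inl a → lab (T.tgt e) = Sum.inl b → (vorCell (pvfSites g) a ∩ vorCell (pvfSites g) b).Nonempty ∧ ‖a - b‖ < τ)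
    (harc : ∀ e a l, lab (T.src e) = Sum.inl a → lab (T.tgt e) = Sum.inr l → l ≠ j → 2 * ρ ≤ ‖a - p‖)
    {u u' : V} {a : ℂ} (hu : lab u = Sum.inl a) (hua : ‖a - p‖ < τ)
    (hpath : ReflTransGen (fun v v' => T.Adj v v' ∧ ∃ c : ℂ, lab v' = Sum.inl c ∧ ‖c - p‖ < τ) u u')
    {e e' : D} (he : T.src e = u) (he' : T.src e' = u') :
    ‖T.obsF q e - T.obsF q e'‖ ≤ 4 * pvapSec (pvapEv p t ρ) g := by
  classical
  have hτ0 : 0 < τ := lt_of_le_of_lt (norm_nonneg _) hua
  set Ex : Set V := {v | ∃ l, lab v = Sum.inr l} with hExd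
  set X : Set V := {v | ∃ c : ℂ, lab v = Sum.inl c ∧ ‖c - p‖ < τ} with hXd
  have hne : ∀ x y : V, ∀ c l, lab x = Sum.inl c → lab y = Sum.inr l → x ≠ y := by
    intro x y c l hx hy hxy
    rw [hxy, hy] at hx
    cases hx
  have hXt : ∀ c, T.src c ∈ X → ∀ x, T.FV c x → x ∈ Ex → x = t₀ := by
    rintro c ⟨a', ha', hd⟩ x hx ⟨l, hl⟩
    obtain ⟨e₁, h1, h2⟩ := pvoa_fv_adj (T := T) (Or.inl rfl) hx (hne _ _ _ _ ha' hl)
    by_contra hxt
    have hlj : l ≠ j := fun h => hxt (hinj (by rw [hl, ht₀, h]))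
    have := harc e₁ a' l (by rw [h1]; exact ha') (by rw [h2]; exact hl) hlj
    linarith
  have h1 := pv82a_gen (T := T) (q := q) (e := e) (e' := e') (PvoaEv T Ex t₀ X)
    (pvoa_test hlink hq hXt (⟨a, hu, hua⟩ : u ∈ X) hpath he he')
  have hev : ∀ s : PvfIx → Bool, PvoaEv T Ex t₀ X (s ∘ (pvapNm g ∘ lab)) → pvfGlue (g, s) ∈ pvapEv p t ρ := by
    refine pvap_ev_of_disc (T := T) (Ex := Ex) (t₀ := t₀) (X := X) (pvapNm g ∘ lab) ?_ ?_ ?_ ?_
    · intro v hv
      obtain ⟨c, hc⟩ := pvap_lab_site hv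
      show pvapNm g (lab v) ∈ _
      rw [hc]
      exact pvap_nm_act (hsite v c hc)
    · intro v hv w hw hvw
      obtain ⟨c, hc⟩ := pvap_lab_site hv
      obtain ⟨c', hc'⟩ := pvap_lab_site hw
      obtain ⟨e₁, h1, h2⟩ := hvw
      show (vorCell _ (pvfPos g (pvapNm g (lab v))) ∩ vorCell _ (pvfPos g (pvapNm g (lab w)))).Nonempty
      rw [hc, hc', pvap_nm_pos (hsite v c hc), pvap_nm_pos (hsite w c' hc')]
      exact (hadj e₁ c c' (by rw [h1]; exact hc) (by rw [h2]; exact hc')).1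
    · rintro c x ⟨a', ha', hd⟩ hx hxE
      obtain ⟨b, hb⟩ := pvap_lab_site hxE
      show pvfPos g (pvapNm g (lab x)) ∈ _
      rw [hb, pvap_nm_pos (hsite x b hb)]
      apply pvap_ball_in
      rw [mem_closedBall, Complex.dist_eq]
      by_cases hxc : T.src c = x
      · rw [← hxc, ha'] at hb
        cases hb
        linarith
      · obtain ⟨e₁, h1, h2⟩ := pvoa_fv_adj (T := T) (Or.inl rfl) hx hxc
        have h3 := (hadj e₁ a' b (by rw [h1]; exact ha') (by rw [h2]; exact hb)).2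
        have h4 : ‖b - p‖ ≤ ‖a' - b‖ + ‖a' - p‖ := by
          have : b - p = -(a' - b) + (a' - p) := by ring
          rw [this]
          exact (norm_add_le _ _).trans (by rw [norm_neg])
        linarith
    · rintro w z hw ⟨l, hl⟩ hz hwz
      obtain ⟨b, hb⟩ := pvap_lab_site hw
      obtain ⟨e₁, h1, h2⟩ := hwz
      show pvfPos g (pvapNm g (lab w)) ∈ _
      rw [hb, pvap_nm_pos (hsite w b hb)]
      apply pvap_ball_out
      exact harc e₁ b l (by rw [h1]; exact hb) (by rw [h2]; exact hl) fun h => hz (hinj (by rw [hl, ht₀, h]))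
  have h2 := pvap_count' (pvapNm g ∘ lab) (pvap_nm_inj hinj hsite) (PvoaEv T Ex t₀ X) (pvapEv p t ρ) g hev
  refine h1.trans ?_
  rw [mul_div_assoc]
  exact mul_le_mul_of_nonneg_left h2 (by norm_num)

end lab

end Claimed.Agent.R289
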