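-- KEEP
import Claimed.Agent.R289.Obs.Sys
import Claimed.Agent.R289.Obs.ArmPr

/-!
# Row 289 (S0537, Cardy for Poisson-Voronoi), unit OBS, file Obs/SysArm : J-ARM = `PvoArm` FOR THE SYSTEM OF `Obs/Sys.lean`      (helper66; prefix `pvaj_`)

**`pvaj_arm`** has the statement of the contract `pvoj_arm` of `Obs/Sys.lean` (head helper111).      0 sorry.
* `pvaj_F_le`      `‖𝔇.F Y e‖ ≤ 1`  (`pv82_norm_le` of helper91);
* `pvaj_on_arc`    a boundary point `≠ d` lies on the closed arc number `pvoArcIx ψ p`;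
* `pvaj_far`       `p ∈ closure D \ {a, c, d}` is at positive distance from the closed arcs `l ≠ pvoArcIx ψ p`  (chart: `isOpen inj cont imgB`);
* `pvaj_probe`     the canonical probe is admissible and issued from a nearest site;   `pvaj_probe_near`: within the density tolerance of `Good`;
* `pvaj_cmp`       two darts issued from sites in `ball p (min sA (t/2))` on a geometry `Good sA (t/2)`:  `‖F e - F e'‖ ≤ 4 pvapSec (pvapEv p t (δ/4))`   (`pvap_lab_arm` of `Obs/ArmPr.lean`: 184 ArmD + 119 count + 54 one arm);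
* `pvaj_loc`       `PvapLoc` at every `p`: levels `A = (sA, t/2)`, `B = (sB, s₁/2)`, `s₁ = min sA (t/2)`, answer `s₁/2`, bad events `(𝒯 k)ᶜ` (everything before the two levels are reached).
-/

set_option autoImplicit false

namespace Claimed.Agent.R289

open MeasureTheory ProbabilityTheory Set Filter Topology Metric Claims.C0465
open scoped ENNReal

/-! ## 1. bounds -/

theorem pvaj_F_le (𝔇 : PvoFam) (Y : Set ℂ) (e : (𝔇 Y).D) : ‖𝔇.F Y e‖ ≤ 1 := by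
  unfold PvoFam.F
  split_ifs with h
  · exact @pv82_norm_le (𝔇 Y).V (𝔇 Y).D (𝔇 Y).T (𝔇 Y).fV (@Finite.of_fintype _ (𝔇 Y).fD) h.sph _ _
  · simp

theorem pvaj_F_ok {𝔇 : PvoFam} {Y : Set ℂ} (h : 𝔇.bulk.Ok Y ∅) (e : (𝔇 Y).D) :
    𝔇.F Y e = @PvMap.obsF (𝔇 Y).V (𝔇 Y).D (𝔇 Y).T (𝔇 Y).fV (𝔇 Y).q e := by
  unfold PvoFam.F
  rw [if_pos h]

/-! ## 2. the arcs -/

theorem pvaj_frontier {D : Set ℂ} {d : ℂ} {ψ : ℂ → ℂ} (h : PvChart D d ψ) {p : ℂ} (hp : p ∈ closure D) (hpD : p ∉ D) : p ∈ frontier D := by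
  rw [h.isOpen.frontier_eq]
  exact ⟨hp, hpD⟩

theorem pvaj_on_arc {D : Set ℂ} {d : ℂ} {ψ : ℂ → ℂ} (h : PvChart D d ψ) {p : ℂ} (hp : p ∈ closure D) (hpD : p ∉ D) (hpd : p ≠ d) :
    p ∈ pvoArc D d ψ (pvoArcIx ψ p) := by
  refine Or.inr ⟨pvaj_frontier h hp hpD, hpd, ?_⟩
  unfold pvoArcIx
  split_ifs with h1 h2
  · exact Or.inr (Or.inr ⟨rfl, h1.le⟩)
  · exact Or.inl ⟨rfl, not_lt.1 h1, h2⟩
  · exact Or.inr (Or.inl ⟨rfl, (not_le.1 h2).le⟩)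

theorem pvaj_arc_notMem {D : Set ℂ} {d : ℂ} {ψ : ℂ → ℂ} (h : PvChart D d ψ) {l : Fin 3} {z : ℂ} (hz : z ∈ pvoArc D d ψ l) : z ∉ D := by
  rcases hz with ⟨rfl, -⟩ | ⟨hz, -, -⟩
  · exact h.d_notMem
  · rw [h.isOpen.frontier_eq] at hz
    exact hz.2

/-- a boundary point with real part of the chart `r` is the mark with that value -/
theorem pvaj_mark {D : Set ℂ} {d : ℂ} {ψ : ℂ → ℂ} (h : PvChart D d ψ) {a p : ℂ} (ha : a ∈ frontier D) (had : a ≠ d) (hp : p ∈ frontier D) (hpd : p ≠ d)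
    (hre : (ψ p).re = (ψ a).re) : p = a := by
  have i1 : (ψ p).im = 0 := by
    have : ψ p ∈ ψ '' (frontier D \ {d}) := ⟨p, ⟨hp, hpd⟩, rfl⟩
    rw [h.imgB] at this
    exact this
  have i2 : (ψ a).im = 0 := by
    have : ψ a ∈ ψ '' (frontier D \ {d}) := ⟨a, ⟨ha, had⟩, rfl⟩
    rw [h.imgB] at this
    exact this
  exact h.inj ⟨frontier_subset_closure hp, hpd⟩ ⟨frontier_subset_closure ha, had⟩ (Complex.ext hre (i1.trans i2.symm))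

/-- **the other arcs are far** -/
theorem pvaj_far {D : Set ℂ} {d : ℂ} {ψ : ℂ → ℂ} (h : PvChart D d ψ) {a c : ℂ} (ha : a ∈ frontier D) (hc : c ∈ frontier D)
    (had : a ≠ d) (hcd : c ≠ d) (hψa : ψ a = 0) (hψc : ψ c = 1) {p : ℂ} (hp : p ∈ closure D \ {a, c, d}) :
    ∃ δ : ℝ, 0 < δ ∧ ∀ l, l ≠ pvoArcIx ψ p → ∀ z ∈ pvoArc D d ψ l, δ ≤ ‖z - p‖ := by
  obtain ⟨hpc, hpn⟩ := hp
  simp only [mem_insert_iff, mem_singleton_iff, not_or] at hpn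
  obtain ⟨hpa, hpc', hpd⟩ := hpn
  by_cases hpD : p ∈ D
  · obtain ⟨δ, hδ, hb⟩ := Metric.isOpen_iff.1 h.isOpen p hpD
    refine ⟨δ, hδ, fun l _ z hz => ?_⟩
    by_contra hlt
    exact pvaj_arc_notMem h hz (hb (by rw [mem_ball, Complex.dist_eq]; exact not_le.1 hlt))
  · have hpf := pvaj_frontier h hpc hpD
    have h0 : (ψ p).re ≠ 0 := fun h' => hpa (pvaj_mark h ha had hpf hpd (by rw [h', hψa]; rfl))
    have h1 : (ψ p).re ≠ 1 := fun h' => hpc' (pvaj_mark h hc hcd hpf hpd (by rw [h', hψc]; rfl))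
    -- an open set of reals round `re ψ p` which misses the ranges of the other arcs
    obtain ⟨O, hO, hpO, hmiss⟩ : ∃ O : Set ℝ, IsOpen O ∧ (ψ p).re ∈ O ∧ ∀ l, l ≠ pvoArcIx ψ p → ∀ r ∈ O,
        ¬ ((l = 0 ∧ 0 ≤ r ∧ r ≤ 1) ∨ (l = 1 ∧ 1 ≤ r) ∨ (l = 2 ∧ r ≤ 0)) := by
      unfold pvoArcIx
      split_ifs with g1 g2
      · refine ⟨Iio 0, isOpen_Iio, g1, fun l hl r hr => ?_⟩
        have hr' : r < 0 := hr
        rintro (⟨-, h2, -⟩ | ⟨-, h2⟩ | ⟨h2, -⟩)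
        · linarith
        · linarith
        · exact hl h2
      · refine ⟨Ioo 0 1, isOpen_Ioo, ⟨lt_of_le_of_ne (not_lt.1 g1) (Ne.symm h0), lt_of_le_of_ne g2 h1⟩, fun l hl r hr => ?_⟩
        rintro (⟨h2, -, -⟩ | ⟨-, h2⟩ | ⟨-, h2⟩)
        · exact hl h2
        · linarith [hr.2]
        · linarith [hr.1]
      · refine ⟨Ioi 1, isOpen_Ioi, not_le.1 g2, fun l hl r hr => ?_⟩
        have hr' : 1 < r := hr
        rintro (⟨-, -, h2⟩ | ⟨h2, -⟩ | ⟨-, h2⟩)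
        · linarith
        · exact hl h2
        · linarith
    have hcw : ContinuousWithinAt ψ (closure D \ {d}) p := h.cont p ⟨hpc, hpd⟩
    have hre : ContinuousWithinAt (fun z => (ψ z).re) (closure D \ {d}) p := Complex.continuous_re.continuousAt.comp_continuousWithinAt hcw
    have hev : ∀ᶠ z in 𝓝[closure D \ {d}] p, (ψ z).re ∈ O := hre (hO.mem_nhds hpO)
    rw [eventually_nhdsWithin_iff, Metric.eventually_nhds_iff] at hev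
    obtain ⟨δ₁, hδ₁, hb⟩ := hev
    have hdp : 0 < ‖d - p‖ := norm_pos_iff.2 (sub_ne_zero.2 (Ne.symm hpd))
    refine ⟨min δ₁ ‖d - p‖, lt_min hδ₁ hdp, fun l hl z hz => ?_⟩
    rcases hz with ⟨rfl, -⟩ | ⟨hzf, hzd, hr⟩
    · exact min_le_right _ _
    · by_contra hlt
      have hlt' : ‖z - p‖ < δ₁ := lt_of_lt_of_le (not_le.1 hlt) (min_le_left _ _)
      exact hmiss l hl _ (hb (by rw [Complex.dist_eq]; exact hlt') ⟨frontier_subset_closure hzf, hzd⟩) hr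

/-! ## 3. the canonical probe -/

theorem pvaj_probe (𝔇 : PvoFam) (D : Set ℂ) (ψ : ℂ → ℂ) (Y : Set ℂ) (p : ℂ) {e₀ : (𝔇 Y).D} (h0 : 𝔇.Cand D ψ Y p e₀) :
    𝔇.Cand D ψ Y p (𝔇.probe D ψ Y p) ∧
      ‖𝔇.bulk.pos Y ((𝔇 Y).T.src (𝔇.probe D ψ Y p)) - p‖ ≤ ‖𝔇.bulk.pos Y ((𝔇 Y).T.src e₀) - p‖ := by
  classical
  let _ := (𝔇 Y).fD
  have hex : ∃ e, 𝔇.Cand D ψ Y p e ∧ ∀ e', 𝔇.Cand D ψ Y p e' → ‖𝔇.bulk.pos Y ((𝔇 Y).T.src e) - p‖ ≤ ‖𝔇.bulk.pos Y ((𝔇 Y).T.src e') - p‖ := by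
    obtain ⟨e, he, hmin⟩ := Finset.exists_min_image (Finset.univ.filter fun e : (𝔇 Y).D => 𝔇.Cand D ψ Y p e)
      (fun e => ‖𝔇.bulk.pos Y ((𝔇 Y).T.src e) - p‖) ⟨e₀, by simp [h0]⟩
    exact ⟨e, (Finset.mem_filter.1 he).2, fun e' he' => hmin e' (by simp [he'])⟩
  unfold PvoFam.probe
  rw [dif_pos hex]
  exact ⟨hex.choose_spec.1, hex.choose_spec.2 e₀ h0⟩

theorem pvaj_pos {𝔇 : PvoFam} {Y : Set ℂ} {v : (𝔇 Y).V} {a : ℂ} (h : (𝔇 Y).lab v = Sum.inl a) : 𝔇.bulk.pos Y v = a := by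
  show Sum.elim id (fun _ => 0) ((𝔇 Y).lab v) = a
  rw [h]; rfl

/-- the probe of a point of `closure D \ {d}` is issued from a site within the density tolerance -/
theorem pvaj_probe_near {𝔇 : PvoFam} {D : Set ℂ} {d : ℂ} {ψ : ℂ → ℂ} (h : PvChart D d ψ) {x : ℝ} {Y : Set ℂ} {s t : ℝ} (hG : 𝔇.Good D d ψ x Y s t)
    {p : ℂ} (hp : p ∈ closure D) (hpd : p ≠ d) : ∃ a : ℂ, (𝔇 Y).lab ((𝔇 Y).T.src (𝔇.probe D ψ Y p)) = Sum.inl a ∧ ‖a - p‖ < t := by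
  have key : ∃ e₀ a₀, 𝔇.Cand D ψ Y p e₀ ∧ (𝔇 Y).lab ((𝔇 Y).T.src e₀) = Sum.inl a₀ ∧ ‖a₀ - p‖ < t := by
    by_cases hpD : p ∈ D
    · obtain ⟨e, a, b, h1, h2, h3⟩ := hG.densD p hpD
      exact ⟨e, a, ⟨⟨a, h1⟩, fun _ => ⟨b, h2⟩, fun h' => absurd hpD h'⟩, h1, h3⟩
    · obtain ⟨e, a, h1, h2, h3⟩ := hG.densB _ p (pvaj_on_arc h hp hpD hpd)
      exact ⟨e, a, ⟨⟨a, h1⟩, fun h' => absurd h' hpD, fun _ => h2⟩, h1, h3⟩
  obtain ⟨e₀, a₀, hc, h1, h3⟩ := key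
  obtain ⟨hc', hmin⟩ := pvaj_probe 𝔇 D ψ Y p hc
  obtain ⟨a, ha⟩ := hc'.1
  refine ⟨a, ha, ?_⟩
  rw [pvaj_pos ha, pvaj_pos h1] at hmin
  exact lt_of_le_of_lt hmin h3

/-! ## 4. two darts issued from sites near `p` -/

theorem pvaj_apex_vertex {𝔇 : PvoFam} {D : Set ℂ} {d : ℂ} {ψ : ℂ → ℂ} {x : ℝ} {Y : Set ℂ} {s t : ℝ} (hG : 𝔇.Good D d ψ x Y s t) (j : Fin 3) :
    ∃ v, (𝔇 Y).lab v = Sum.inr j := by
  fin_cases j
  · exact ⟨_, hG.cl0⟩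
  · exact ⟨_, hG.cl1⟩
  · exact ⟨_, hG.cl2⟩

/-- **(8.2) at a good geometry** -/
theorem pvaj_cmp {𝔇 : PvoFam} {D : Set ℂ} {d : ℂ} {ψ : ℂ → ℂ} {x : ℝ} {g : PvGeoT} {sA t δ : ℝ} (hok : 𝔇.bulk.Ok (pvgSites g) ∅)
    (hG : 𝔇.Good D d ψ x (pvgSites g) sA (t / 2)) {p : ℂ} {j : Fin 3} (hfar : ∀ l, l ≠ j → ∀ z ∈ pvoArc D d ψ l, δ ≤ ‖z - p‖)
    (ht : 0 < t) (htδ : t ≤ δ / 4) {e e' : (𝔇 (pvgSites g)).D} {a a' : ℂ}
    (ha : (𝔇 (pvgSites g)).lab ((𝔇 (pvgSites g)).T.src e) = Sum.inl a) (ha' : (𝔇 (pvgSites g)).lab ((𝔇 (pvgSites g)).T.src e') = Sum.inl a')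
    (h1 : ‖a - p‖ < min sA (t / 2)) (h2 : ‖a' - p‖ < min sA (t / 2)) :
    ‖𝔇.F (pvgSites g) e - 𝔇.F (pvgSites g) e'‖ ≤ 4 * pvapSec (pvapEv p t (δ / 4)) g := by
  rw [pvaj_F_ok hok, pvaj_F_ok hok]
  obtain ⟨t₀, ht₀⟩ := pvaj_apex_vertex hG j
  refine @pvap_lab_arm (𝔇 (pvgSites g)).V (𝔇 (pvgSites g)).D (𝔇 (pvgSites g)).fV (𝔇 (pvgSites g)).T hok.sph.link (𝔇 (pvgSites g)).lab hok.inj g hok.site
    (𝔇 (pvgSites g)).q ?_ j t₀ ht₀ p (t / 2) t (δ / 4) (by linarith) (by linarith) ?_ ?_ _ _ a ha (lt_of_lt_of_le h1 (min_le_right _ _))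
    (hG.conn p _ _ a a' ha ha' (lt_of_lt_of_le h1 (min_le_left _ _)) (lt_of_lt_of_le h2 (min_le_left _ _))) e e' rfl rfl
  · rintro y (rfl | rfl | rfl)
    · exact ⟨0, hG.cl0⟩
    · exact ⟨2, hG.cl2⟩
    · exact ⟨1, hG.cl1⟩
  · intro e₁ b b' hb hb'
    exact ⟨(hG.adj e₁ b b' hb hb').1.2.2.2, (hG.adj e₁ b b' hb hb').2⟩
  · intro e₁ b l hb hl hlj
    obtain ⟨z, hz, hd⟩ := Metric.mem_thickening_iff.1 (hG.arc e₁ b l hb hl)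
    have h3 := hfar l hlj z hz
    rw [Complex.dist_eq] at hd
    have h4 : ‖z - p‖ ≤ ‖b - z‖ + ‖b - p‖ := by
      have : z - p = -(b - z) + (b - p) := by ring
      rw [this]
      exact (norm_add_le _ _).trans (by rw [norm_neg])
    linarith

/-! ## 5. the local statement -/

theorem pvaj_loc {D : Set ℂ} {d : ℂ} {ψ : ℂ → ℂ} (h : PvChart D d ψ) {x : ℝ} {a c : ℂ} (ha : a ∈ frontier D) (hc : c ∈ frontier D)
    (had : a ≠ d) (hcd : c ≠ d) (hψa : ψ a = 0) (hψc : ψ c = 1) {𝔇 : PvoFam} {εs : ℕ → ℝ} {𝒯 : ℕ → Set PvGeoT} (hG : PvoGuard 𝔇 D d ψ x εs 𝒯)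
    {p : ℂ} (hp : p ∈ closure D \ {a, c, d}) : PvapLoc (𝔇.sys D ψ εs 𝒯) (closure D \ {a, c, d}) εs p := by
  classical
  have hnd : ∀ p' : ℂ, p' ∈ closure D \ {a, c, d} → p' ≠ d := by
    intro p' hp' h'
    exact hp'.2 (by rw [h']; simp)
  obtain ⟨δ, hδ, hfar⟩ := pvaj_far h ha hc had hcd hψa hψc hp
  refine ⟨δ / 4, by positivity, fun t ht htρ => ?_⟩
  obtain ⟨sA, hsA, hkA⟩ := hG.good (t / 2) (by positivity)
  have hs₁ : 0 < min sA (t / 2) := lt_min hsA (by positivity)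
  obtain ⟨sB, hsB, hkB⟩ := hG.good (min sA (t / 2) / 2) (by positivity)
  refine ⟨min sA (t / 2) / 2, by positivity, fun k => if (∀ g ∈ 𝒯 k, 𝔇.Good D d ψ x (pvgSites g) sA (t / 2)) ∧
    (∀ g ∈ 𝒯 k, 𝔇.Good D d ψ x (pvgSites g) sB (min sA (t / 2) / 2)) then (𝒯 k)ᶜ else univ, ?_, ?_⟩
  · refine Tendsto.congr' ?_ hG.prob
    filter_upwards [hkA, hkB] with k h1 h2
    rw [if_pos ⟨h1, h2⟩]
    rfl
  · intro k o ho
    beta_reduce at ho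
    by_cases hcond : (∀ g ∈ 𝒯 k, 𝔇.Good D d ψ x (pvgSites g) sA (t / 2)) ∧ (∀ g ∈ 𝒯 k, 𝔇.Good D d ψ x (pvgSites g) sB (min sA (t / 2) / 2))
    · rw [if_pos hcond] at ho
      have ho' : o ∈ 𝒯 k := not_not.1 ho
      have GA := hcond.1 o ho'
      have GB := hcond.2 o ho'
      have hok := (hG.ok k o ho').2
      obtain ⟨a₀, ha₀, hd₀⟩ := pvaj_probe_near h GB hp.1 (hnd p hp)
      have hd₀' : ‖a₀ - p‖ < min sA (t / 2) := by linarith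
      constructor
      · intro p' hp' hd
        obtain ⟨a₁, ha₁, hd₁⟩ := pvaj_probe_near h GB hp'.1 (hnd p' hp')
        refine pvaj_cmp hok GA hfar ht htρ ha₁ ha₀ ?_ hd₀'
        have : ‖a₁ - p‖ ≤ ‖a₁ - p'‖ + ‖p' - p‖ := by
          have e : a₁ - p = (a₁ - p') + (p' - p) := by ring
          rw [e]; exact norm_add_le _ _
        linarith
      · intro (e : Σ Y : Set ℂ, (𝔇 Y).D) he hd
        change e ∈ (if o ∈ 𝒯 k then 𝔇.edges (pvgSites o) else ∅) at he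
        rw [if_pos ho'] at he
        unfold PvoFam.edges at he
        rw [Finset.mem_map] at he
        obtain ⟨d', hd', rfl⟩ := he
        obtain ⟨⟨a₁, b₁, c₁, l1, l2, -⟩, -⟩ := (Finset.mem_filter.1 hd').2
        change (𝔇 (pvgSites o)).lab ((𝔇 (pvgSites o)).T.src d') = Sum.inl a₁ at l1
        change (𝔇 (pvgSites o)).lab ((𝔇 (pvgSites o)).T.tgt d') = Sum.inl b₁ at l2
        change ‖(𝔇.bulk.pos (pvgSites o) ((𝔇 (pvgSites o)).T.src d') + 𝔇.bulk.pos (pvgSites o) ((𝔇 (pvgSites o)).T.tgt d')) / 2 - p‖ < _ at hd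
        rw [pvaj_pos l1, pvaj_pos l2] at hd
        refine pvaj_cmp hok GA hfar ht htρ l1 ha₀ ?_ hd₀'
        have h3 := (GB.adj d' a₁ b₁ l1 l2).2
        have h4 : ‖a₁ - p‖ ≤ ‖a₁ - b₁‖ / 2 + ‖(a₁ + b₁) / 2 - p‖ := by
          have e : a₁ - p = (a₁ - b₁) / 2 + ((a₁ + b₁) / 2 - p) := by ring
          have e2 : ‖(a₁ - b₁) / 2‖ = ‖a₁ - b₁‖ / 2 := by rw [norm_div]; norm_num
          rw [e, ← e2]; exact norm_add_le _ _
        linarith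
    · rw [if_neg hcond] at ho
      exact absurd (mem_univ o) ho

/-! ## 6. J-ARM -/

/-- **J-ARM** (statement of `pvoj_arm`, `Obs/Sys.lean`) -/
theorem pvaj_arm {D : Set ℂ} {d : ℂ} {ψ : ℂ → ℂ} (h : PvChart D d ψ) {x : ℝ} (_hx0 : 0 < x) (_hx1 : x < 1) {a c : ℂ} (ha : a ∈ frontier D) (hc : c ∈ frontier D)
    (had : a ≠ d) (hcd : c ≠ d) (hψa : ψ a = 0) (hψc : ψ c = 1) {𝔇 : PvoFam} {εs : ℕ → ℝ} {𝒯 : ℕ → Set PvGeoT} (hG : PvoGuard 𝔇 D d ψ x εs 𝒯) :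
    PvoArm (𝔇.sys D ψ εs 𝒯) (closure D \ {a, c, d}) where
  prob k := by
    show IsProbabilityMeasure (pvGeo (εs k))
    infer_instance
  bddR _ _ _ := pvaj_F_le _ _ _
  bddF _ _ _ _ := pvaj_F_le _ _ _
  arm := pvap_arm_inst (𝔇.sys D ψ εs 𝒯) _ εs hG.pos hG.lim (fun _ => rfl) (fun _ _ _ => pvaj_F_le _ _ _) (fun _ _ _ _ => pvaj_F_le _ _ _)
    fun _ hp => pvaj_loc h ha hc had hcd hψa hψc hG hp

end Claimed.Agent.R289
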