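import Claimed.Agent.R289.Obs.Abs

/-!
# Row 289 (S0537, Cardy for Poisson-Voronoi), unit OBS, file Obs/InstCr: FROM MESH + QUAD + DISC TO THE FIELDS `var`, `out`, `lim` OF `PvoCR`      (owner helper184; prefix `pvoi_`, `Pvoi`)

MODEL FREE probabilistic glue. 0 sorry.   TEX: 08-observable.tex l.395-440 ((8.4), `μ_ε(G) → ∫ G df ∧ dz` in `L¹`, "the exceptional contribution is controlled by higher moments").

## Inputs = `PvoiIn S κ f W G`   (what the INSTANCE must give, for each test function `f`)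
* `W p r k o`  = `∑ diam(t)²` over the triangles (or darts of faces) meeting `ball p r`: measurable, `≥ 0`, `W_mom`: eventually `E W(p,r)² ≤ C r⁴`, `0 < r ≤ 1`, `C` independent of `p`, `r`      [MESH, (2.3)(iii), exponent 2, `L²`]
* `G δ k`      = good geometry at mesh `δ` (all triangles near `supp f` have diameter `< δ`, the disc contains the full triangulation near `supp f`): measurable, `P_k (G δ k)ᶜ → 0`      [MESH (2.3)(i) + DISC]
* `tv_ball`    `tv f (ball p r) ≤ C W p r`   ALWAYS      [QUAD (Q2) + `pvoi_tv_le_of_inv`]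
* `tv_univ`    `tv f univ ≤ C ∑_{p ∈ I} W p 1`  ALWAYS, `I` a finite set of centres      [(Q2) for the edges with midpoint within 1 of `supp f`;  for the others `|c_e| ≤ 2 sup|f| diam t ≤ 2 sup|f| diam(t)²`, `t` the face with barycentre in `supp f`]
* `tv_out`     on `G r k`: `tv f {z | r ≤ infDist z (tsupport f)} = 0`      [(Q3)]
* `quad`       on `G δ k`, `δ ≤ δ₀`: `‖sum1 f χ - κ ∫ χ (f_x + i f_y)‖ ≤ C δ (1 + ∑_{p ∈ I} W p 1)`      [QUAD (Q1): error `≤ C(f,χ) · mesh · ∑_{t meets supp f} diam(t)²`]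

## Exit
`pvoi_cr : PvoiIn S κ f W G → cr → PvoCR S κ f`   (no measurability: ruling 4 of 174, `E = pvoMean`);   separately `PvoiIn.var`, `PvoiIn.out`, `PvoiIn.lim`.

## Tools
`PvoiL2 P Y` (measurable + eventually bounded in `L²`): `pvoi_L2_const`, `.const_mul`, `.add`, `pvoi_L2_sum`, `.small` (small on events of vanishing probability), `.L1`;  `pvoi_cs` (Cauchy-Schwarz on an event);
`pvoi_tv_nonneg / _mono / _univ`, `pvoi_sum1_le`;  `pvoi_tv_le_of_inv` (edges = darts, `opp` an involution preserving midpoints, `‖c_d‖ ≤ C (w d + w (opp d))` ⟹ `tv A ≤ 2 C ∑_{mid d ∈ A} w d`).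
-/

set_option autoImplicit false

namespace Claimed.Agent.R289

open MeasureTheory Filter Topology Set Complex
open scoped ContDiff ENNReal

variable {Ω : Type} [MeasurableSpace Ω]

/-! ## 1. sequences bounded in `L²` -/

/-- measurable, and eventually bounded in `L²` -/
def PvoiL2 (P : ℕ → Measure Ω) (Y : ℕ → Ω → ℝ) : Prop :=
  (∀ k, Measurable (Y k)) ∧ ∃ B : ℝ, ∀ᶠ k in atTop, ∫⁻ o, ENNReal.ofReal (Y k o ^ 2) ∂P k ≤ ENNReal.ofReal B

theorem pvoi_eqns_cite : True := by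
  have := @PvoiL2.eq_1
  trivial

theorem pvoi_L2_const {P : ℕ → Measure Ω} (hP : ∀ k, IsProbabilityMeasure (P k)) (b : ℝ) : PvoiL2 P fun _ _ => b := by
  refine ⟨fun k => measurable_const, b ^ 2, Eventually.of_forall fun k => ?_⟩
  have := hP k
  simp

theorem PvoiL2.const_mul {P : ℕ → Measure Ω} {Y : ℕ → Ω → ℝ} (h : PvoiL2 P Y) (a : ℝ) : PvoiL2 P fun k o => a * Y k o := by
  obtain ⟨h1, B, h2⟩ := h
  refine ⟨fun k => (h1 k).const_mul a, a ^ 2 * B, ?_⟩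
  filter_upwards [h2] with k hk
  have e : ∀ o, ENNReal.ofReal ((a * Y k o) ^ 2) = ENNReal.ofReal (a ^ 2) * ENNReal.ofReal (Y k o ^ 2) := fun o => by
    rw [mul_pow, ENNReal.ofReal_mul (by positivity)]
  simp only [e]
  rw [lintegral_const_mul' _ _ ENNReal.ofReal_ne_top, ENNReal.ofReal_mul (by positivity)]
  exact mul_le_mul_right hk _

theorem PvoiL2.add {P : ℕ → Measure Ω} {Y Z : ℕ → Ω → ℝ} (h : PvoiL2 P Y) (h' : PvoiL2 P Z) : PvoiL2 P fun k o => Y k o + Z k o := by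
  obtain ⟨h1, B, h2⟩ := h
  obtain ⟨g1, B', g2⟩ := h'
  refine ⟨fun k => (h1 k).add (g1 k), 2 * max B 0 + 2 * max B' 0, ?_⟩
  filter_upwards [h2, g2] with k hk gk
  have e : ∀ o, ENNReal.ofReal ((Y k o + Z k o) ^ 2) ≤ 2 * ENNReal.ofReal (Y k o ^ 2) + 2 * ENNReal.ofReal (Z k o ^ 2) := fun o => by
    have e2 : (2 : ℝ≥0∞) = ENNReal.ofReal 2 := by simp
    rw [e2, ← ENNReal.ofReal_mul (by norm_num), ← ENNReal.ofReal_mul (by norm_num), ← ENNReal.ofReal_add (by positivity) (by positivity)]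
    refine ENNReal.ofReal_le_ofReal ?_
    nlinarith [sq_nonneg (Y k o - Z k o)]
  refine (lintegral_mono e).trans ?_
  rw [lintegral_add_left (((h1 k).pow_const 2).ennreal_ofReal.const_mul 2), lintegral_const_mul' _ _ (by simp),
    lintegral_const_mul' _ _ (by simp), ENNReal.ofReal_add (by positivity) (by positivity),
    ENNReal.ofReal_mul (by norm_num), ENNReal.ofReal_mul (by norm_num)]
  have e2 : ENNReal.ofReal 2 = 2 := by simp
  rw [e2]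
  exact add_le_add (mul_le_mul_right (hk.trans (ENNReal.ofReal_le_ofReal (le_max_left _ _))) _)
    (mul_le_mul_right (gk.trans (ENNReal.ofReal_le_ofReal (le_max_left _ _))) _)

theorem pvoi_L2_sum {P : ℕ → Measure Ω} (hP : ∀ k, IsProbabilityMeasure (P k)) {ι : Type*} (I : Finset ι) {Y : ι → ℕ → Ω → ℝ}
    (h : ∀ i ∈ I, PvoiL2 P (Y i)) : PvoiL2 P fun k o => ∑ i ∈ I, Y i k o := by
  classical
  induction I using Finset.induction_on with
  | empty => simpa using pvoi_L2_const hP 0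
  | insert a s ha ih =>
    have := (h a (Finset.mem_insert_self a s)).add (ih fun i hi => h i (Finset.mem_insert_of_mem hi))
    simpa [Finset.sum_insert ha] using this

/-- Cauchy-Schwarz on an event -/
theorem pvoi_cs {μ : Measure Ω} {Y : Ω → ℝ} (hY : Measurable Y) {A : Set Ω} (hA : MeasurableSet A) :
    ∫⁻ o, A.indicator (fun o => ENNReal.ofReal (Y o)) o ∂μ ≤ (∫⁻ o, ENNReal.ofReal (Y o ^ 2) ∂μ) ^ (1 / 2 : ℝ) * (μ A) ^ (1 / 2 : ℝ) := by
  have h := ENNReal.lintegral_mul_le_Lp_mul_Lq μ (Real.HolderConjugate.two_two) (f := fun o => ENNReal.ofReal (Y o))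
    (g := A.indicator fun _ => 1) hY.ennreal_ofReal.aemeasurable (measurable_const.indicator hA).aemeasurable
  have e1 : ∫⁻ o, A.indicator (fun o => ENNReal.ofReal (Y o)) o ∂μ
      = ∫⁻ a, ((fun o => ENNReal.ofReal (Y o)) * A.indicator fun _ => (1 : ℝ≥0∞)) a ∂μ := by
    refine lintegral_congr fun o => ?_
    by_cases ho : o ∈ A <;> simp [ho]
  rw [e1]
  refine h.trans (mul_le_mul' (ENNReal.rpow_le_rpow (lintegral_mono fun o => ?_) (by norm_num)) (ENNReal.rpow_le_rpow (le_of_eq ?_) (by norm_num)))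
  · rw [ENNReal.rpow_two]
    rcases le_total 0 (Y o) with h0 | h0
    · rw [ENNReal.ofReal_pow h0]
    · rw [ENNReal.ofReal_of_nonpos h0]
      simp
  · have e2 : ∀ o, (A.indicator (fun _ => (1 : ℝ≥0∞)) o) ^ (2 : ℝ) = A.indicator (fun _ => (1 : ℝ≥0∞)) o := fun o => by
      by_cases ho : o ∈ A <;> simp [ho]
    simp only [e2]
    rw [lintegral_indicator_const hA, one_mul]

/-- an `L²`-bounded sequence is small on events of vanishing probability -/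
theorem PvoiL2.small {P : ℕ → Measure Ω} {Y : ℕ → Ω → ℝ} (h : PvoiL2 P Y) {A : ℕ → Set Ω} (hA : ∀ k, MeasurableSet (A k))
    (hP : Tendsto (fun k => P k (A k)) atTop (𝓝 0)) :
    Tendsto (fun k => ∫⁻ o, (A k).indicator (fun o => ENNReal.ofReal (Y k o)) o ∂P k) atTop (𝓝 0) := by
  obtain ⟨h1, B, h2⟩ := h
  have l1 : Tendsto (fun k => (P k (A k)) ^ (1 / 2 : ℝ)) atTop (𝓝 0) := by
    have := (ENNReal.continuous_rpow_const (y := (1 / 2 : ℝ))).tendsto 0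
    rw [ENNReal.zero_rpow_of_pos (by norm_num)] at this
    exact this.comp hP
  have l2 : Tendsto (fun k => (ENNReal.ofReal B) ^ (1 / 2 : ℝ) * (P k (A k)) ^ (1 / 2 : ℝ)) atTop (𝓝 0) := by
    have := ENNReal.Tendsto.const_mul (a := (ENNReal.ofReal B) ^ (1 / 2 : ℝ)) l1
      (Or.inr (ENNReal.rpow_ne_top_of_nonneg (by norm_num) ENNReal.ofReal_ne_top))
    simpa using this
  refine tendsto_of_tendsto_of_tendsto_of_le_of_le' tendsto_const_nhds l2 (Eventually.of_forall fun k => zero_le) ?_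
  filter_upwards [h2] with k hk
  exact (pvoi_cs (h1 k) (hA k)).trans (mul_le_mul_left (ENNReal.rpow_le_rpow hk (by norm_num)) _)
/-- an `L²`-bounded sequence is bounded in `L¹` -/
theorem PvoiL2.L1 {P : ℕ → Measure Ω} (hP : ∀ k, IsProbabilityMeasure (P k)) {Y : ℕ → Ω → ℝ} (h : PvoiL2 P Y) :
    ∃ B : ℝ≥0∞, B ≠ ⊤ ∧ ∀ᶠ k in atTop, ∫⁻ o, ENNReal.ofReal (Y k o) ∂P k ≤ B := by
  obtain ⟨h1, B, h2⟩ := h
  refine ⟨(ENNReal.ofReal B) ^ (1 / 2 : ℝ), ENNReal.rpow_ne_top_of_nonneg (by norm_num) ENNReal.ofReal_ne_top, ?_⟩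
  filter_upwards [h2] with k hk
  have := hP k
  have h3 := pvoi_cs (μ := P k) (h1 k) MeasurableSet.univ
  simp only [indicator_univ, measure_univ, ENNReal.one_rpow, mul_one] at h3
  exact h3.trans (ENNReal.rpow_le_rpow hk (by norm_num))

/-! ## 2. elementary facts on `tv`, `sum1` -/

theorem pvoi_tv_nonneg (S : PvoSys Ω) (f : ℂ → ℝ) (A : Set ℂ) (k : ℕ) (o : Ω) : 0 ≤ S.tv f A k o :=
  Finset.sum_nonneg fun _ _ => norm_nonneg _

theorem pvoi_tv_mono (S : PvoSys Ω) (f : ℂ → ℝ) {A B : Set ℂ} (h : A ⊆ B) (k : ℕ) (o : Ω) : S.tv f A k o ≤ S.tv f B k o := by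
  classical
  unfold PvoSys.tv
  refine Finset.sum_le_sum_of_subset_of_nonneg (fun e he => ?_) fun _ _ _ => norm_nonneg _
  rw [Finset.mem_filter] at he ⊢
  exact ⟨he.1, h he.2⟩

theorem pvoi_tv_univ (S : PvoSys Ω) (f : ℂ → ℝ) (k : ℕ) (o : Ω) : S.tv f univ k o = ∑ e ∈ S.E k o, ‖S.c f k o e‖ := by
  classical
  unfold PvoSys.tv
  simp

theorem pvoi_sum1_le (S : PvoSys Ω) (f : ℂ → ℝ) {χ : ℂ → ℝ} {M : ℝ} (hχ : ∀ z, |χ z| ≤ M) (k : ℕ) (o : Ω) :
    ‖S.sum1 f χ k o‖ ≤ M * S.tv f univ k o := by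
  rw [pvoi_tv_univ, Finset.mul_sum]
  unfold PvoSys.sum1
  refine (norm_sum_le _ _).trans (Finset.sum_le_sum fun e _ => ?_)
  rw [norm_mul, norm_real, Real.norm_eq_abs, mul_comm]
  exact mul_le_mul_of_nonneg_right (hχ _) (norm_nonneg _)

open Classical in
/-- **summation over darts**: `σ` (= `opp`) an involution of the edge set preserving the midpoints, `‖c_d‖ ≤ C (w d + w (σ d))` -/
theorem pvoi_tv_le_of_inv (S : PvoSys Ω) (f : ℂ → ℝ) (A : Set ℂ) (k : ℕ) (o : Ω) (σ : S.Ed → S.Ed) (w : S.Ed → ℝ) {C : ℝ}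
    (hσE : ∀ e ∈ S.E k o, σ e ∈ S.E k o) (hσσ : ∀ e ∈ S.E k o, σ (σ e) = e) (hσm : ∀ e ∈ S.E k o, S.mid k o (σ e) = S.mid k o e)
    (hc : ∀ e ∈ S.E k o, ‖S.c f k o e‖ ≤ C * (w e + w (σ e))) :
    S.tv f A k o ≤ 2 * C * ∑ e ∈ (S.E k o).filter (fun e => S.mid k o e ∈ A), w e := by
  unfold PvoSys.tv
  have e1 : ∑ e ∈ (S.E k o).filter (fun e => S.mid k o e ∈ A), w (σ e) = ∑ e ∈ (S.E k o).filter (fun e => S.mid k o e ∈ A), w e := by
    refine Finset.sum_nbij' σ σ ?_ ?_ ?_ ?_ ?_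
    · intro e he
      rw [Finset.mem_filter] at he ⊢
      exact ⟨hσE e he.1, by rw [hσm e he.1]; exact he.2⟩
    · intro e he
      rw [Finset.mem_filter] at he ⊢
      exact ⟨hσE e he.1, by rw [hσm e he.1]; exact he.2⟩
    · intro e he
      exact hσσ e (Finset.mem_filter.1 he).1
    · intro e he
      exact hσσ e (Finset.mem_filter.1 he).1
    · intro e _
      rfl
  calc ∑ e ∈ (S.E k o).filter (fun e => S.mid k o e ∈ A), ‖S.c f k o e‖
      ≤ ∑ e ∈ (S.E k o).filter (fun e => S.mid k o e ∈ A), C * (w e + w (σ e)) :=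
        Finset.sum_le_sum fun e he => hc e (Finset.mem_filter.1 he).1
    _ = 2 * C * ∑ e ∈ (S.E k o).filter (fun e => S.mid k o e ∈ A), w e := by
        rw [← Finset.mul_sum, Finset.sum_add_distrib, e1]
        ring

/-! ## 2b. countable infimum of majorants (helper174) -/

/-- running minimum -/
def pvoiMin (g : ℕ → Ω → ℝ) : ℕ → Ω → ℝ
  | 0 => g 0
  | n + 1 => fun o => min (pvoiMin g n o) (g (n + 1) o)

theorem pvoi_min_eqns_cite : True := by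
  have := @pvoiMin.eq_1
  trivial

theorem pvoi_min_meas {g : ℕ → Ω → ℝ} (hg : ∀ n, Measurable (g n)) : ∀ n, Measurable (pvoiMin g n)
  | 0 => hg 0
  | n + 1 => (pvoi_min_meas hg n).min (hg (n + 1))

theorem pvoi_min_le (g : ℕ → Ω → ℝ) (o : Ω) {n : ℕ} : ∀ m, n ≤ m → pvoiMin g m o ≤ g n o
  | 0, h => by
    obtain rfl : n = 0 := Nat.le_zero.1 h
    exact le_rfl
  | m + 1, h => by
    rcases Nat.lt_or_ge n (m + 1) with h1 | h1
    · exact (min_le_left _ _).trans (pvoi_min_le g o m (Nat.lt_succ_iff.1 h1))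
    · obtain rfl : n = m + 1 := le_antisymm h h1
      exact min_le_right _ _

theorem pvoi_le_min {g : ℕ → Ω → ℝ} {o : Ω} {u : ℝ} (h : ∀ n, u ≤ g n o) : ∀ m, u ≤ pvoiMin g m o
  | 0 => h 0
  | m + 1 => le_min (pvoi_le_min h m) (h (m + 1))

/-- majorants which are small up to `ε`, for every `ε`, give ONE sequence of majorants tending to `0` in `L¹` -/
theorem pvoi_diag {P : ℕ → Measure Ω} {u : ℕ → Ω → ℝ}
    (h : ∀ ε : ℝ≥0∞, 0 < ε → ∃ G : ℕ → Ω → ℝ, (∀ k, Measurable (G k)) ∧ (∀ k o, u k o ≤ G k o) ∧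
      ∀ᶠ k in atTop, ∫⁻ o, ENNReal.ofReal (G k o) ∂P k ≤ ε) :
    ∃ G : ℕ → Ω → ℝ, (∀ k, Measurable (G k)) ∧ (∀ k o, u k o ≤ G k o) ∧
      Tendsto (fun k => ∫⁻ o, ENNReal.ofReal (G k o) ∂P k) atTop (𝓝 0) := by
  have h' : ∀ n : ℕ, ∃ G : ℕ → Ω → ℝ, (∀ k, Measurable (G k)) ∧ (∀ k o, u k o ≤ G k o) ∧
      ∀ᶠ k in atTop, ∫⁻ o, ENNReal.ofReal (G k o) ∂P k ≤ ((n : ℝ≥0∞))⁻¹ := fun n =>
    h _ (ENNReal.inv_pos.2 (ENNReal.natCast_ne_top n))
  choose Gn g1 g2 g3 using h'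
  refine ⟨fun k => pvoiMin (fun n => Gn n k) k, fun k => pvoi_min_meas (fun n => g1 n k) k,
    fun k o => pvoi_le_min (fun n => g2 n k o) k, ?_⟩
  rw [ENNReal.tendsto_nhds_zero]
  intro ε hε
  obtain ⟨n, hn⟩ := ENNReal.exists_inv_nat_lt hε.ne'
  filter_upwards [g3 n, eventually_ge_atTop n] with k hk hkn
  refine (lintegral_mono fun o => ENNReal.ofReal_le_ofReal ?_).trans (hk.trans hn.le)
  exact pvoi_min_le (fun n => Gn n k) o k hkn

/-! ## 3. the inputs and the exit -/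

/-- **the inputs**: `W p r k o = ∑ diam(t)²` over the triangles meeting `ball p r`  (MESH);  `G δ k` = good geometry at mesh `δ` (MESH + DISC);  the four deterministic facts of QUAD. -/
structure PvoiIn (S : PvoSys Ω) (κ : ℂ) (f : ℂ → ℝ) (W : ℂ → ℝ → ℕ → Ω → ℝ) (G : ℝ → ℕ → Set Ω) : Prop where
  prob : ∀ k, IsProbabilityMeasure (S.P k)
  W_meas : ∀ p r k, Measurable (W p r k)
  W_nonneg : ∀ p r k o, 0 ≤ W p r k o
  /-- (2.3)(iii) with `k = 2`, `p = 2` -/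
  W_mom : ∃ C : ℝ, ∀ (p : ℂ) (r : ℝ), 0 < r → r ≤ 1 →
    ∀ᶠ k in atTop, ∫⁻ o, ENNReal.ofReal (W p r k o ^ 2) ∂S.P k ≤ ENNReal.ofReal (C * r ^ 4)
  G_meas : ∀ δ k, MeasurableSet (G δ k)
  G_prob : ∀ δ : ℝ, 0 < δ → Tendsto (fun k => S.P k (G δ k)ᶜ) atTop (𝓝 0)
  /-- (Q2) -/
  tv_ball : ∃ C : ℝ, ∀ (p : ℂ) (r : ℝ), 0 < r → r ≤ 1 → ∀ k o, S.tv f (Metric.ball p r) k o ≤ C * W p r k o
  /-- (Q2) + (Q3): the whole variation sits on the triangles meeting finitely many unit balls -/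
  tv_univ : ∃ (C : ℝ) (I : Finset ℂ), ∀ k o, S.tv f univ k o ≤ C * ∑ p ∈ I, W p 1 k o
  /-- (Q3): at mesh `< r` no weight at distance `≥ r` of the support -/
  tv_out : ∀ r : ℝ, 0 < r → ∀ k, ∀ o ∈ G r k, S.tv f {z | r ≤ Metric.infDist z (tsupport f)} k o = 0
  /-- (Q1) -/
  quad : ∀ χ : ℂ → ℝ, ContDiff ℝ ∞ χ → HasCompactSupport χ → ∃ (C δ₀ : ℝ) (I : Finset ℂ), 0 < δ₀ ∧ ∀ δ : ℝ, 0 < δ → δ ≤ δ₀ → ∀ k, ∀ o ∈ G δ k,
    ‖S.sum1 f χ k o - κ * ∫ z, (χ z : ℂ) * pvoH f z‖ ≤ C * δ * (1 + ∑ p ∈ I, W p 1 k o)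

variable {S : PvoSys Ω} {κ : ℂ} {f : ℂ → ℝ} {W : ℂ → ℝ → ℕ → Ω → ℝ} {G : ℝ → ℕ → Set Ω}

theorem PvoiIn.W_L2 (h : PvoiIn S κ f W G) (p : ℂ) : PvoiL2 S.P (W p 1) := by
  obtain ⟨C, hC⟩ := h.W_mom
  exact ⟨h.W_meas p 1, C * 1 ^ 4, hC p 1 one_pos le_rfl⟩

theorem PvoiIn.var (h : PvoiIn S κ f W G) : ∃ C : ℝ, ∀ (p : ℂ) (r : ℝ), 0 < r → r ≤ 1 → ∃ T : ℕ → Ω → ℝ, (∀ k, Measurable (T k)) ∧
    (∀ k o, S.tv f (Metric.ball p r) k o ≤ T k o) ∧
    ∀ᶠ k in atTop, ∫⁻ o, ENNReal.ofReal (T k o ^ 2) ∂S.P k ≤ ENNReal.ofReal (C * r ^ 4) := by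
  obtain ⟨C, hC⟩ := h.W_mom
  obtain ⟨C', hC'⟩ := h.tv_ball
  refine ⟨C' ^ 2 * C, fun p r hr hr1 => ⟨fun k o => C' * W p r k o, fun k => (h.W_meas p r k).const_mul _, hC' p r hr hr1, ?_⟩⟩
  filter_upwards [hC p r hr hr1] with k hk
  have e : ∀ o, ENNReal.ofReal ((C' * W p r k o) ^ 2) = ENNReal.ofReal (C' ^ 2) * ENNReal.ofReal (W p r k o ^ 2) := fun o => by
    rw [mul_pow, ENNReal.ofReal_mul (by positivity)]
  simp only [e]
  rw [lintegral_const_mul' _ _ ENNReal.ofReal_ne_top, mul_assoc, ENNReal.ofReal_mul (by positivity)]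
  exact mul_le_mul_right hk _

theorem PvoiIn.out (h : PvoiIn S κ f W G) : ∀ r : ℝ, 0 < r → ∃ T : ℕ → Ω → ℝ, (∀ k, Measurable (T k)) ∧
    (∀ k o, S.tv f {z | r ≤ Metric.infDist z (tsupport f)} k o ≤ T k o) ∧
    Tendsto (fun k => ∫⁻ o, ENNReal.ofReal (T k o) ∂S.P k) atTop (𝓝 0) := by
  intro r hr
  obtain ⟨C, I, hI⟩ := h.tv_univ
  have hL : PvoiL2 S.P fun k o => C * ∑ p ∈ I, W p 1 k o := (pvoi_L2_sum h.prob I fun p _ => h.W_L2 p).const_mul C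
  refine ⟨fun k => (G r k)ᶜ.indicator fun o => C * ∑ p ∈ I, W p 1 k o, fun k => (hL.1 k).indicator (h.G_meas r k).compl,
    fun k o => ?_, ?_⟩
  · show _ ≤ (G r k)ᶜ.indicator (fun o => C * ∑ p ∈ I, W p 1 k o) o
    by_cases ho : o ∈ G r k
    · rw [h.tv_out r hr k o ho, indicator_of_notMem (show o ∉ (G r k)ᶜ from fun hn => hn ho)]
    · rw [indicator_of_mem (show o ∈ (G r k)ᶜ from ho)]
      exact (pvoi_tv_mono S f (subset_univ _) k o).trans (hI k o)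
  · have := hL.small (fun k => (h.G_meas r k).compl) (h.G_prob r hr)
    refine this.congr fun k => lintegral_congr fun o => ?_
    show _ = ENNReal.ofReal ((G r k)ᶜ.indicator (fun o => C * ∑ p ∈ I, W p 1 k o) o)
    by_cases ho : o ∈ (G r k)ᶜ
    · rw [indicator_of_mem ho, indicator_of_mem ho]
    · rw [indicator_of_notMem ho, indicator_of_notMem ho]
      simp

theorem PvoiIn.lim (h : PvoiIn S κ f W G) : ∀ χ : ℂ → ℝ, ContDiff ℝ ∞ χ → HasCompactSupport χ → ∃ Gm : ℕ → Ω → ℝ, (∀ k, Measurable (Gm k)) ∧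
    (∀ k o, ‖S.sum1 f χ k o - κ * ∫ z, (χ z : ℂ) * pvoH f z‖ ≤ Gm k o) ∧
    Tendsto (fun k => ∫⁻ o, ENNReal.ofReal (Gm k o) ∂S.P k) atTop (𝓝 0) := by
  intro χ hχ hχc
  refine pvoi_diag ?_
  obtain ⟨C, I, hI⟩ := h.tv_univ
  obtain ⟨Cq, δ₀, Iq, hδ₀, hq⟩ := h.quad χ hχ hχc
  obtain ⟨M, hM⟩ := hχc.exists_bound_of_continuous hχ.continuous
  have hM0 : 0 ≤ M := (norm_nonneg _).trans (hM 0)
  obtain ⟨L, hLdef⟩ : ∃ L : ℂ, L = κ * ∫ z, (χ z : ℂ) * pvoH f z := ⟨_, rfl⟩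
  rw [← hLdef] at hq ⊢
  have hL : PvoiL2 S.P fun k o => M * (C * ∑ p ∈ I, W p 1 k o) + ‖L‖ :=
    (((pvoi_L2_sum h.prob I fun p _ => h.W_L2 p).const_mul C).const_mul M).add (pvoi_L2_const h.prob ‖L‖)
  have hmaj : ∀ k o, ‖S.sum1 f χ k o - L‖ ≤ M * (C * ∑ p ∈ I, W p 1 k o) + ‖L‖ := fun k o =>
    (norm_sub_le _ _).trans (add_le_add ((pvoi_sum1_le S f hM k o).trans (mul_le_mul_of_nonneg_left (hI k o) hM0)) le_rfl)
  have hY : PvoiL2 S.P fun k o => 1 + ∑ p ∈ Iq, W p 1 k o :=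
    (pvoi_L2_const h.prob 1).add (pvoi_L2_sum h.prob Iq fun p _ => h.W_L2 p)
  obtain ⟨B, hB, hYB⟩ := hY.L1 h.prob
  intro ε hε
  -- choose the mesh
  obtain ⟨δ, hδ, hδ0, hδε⟩ : ∃ δ : ℝ, 0 < δ ∧ δ ≤ δ₀ ∧ ENNReal.ofReal (|Cq| * δ) * B ≤ ε / 2 := by
    have l1 : Tendsto (fun δ : ℝ => ENNReal.ofReal (|Cq| * δ) * B) (𝓝[>] 0) (𝓝 0) := by
      have : Tendsto (fun δ : ℝ => |Cq| * δ) (𝓝[>] 0) (𝓝 (|Cq| * 0)) := (tendsto_id.const_mul |Cq|).mono_left nhdsWithin_le_nhds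
      rw [mul_zero] at this
      have h2 := (ENNReal.continuous_ofReal.tendsto 0).comp this
      rw [ENNReal.ofReal_zero] at h2
      have h3 := ENNReal.Tendsto.mul_const (b := B) h2 (Or.inr hB)
      rw [zero_mul] at h3
      exact h3
    have e1 := (ENNReal.tendsto_nhds_zero.1 l1) (ε / 2) (ENNReal.half_pos hε.ne')
    have e2 : ∀ᶠ δ : ℝ in 𝓝[>] 0, δ ≤ δ₀ := by
      filter_upwards [Ioc_mem_nhdsGT hδ₀] with δ hδ using hδ.2
    obtain ⟨δ, h1, h2, h3⟩ := (e1.and (e2.and self_mem_nhdsWithin)).exists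
    exact ⟨δ, h3, h2, h1⟩
  have l2 := (ENNReal.tendsto_nhds_zero.1 (hL.small (fun k => (h.G_meas δ k).compl) (h.G_prob δ hδ))) (ε / 2) (ENNReal.half_pos hε.ne')
  have h0 : ∀ k o, 0 ≤ 1 + ∑ p ∈ Iq, W p 1 k o := fun k o => add_nonneg zero_le_one (Finset.sum_nonneg fun p _ => h.W_nonneg p 1 k o)
  have hL0 : ∀ k o, 0 ≤ M * (C * ∑ p ∈ I, W p 1 k o) + ‖L‖ := fun k o => (norm_nonneg _).trans (hmaj k o)
  refine ⟨fun k o => |Cq| * δ * (1 + ∑ p ∈ Iq, W p 1 k o) + (G δ k)ᶜ.indicator (fun o => M * (C * ∑ p ∈ I, W p 1 k o) + ‖L‖) o,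
    fun k => ((hY.1 k).const_mul _).add ((hL.1 k).indicator (h.G_meas δ k).compl), fun k o => ?_, ?_⟩
  · show _ ≤ |Cq| * δ * (1 + ∑ p ∈ Iq, W p 1 k o) + (G δ k)ᶜ.indicator (fun o => M * (C * ∑ p ∈ I, W p 1 k o) + ‖L‖) o
    by_cases ho : o ∈ G δ k
    · rw [indicator_of_notMem (show o ∉ (G δ k)ᶜ from fun hn => hn ho), add_zero]
      refine (hq δ hδ hδ0 k o ho).trans ?_
      exact mul_le_mul_of_nonneg_right (mul_le_mul_of_nonneg_right (le_abs_self Cq) hδ.le) (h0 k o)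
    · rw [indicator_of_mem (show o ∈ (G δ k)ᶜ from ho)]
      exact (hmaj k o).trans (le_add_of_nonneg_left (mul_nonneg (by positivity) (h0 k o)))
  filter_upwards [l2, hYB] with k hk hkB
  have := h.prob k
  calc ∫⁻ o, ENNReal.ofReal (|Cq| * δ * (1 + ∑ p ∈ Iq, W p 1 k o) + (G δ k)ᶜ.indicator (fun o => M * (C * ∑ p ∈ I, W p 1 k o) + ‖L‖) o) ∂S.P k
      ≤ ∫⁻ o, (ENNReal.ofReal (|Cq| * δ) * ENNReal.ofReal (1 + ∑ p ∈ Iq, W p 1 k o) + (G δ k)ᶜ.indicator (fun o => ENNReal.ofReal (M * (C * ∑ p ∈ I, W p 1 k o) + ‖L‖)) o) ∂S.P k := by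
        refine lintegral_mono fun o => ?_
        refine ENNReal.ofReal_add_le.trans (add_le_add ?_ ?_)
        · rw [← ENNReal.ofReal_mul (by positivity)]
        · by_cases ho : o ∈ (G δ k)ᶜ
          · rw [indicator_of_mem ho, indicator_of_mem ho]
          · rw [indicator_of_notMem ho, indicator_of_notMem ho]
            simp
    _ = ENNReal.ofReal (|Cq| * δ) * ∫⁻ o, ENNReal.ofReal (1 + ∑ p ∈ Iq, W p 1 k o) ∂S.P k
          + ∫⁻ o, (G δ k)ᶜ.indicator (fun o => ENNReal.ofReal (M * (C * ∑ p ∈ I, W p 1 k o) + ‖L‖)) o ∂S.P k := by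
        rw [lintegral_add_left ((hY.1 k).ennreal_ofReal.const_mul _), lintegral_const_mul' _ _ ENNReal.ofReal_ne_top]
    _ ≤ ε / 2 + ε / 2 := add_le_add ((mul_le_mul_right hkB _).trans hδε) hk
    _ = ε := ENNReal.add_halves ε

/-- **EXIT**: the package `PvoCR` from MESH + QUAD + DISC (fields `var`, `out`, `lim`) and the discrete Cauchy-Riemann relation (8.3) -/
theorem pvoi_cr (h : PvoiIn S κ f W G)
    (cr : Tendsto (fun k => pvoMean (S.P k) (S.sumF f (fun _ => 1) k)) atTop (𝓝 0)) : PvoCR S κ f :=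
  ⟨h.var, h.out, h.lim, cr⟩

end Claimed.Agent.R289
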