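-- KEEP
import Claimed.Agent.R289.Del.Area
import Claimed.Agent.R289.Obs.InstCr

/-!
# Row 289 (S0537, Cardy for Poisson-Voronoi), unit OBS, file Obs/Quad: DETERMINISTIC QUADRATURE ON A FINITE FAMILY OF TRIANGLES      (owner helper199; prefix `pvqd_`, `Pvqd`, `pvqd*`)

0 sorry.   TEX: 08-observable.tex l.375-415 (the weights `d_{t,e} (f(z_t) - f(z_t'))`, (8.4), "midpoint integration on clockwise triangle boundaries"), 01-fields.tex l.192 (`z_t` barycentre, `d_{tj}` clockwise).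
No probability, no Voronoi.   Vocabulary of Del/Area (`delT`, `delTo`, `delBar`, `vorDet`) and `pvoH f = f_x + i f_y` of Obs/Abs.

## Triangles = triples `t = (a, b, c) : ℂ × ℂ × ℂ`, counterclockwise (`0 < pvqdDet t`)
`pvqdT t` closed triangle, `pvqdBar t = z_t`, `pvqdDm t` longest side, `pvqdRot t = (b, c, a)`;   the triple is also the DART `a → b` with its face on the left: `pvqdMid t = (a + b)/2`, `pvqdD t = a - b` (CLOCKWISE side vector);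
`pvqdCt χ t = ∑_j d_{tj} χ(m_j(t))`,   `pvqdW f χ t = f(z_t) d χ(m)`.
`PvqdC2 f M L A`: `|f| ≤ M`, `‖Df‖ ≤ L`, `Df` is `A`-Lipschitz   (`pvqd_c2_of_smooth`).

## Results
* `pvqd_tri`        `‖pvqdCt χ t + Area(t) i (χ_x + i χ_y)(z_t)‖ ≤ 3 A diam³`
* `pvqd_core`       `‖∑_t f(z_t) pvqdCt χ t + i ∑_t ∫_t f (χ_x + i χ_y)‖ ≤ (4 M A' + L L') δ ∑_t diam²`      NO tiling hypothesis
* `pvqd_mult`, `pvqd_mult_one`, `pvqd_mult_three`      a.e. multiplicity `m` ⟹ `∑_t ∫_t g = m ∫ g`;   disjoint interiors + covering ⟹ multiplicity 1 (one name per triangle) or 3 (all rotations, the form of `delp_tile_disj`)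
* `pvqd_parts`      `∫ f (χ_x + i χ_y) = - ∫ χ (f_x + i f_y)`
* **Q1** `pvqd_q1` (triangles, multiplicity `m`), `pvqd_q1_dart` (family closed under rotation):   `‖∑_t pvqdW f χ t - i ∫ χ pvoH f‖ ≤ C δ ∑ diam² / 3`.      So `κ = + i` per EDGE with the clockwise convention of the paper (`μ = df ∧ dz = i (f_x + i f_y) d²z`).
* dart systems `PvqdOk E tr op` (`E` = darts, BOTH orientations of every bulk edge; `tr e` = face on the left; `op` = opposite dart), weight `pvqdC f tr op e = d (f(z_t) - f(z_t'))`, `pvqdS2 E tr B = ∑ diam²` over the darts whose face meets `B`: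
  **Q2** `PvqdOk.C_le`, `.C_le'`;   **Q3** `pvqd_C_ne`;   `.tv_le` (variation in `B` `≤ 2 L S2(B)`), `.tv_univ` (`≤ 2 (L + 2 M) S2(thickening 1 supp f)`, ALWAYS), `.tv_out`;   `.sum1`, **`.quad`** (on `PvqdGood E tr (tsupport f) δ`, `κ = 2 i`)
* **EXIT** `pvqd_in : PvqdDict S f tr op → … → PvoiIn S (2 * I) f W G`      (record of helper184, Obs/InstCr; then `pvoi_cr` gives `PvoCR`).
  The INSTANCE has to give: the dictionary (`S.mid = pvqdMid ∘ tr`, `S.c f = pvqdC f tr op`, `PvqdOk`), a measurable majorant `W p r ≥ pvqdS2 E tr (ball p r)` with the moment bound (MESH), and events `G δ k` of probability `→ 1` on which `PvqdGood` holds (MESH + DISC + `delp_tile_cover/_disj`).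
-/

set_option autoImplicit false

namespace Claimed.Agent.R289

open MeasureTheory Filter Topology Set Complex
open scoped ContDiff ENNReal

/-! ## 0. vocabulary -/

/-- the determinant of a triple (twice the signed area) -/
def pvqdDet (t : ℂ × ℂ × ℂ) : ℝ := vorDet t.1 t.2.1 t.2.2

/-- the closed triangle of a triple -/
def pvqdT (t : ℂ × ℂ × ℂ) : Set ℂ := delT t.1 t.2.1 t.2.2

/-- the barycentre `z_t` -/
noncomputable def pvqdBar (t : ℂ × ℂ × ℂ) : ℂ := delBar t.1 t.2.1 t.2.2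

/-- the longest side = the diameter -/
noncomputable def pvqdDm (t : ℂ × ℂ × ℂ) : ℝ := max ‖t.2.1 - t.1‖ (max ‖t.2.2 - t.2.1‖ ‖t.1 - t.2.2‖)

/-- the midpoint of the first side -/
noncomputable def pvqdMid (t : ℂ × ℂ × ℂ) : ℂ := (t.1 + t.2.1) / 2

/-- the CLOCKWISE side vector of the first side (`a b c` is counterclockwise, so the side `a b` is run from `b` to `a`) -/
def pvqdD (t : ℂ × ℂ × ℂ) : ℂ := t.1 - t.2.1

/-- rotation of the names of the vertices -/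
def pvqdRot (t : ℂ × ℂ × ℂ) : ℂ × ℂ × ℂ := (t.2.1, t.2.2, t.1)

/-- the clockwise midpoint contour sum `∑_j d_{tj} χ(m_j(t))` -/
noncomputable def pvqdCt (χ : ℂ → ℝ) (t : ℂ × ℂ × ℂ) : ℂ :=
  pvqdD t * (χ (pvqdMid t) : ℂ) + pvqdD (pvqdRot t) * (χ (pvqdMid (pvqdRot t)) : ℂ)
    + pvqdD (pvqdRot (pvqdRot t)) * (χ (pvqdMid (pvqdRot (pvqdRot t))) : ℂ)

/-- `|f| ≤ M`, `f` is `L`-Lipschitz, `Df` is `A`-Lipschitz -/
structure PvqdC2 (f : ℂ → ℝ) (M L A : ℝ) : Prop where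
  M0 : 0 ≤ M
  L0 : 0 ≤ L
  A0 : 0 ≤ A
  diff : Differentiable ℝ f
  bd : ∀ z, |f z| ≤ M
  d1 : ∀ z, ‖fderiv ℝ f z‖ ≤ L
  d2 : ∀ z w, ‖fderiv ℝ f z - fderiv ℝ f w‖ ≤ A * ‖z - w‖

theorem pvqd_eqns_cite : True := by
  have := @pvqdDet.eq_1
  have := @pvqdT.eq_1
  have := @pvqdBar.eq_1
  have := @pvqdDm.eq_1
  have := @pvqdMid.eq_1
  have := @pvqdD.eq_1
  have := @pvqdRot.eq_1
  have := @pvqdCt.eq_1
  trivial

/-! ## 1. smooth functions with compact support -/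

theorem pvqd_c2_of_contDiff {f : ℂ → ℝ} (hf : ContDiff ℝ 2 f) (hc : HasCompactSupport f) : ∃ M L A, PvqdC2 f M L A := by
  have hf1 : ContDiff ℝ 1 (fderiv ℝ f) := hf.fderiv_right (m := 1) (by norm_num)
  obtain ⟨M, hM⟩ := hf.continuous.bounded_above_of_compact_support hc
  obtain ⟨L, hL⟩ := hf1.continuous.bounded_above_of_compact_support (hc.fderiv ℝ)
  obtain ⟨A, hA⟩ := (hf1.continuous_fderiv (by norm_num)).bounded_above_of_compact_support ((hc.fderiv ℝ).fderiv ℝ)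
  refine ⟨M, L, A, (norm_nonneg _).trans (hM 0), (norm_nonneg _).trans (hL 0), (norm_nonneg _).trans (hA 0),
    hf.differentiable (by norm_num), fun z => hM z, hL, fun z w => ?_⟩
  exact Convex.norm_image_sub_le_of_norm_fderiv_le (𝕜 := ℝ) (fun x _ => (hf1.differentiable (by norm_num)) x) (fun x _ => hA x) convex_univ
    (mem_univ w) (mem_univ z)

theorem pvqd_c2_of_smooth {f : ℂ → ℝ} (hf : ContDiff ℝ ∞ f) (hc : HasCompactSupport f) : ∃ M L A, PvqdC2 f M L A :=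
  pvqd_c2_of_contDiff (contDiff_infty.1 hf 2) hc

namespace PvqdC2

variable {f : ℂ → ℝ} {M L A : ℝ}

theorem lip (h : PvqdC2 f M L A) (z w : ℂ) : |f z - f w| ≤ L * ‖z - w‖ := by
  have := Convex.norm_image_sub_le_of_norm_fderiv_le (𝕜 := ℝ) (fun x _ => h.diff x) (fun x _ => h.d1 x) convex_univ (mem_univ w) (mem_univ z)
  rwa [Real.norm_eq_abs] at this

theorem cont (h : PvqdC2 f M L A) : Continuous f := h.diff.continuous

theorem cont_fderiv (h : PvqdC2 f M L A) : Continuous (fderiv ℝ f) := by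
  have : LipschitzWith A.toNNReal (fderiv ℝ f) := LipschitzWith.of_dist_le_mul fun x y => by
    rw [dist_eq_norm, dist_eq_norm, Real.coe_toNNReal A h.A0]; exact h.d2 x y
  exact this.continuous

/-- Taylor's inequality of order two -/
theorem taylor (h : PvqdC2 f M L A) (z w : ℂ) : |f w - f z - fderiv ℝ f z (w - z)| ≤ A * ‖w - z‖ ^ 2 := by
  set g : ℂ → ℝ := fun x => f x - fderiv ℝ f z (x - z) with hg
  have hd : ∀ x, HasFDerivAt g (fderiv ℝ f x - fderiv ℝ f z) x := fun x => by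
    have h1 := (h.diff x).hasFDerivAt
    have h2 : HasFDerivAt (fun x => fderiv ℝ f z (x - z)) (fderiv ℝ f z) x :=
      (fderiv ℝ f z).hasFDerivAt.comp x ((hasFDerivAt_id x).sub_const z)
    exact h1.sub h2
  have hb : ∀ x ∈ Metric.closedBall z ‖w - z‖, ‖fderiv ℝ f x - fderiv ℝ f z‖ ≤ A * ‖w - z‖ := fun x hx => by
    refine (h.d2 x z).trans (mul_le_mul_of_nonneg_left ?_ h.A0)
    rwa [Metric.mem_closedBall, dist_eq_norm] at hx
  have := Convex.norm_image_sub_le_of_norm_hasFDerivWithin_le (fun x _ => (hd x).hasFDerivWithinAt) hb (convex_closedBall z ‖w - z‖)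
    (Metric.mem_closedBall_self (norm_nonneg _)) (by rw [Metric.mem_closedBall, dist_eq_norm] : w ∈ Metric.closedBall z ‖w - z‖)
  rw [Real.norm_eq_abs] at this
  have e : g w - g z = f w - f z - fderiv ℝ f z (w - z) := by simp [hg]; ring
  rw [e] at this
  calc _ ≤ A * ‖w - z‖ * ‖w - z‖ := this
    _ = _ := by ring

theorem H_le (h : PvqdC2 f M L A) (z : ℂ) : ‖pvoH f z‖ ≤ 2 * L := by
  have h1 : |fderiv ℝ f z 1| ≤ L := by
    have := (fderiv ℝ f z).le_opNorm 1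
    rw [norm_one, mul_one, Real.norm_eq_abs] at this
    exact this.trans (h.d1 z)
  have h2 : |fderiv ℝ f z I| ≤ L := by
    have := (fderiv ℝ f z).le_opNorm I
    rw [norm_I, mul_one, Real.norm_eq_abs] at this
    exact this.trans (h.d1 z)
  unfold pvoH
  calc _ ≤ ‖((fderiv ℝ f z 1 : ℝ) : ℂ)‖ + ‖I * ((fderiv ℝ f z I : ℝ) : ℂ)‖ := norm_add_le _ _
    _ = |fderiv ℝ f z 1| + |fderiv ℝ f z I| := by rw [norm_mul, norm_I, one_mul, norm_real, norm_real, Real.norm_eq_abs, Real.norm_eq_abs]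
    _ ≤ 2 * L := by linarith

theorem H_lip (h : PvqdC2 f M L A) (z w : ℂ) : ‖pvoH f z - pvoH f w‖ ≤ 2 * A * ‖z - w‖ := by
  have h1 : |fderiv ℝ f z 1 - fderiv ℝ f w 1| ≤ A * ‖z - w‖ := by
    have := (fderiv ℝ f z - fderiv ℝ f w).le_opNorm 1
    rw [norm_one, mul_one, Real.norm_eq_abs, sub_apply] at this
    exact this.trans (h.d2 z w)
  have h2 : |fderiv ℝ f z I - fderiv ℝ f w I| ≤ A * ‖z - w‖ := by
    have := (fderiv ℝ f z - fderiv ℝ f w).le_opNorm I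
    rw [norm_I, mul_one, Real.norm_eq_abs, sub_apply] at this
    exact this.trans (h.d2 z w)
  have e : pvoH f z - pvoH f w = ((fderiv ℝ f z 1 - fderiv ℝ f w 1 : ℝ) : ℂ) + I * ((fderiv ℝ f z I - fderiv ℝ f w I : ℝ) : ℂ) := by
    unfold pvoH; push_cast; ring
  rw [e]
  calc _ ≤ ‖((fderiv ℝ f z 1 - fderiv ℝ f w 1 : ℝ) : ℂ)‖ + ‖I * ((fderiv ℝ f z I - fderiv ℝ f w I : ℝ) : ℂ)‖ := norm_add_le _ _
    _ = |fderiv ℝ f z 1 - fderiv ℝ f w 1| + |fderiv ℝ f z I - fderiv ℝ f w I| := by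
        rw [norm_mul, norm_I, one_mul, norm_real, norm_real, Real.norm_eq_abs, Real.norm_eq_abs]
    _ ≤ 2 * A * ‖z - w‖ := by linarith

theorem H_cont (h : PvqdC2 f M L A) : Continuous (pvoH f) := by
  have : LipschitzWith (2 * A).toNNReal (pvoH f) := LipschitzWith.of_dist_le_mul fun x y => by
    rw [dist_eq_norm, dist_eq_norm, Real.coe_toNNReal (2 * A) (by linarith [h.A0])]; exact h.H_lip x y
  exact this.continuous

end PvqdC2

/-! ## 2. one triangle -/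

section tri

variable {t : ℂ × ℂ × ℂ}

theorem pvqd_dm_nonneg (t : ℂ × ℂ × ℂ) : 0 ≤ pvqdDm t := (norm_nonneg _).trans (le_max_left _ _)

theorem pvqd_side1 (t : ℂ × ℂ × ℂ) : ‖t.2.1 - t.1‖ ≤ pvqdDm t := le_max_left _ _

theorem pvqd_side2 (t : ℂ × ℂ × ℂ) : ‖t.2.2 - t.2.1‖ ≤ pvqdDm t := (le_max_left _ _).trans (le_max_right _ _)

theorem pvqd_side3 (t : ℂ × ℂ × ℂ) : ‖t.1 - t.2.2‖ ≤ pvqdDm t := (le_max_right _ _).trans (le_max_right _ _)

theorem pvqd_D_le (t : ℂ × ℂ × ℂ) : ‖pvqdD t‖ ≤ pvqdDm t := by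
  unfold pvqdD; rw [norm_sub_rev]; exact pvqd_side1 t

theorem pvqd_rot3 (t : ℂ × ℂ × ℂ) : pvqdRot (pvqdRot (pvqdRot t)) = t := rfl

theorem pvqd_rot_inj : Function.Injective pvqdRot := fun s t h => by
  have := congrArg (fun u => pvqdRot (pvqdRot u)) h
  simpa only [pvqd_rot3] using this

theorem pvqd_det_rot (t : ℂ × ℂ × ℂ) : pvqdDet (pvqdRot t) = pvqdDet t := by
  simp only [pvqdDet, pvqdRot, vorDet]; ring

theorem pvqd_T_rot (t : ℂ × ℂ × ℂ) : pvqdT (pvqdRot t) = pvqdT t := dela_cyc _ _ _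

theorem pvqd_bar_rot (t : ℂ × ℂ × ℂ) : pvqdBar (pvqdRot t) = pvqdBar t := by
  simp only [pvqdBar, pvqdRot, delBar]; ring

theorem pvqd_dm_rot (t : ℂ × ℂ × ℂ) : pvqdDm (pvqdRot t) = pvqdDm t := by
  simp only [pvqdDm, pvqdRot]
  rw [max_comm ‖t.2.1 - t.1‖, max_assoc]

theorem pvqd_ct_rot (χ : ℂ → ℝ) (t : ℂ × ℂ × ℂ) : pvqdCt χ (pvqdRot t) = pvqdCt χ t := by
  simp only [pvqdCt, pvqd_rot3]; ring

theorem pvqd_dist_le (ht : 0 < pvqdDet t) {x y : ℂ} (hx : x ∈ pvqdT t) (hy : y ∈ pvqdT t) : ‖x - y‖ ≤ pvqdDm t :=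
  dela_dist_le_side ht (by rw [norm_sub_rev]; exact pvqd_side1 t) (by rw [norm_sub_rev]; exact pvqd_side2 t)
    (by rw [norm_sub_rev]; exact pvqd_side3 t) hx hy

theorem pvqd_det_le (t : ℂ × ℂ × ℂ) : pvqdDet t ≤ pvqdDm t ^ 2 := by
  refine (dela_det_le _ _ _).trans ?_
  rw [sq]
  exact mul_le_mul (pvqd_side1 t) (by rw [norm_sub_rev]; exact pvqd_side3 t) (norm_nonneg _) (pvqd_dm_nonneg t)

theorem pvqd_bar_mem (ht : 0 < pvqdDet t) : pvqdBar t ∈ pvqdT t := dela_open_subset _ _ _ (dela_bar_mem ht)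

theorem pvqd_mid_mem (ht : 0 < pvqdDet t) : pvqdMid t ∈ pvqdT t := dela_mid_mem ht

theorem pvqd_mid_mem2 (ht : 0 < pvqdDet t) : pvqdMid (pvqdRot t) ∈ pvqdT t := by
  rw [← pvqd_T_rot]; exact pvqd_mid_mem (by rwa [pvqd_det_rot])

theorem pvqd_mid_mem3 (ht : 0 < pvqdDet t) : pvqdMid (pvqdRot (pvqdRot t)) ∈ pvqdT t := by
  rw [← pvqd_T_rot, ← pvqd_T_rot]; exact pvqd_mid_mem (by rwa [pvqd_det_rot, pvqd_det_rot])

theorem pvqd_T_meas (t : ℂ × ℂ × ℂ) : MeasurableSet (pvqdT t) := dela_measurable _ _ _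

/-- **discrete Stokes on one triangle, clockwise**: `∑_j d_{tj} χ(m_j) = - i Area(t) (χ_x + i χ_y)(z_t) + O(A diam³)` -/
theorem pvqd_tri {χ : ℂ → ℝ} {M L A : ℝ} (h : PvqdC2 χ M L A) (ht : 0 < pvqdDet t) :
    ‖pvqdCt χ t + ((pvqdDet t / 2 : ℝ) : ℂ) * (I * pvoH χ (pvqdBar t))‖ ≤ 3 * A * pvqdDm t ^ 3 := by
  set p := pvqdBar t with hp
  set ℓ : ℂ →L[ℝ] ℂ := Complex.ofRealCLM.comp (fderiv ℝ χ p) with hℓ
  have key : ∀ m ∈ pvqdT t, ‖((χ m : ℝ) : ℂ) - (((χ p : ℝ) : ℂ) + ℓ (m - p))‖ ≤ A * pvqdDm t ^ 2 := fun m hm => by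
    have e : ((χ m : ℝ) : ℂ) - (((χ p : ℝ) : ℂ) + ℓ (m - p)) = ((χ m - χ p - fderiv ℝ χ p (m - p) : ℝ) : ℂ) := by
      simp only [hℓ, ContinuousLinearMap.comp_apply, Complex.ofRealCLM_apply]; push_cast; ring
    rw [e, norm_real, Real.norm_eq_abs]
    refine (h.taylor p m).trans (mul_le_mul_of_nonneg_left ?_ h.A0)
    exact pow_le_pow_left₀ (norm_nonneg _) (pvqd_dist_le ht hm (pvqd_bar_mem ht)) 2
  have := dela_contour_approx (fun z => ((χ z : ℝ) : ℂ)) ℓ t.1 t.2.1 t.2.2 p ((χ p : ℝ) : ℂ) (key _ (pvqd_mid_mem ht)) (key _ (pvqd_mid_mem2 ht))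
    (key _ (pvqd_mid_mem3 ht))
  have e1 : ℓ 1 + I * ℓ I = pvoH χ p := by
    simp only [hℓ, ContinuousLinearMap.comp_apply, Complex.ofRealCLM_apply, pvoH]
  rw [e1] at this
  have e2 : pvqdCt χ t + ((pvqdDet t / 2 : ℝ) : ℂ) * (I * pvoH χ p)
      = -((t.2.1 - t.1) * ((χ ((t.1 + t.2.1) / 2) : ℝ) : ℂ) + (t.2.2 - t.2.1) * ((χ ((t.2.1 + t.2.2) / 2) : ℝ) : ℂ)
        + (t.1 - t.2.2) * ((χ ((t.2.2 + t.1) / 2) : ℝ) : ℂ) - ((vorDet t.1 t.2.1 t.2.2 / 2 : ℝ) : ℂ) * (I * pvoH χ p)) := by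
    simp only [pvqdCt, pvqdD, pvqdMid, pvqdRot, pvqdDet]; ring
  rw [e2, norm_neg]
  refine this.trans ?_
  have h1 := pvqd_side1 t
  have h2 := pvqd_side2 t
  have h3 := pvqd_side3 t
  have h0 : 0 ≤ A * pvqdDm t ^ 2 := mul_nonneg h.A0 (by positivity)
  calc A * pvqdDm t ^ 2 * (‖t.2.1 - t.1‖ + ‖t.2.2 - t.2.1‖ + ‖t.1 - t.2.2‖) ≤ A * pvqdDm t ^ 2 * (3 * pvqdDm t) :=
        mul_le_mul_of_nonneg_left (by linarith) h0
    _ = _ := by ring

end tri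

/-! ## 3. the core estimate: no tiling hypothesis -/

section core

variable {f χ : ℂ → ℝ} {M L A M' L' A' : ℝ}

theorem pvqd_prod_lip (hf : PvqdC2 f M L A) (hχ : PvqdC2 χ M' L' A') (x y : ℂ) :
    ‖(f x : ℂ) * pvoH χ x - (f y : ℂ) * pvoH χ y‖ ≤ (2 * L * L' + 2 * M * A') * ‖x - y‖ := by
  have e : (f x : ℂ) * pvoH χ x - (f y : ℂ) * pvoH χ y = ((f x - f y : ℝ) : ℂ) * pvoH χ x + (f y : ℂ) * (pvoH χ x - pvoH χ y) := by
    push_cast; ring
  rw [e]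
  have h0 := norm_nonneg (x - y)
  calc _ ≤ ‖((f x - f y : ℝ) : ℂ) * pvoH χ x‖ + ‖(f y : ℂ) * (pvoH χ x - pvoH χ y)‖ := norm_add_le _ _
    _ = |f x - f y| * ‖pvoH χ x‖ + |f y| * ‖pvoH χ x - pvoH χ y‖ := by
        rw [norm_mul, norm_mul, norm_real, norm_real, Real.norm_eq_abs, Real.norm_eq_abs]
    _ ≤ (L * ‖x - y‖) * (2 * L') + M * (2 * A' * ‖x - y‖) := by
        refine add_le_add (mul_le_mul (hf.lip x y) (hχ.H_le x) (norm_nonneg _) (mul_nonneg hf.L0 h0))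
          (mul_le_mul (hf.bd y) (hχ.H_lip x y) (norm_nonneg _) hf.M0)
    _ = _ := by ring

theorem pvqd_prod_cont (hf : PvqdC2 f M L A) (hχ : PvqdC2 χ M' L' A') : Continuous fun z => (f z : ℂ) * pvoH χ z :=
  (Complex.continuous_ofReal.comp hf.cont).mul hχ.H_cont

theorem pvqd_prod_integrable (hf : PvqdC2 f M L A) (hχ : PvqdC2 χ M' L' A') (hfc : HasCompactSupport f) :
    Integrable fun z => (f z : ℂ) * pvoH χ z := by
  refine (pvqd_prod_cont hf hχ).integrable_of_hasCompactSupport ?_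
  have : HasCompactSupport fun z => (f z : ℂ) := hfc.comp_left (g := fun x : ℝ => (x : ℂ)) (by simp)
  exact this.mul_right

theorem pvqd_core1 (hf : PvqdC2 f M L A) (hχ : PvqdC2 χ M' L' A') {t : ℂ × ℂ × ℂ} (ht : 0 < pvqdDet t) :
    ‖(f (pvqdBar t) : ℂ) * pvqdCt χ t + I * ∫ z in pvqdT t, (f z : ℂ) * pvoH χ z‖ ≤ (4 * M * A' + L * L') * pvqdDm t ^ 3 := by
  have hD := pvqd_dm_nonneg t
  have h1 := pvqd_tri hχ ht
  have hLg : 0 ≤ 2 * L * L' + 2 * M * A' := by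
    have := mul_nonneg hf.L0 hχ.L0
    have := mul_nonneg hf.M0 hχ.A0
    nlinarith
  have h2 := dela_rule_lip (g := fun z => (f z : ℂ) * pvoH χ z) (L := 2 * L * L' + 2 * M * A') (d := pvqdDm t) ht hLg
    (fun x _ y _ => pvqd_prod_lip hf hχ x y) (fun x hx y hy => pvqd_dist_le ht hx hy) (pvqd_bar_mem ht)
  have e : (f (pvqdBar t) : ℂ) * pvqdCt χ t + I * ∫ z in pvqdT t, (f z : ℂ) * pvoH χ z
      = (f (pvqdBar t) : ℂ) * (pvqdCt χ t + ((pvqdDet t / 2 : ℝ) : ℂ) * (I * pvoH χ (pvqdBar t)))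
        + I * ((∫ z in pvqdT t, (f z : ℂ) * pvoH χ z) - ((pvqdDet t / 2 : ℝ) : ℂ) * ((f (pvqdBar t) : ℂ) * pvoH χ (pvqdBar t))) := by ring
  rw [e]
  have hdet : pvqdDet t / 2 ≤ pvqdDm t ^ 2 / 2 := by linarith [pvqd_det_le t]
  calc _ ≤ ‖(f (pvqdBar t) : ℂ) * (pvqdCt χ t + ((pvqdDet t / 2 : ℝ) : ℂ) * (I * pvoH χ (pvqdBar t)))‖
        + ‖I * ((∫ z in pvqdT t, (f z : ℂ) * pvoH χ z) - ((pvqdDet t / 2 : ℝ) : ℂ) * ((f (pvqdBar t) : ℂ) * pvoH χ (pvqdBar t)))‖ :=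
        norm_add_le _ _
    _ ≤ M * (3 * A' * pvqdDm t ^ 3) + (2 * L * L' + 2 * M * A') * pvqdDm t * (pvqdDm t ^ 2 / 2) := by
        rw [norm_mul, norm_mul, norm_I, one_mul, norm_real, Real.norm_eq_abs]
        refine add_le_add (mul_le_mul (hf.bd _) h1 (norm_nonneg _) hf.M0) (h2.trans ?_)
        exact mul_le_mul_of_nonneg_left hdet (mul_nonneg hLg hD)
    _ = _ := by ring

/-- **the core of QUAD**: clockwise midpoint contours against barycentre values versus the integrals over the triangles -/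
theorem pvqd_core (hf : PvqdC2 f M L A) (hχ : PvqdC2 χ M' L' A') (𝒯 : Finset (ℂ × ℂ × ℂ)) {δ : ℝ} (hpos : ∀ t ∈ 𝒯, 0 < pvqdDet t)
    (hδ : ∀ t ∈ 𝒯, pvqdDm t ≤ δ) :
    ‖∑ t ∈ 𝒯, (f (pvqdBar t) : ℂ) * pvqdCt χ t + I * ∑ t ∈ 𝒯, ∫ z in pvqdT t, (f z : ℂ) * pvoH χ z‖
      ≤ (4 * M * A' + L * L') * δ * ∑ t ∈ 𝒯, pvqdDm t ^ 2 := by
  have hC : 0 ≤ 4 * M * A' + L * L' := by
    have := mul_nonneg hf.L0 hχ.L0
    have := mul_nonneg hf.M0 hχ.A0
    nlinarith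
  rw [Finset.mul_sum, ← Finset.sum_add_distrib, Finset.mul_sum]
  refine (norm_sum_le _ _).trans (Finset.sum_le_sum fun t ht => (pvqd_core1 hf hχ (hpos t ht)).trans ?_)
  have : pvqdDm t ^ 3 ≤ δ * pvqdDm t ^ 2 := by
    rw [pow_succ' _ 2]; exact mul_le_mul_of_nonneg_right (hδ t ht) (by positivity)
  calc _ ≤ (4 * M * A' + L * L') * (δ * pvqdDm t ^ 2) := mul_le_mul_of_nonneg_left this hC
    _ = _ := by ring

end core

/-! ## 4. tilings: the multiplicity lemma -/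

open Classical in
/-- if almost every point of `K` lies in exactly `m` triangles of the family, the integrals over the triangles add up to `m ∫ g` -/
theorem pvqd_mult (𝒯 : Finset (ℂ × ℂ × ℂ)) (m : ℕ) (K : Set ℂ) {g : ℂ → ℂ} (hg : Integrable g) (hK : ∀ z, z ∉ K → g z = 0)
    (hm : ∀ᵐ z : ℂ, z ∈ K → (𝒯.filter (fun t => z ∈ pvqdT t)).card = m) :
    ∑ t ∈ 𝒯, ∫ z in pvqdT t, g z = (m : ℂ) * ∫ z, g z := by
  have e1 : ∀ t ∈ 𝒯, ∫ z in pvqdT t, g z = ∫ z, (pvqdT t).indicator g z := fun t _ => (integral_indicator (pvqd_T_meas t)).symm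
  rw [Finset.sum_congr rfl e1, ← integral_finsetSum _ (fun t _ => hg.indicator (pvqd_T_meas t)), ← integral_const_mul]
  refine integral_congr_ae ?_
  filter_upwards [hm] with z hz
  by_cases hzK : z ∈ K
  · have : ∀ t ∈ 𝒯, (pvqdT t).indicator g z = if z ∈ pvqdT t then g z else 0 := fun t _ => rfl
    rw [Finset.sum_congr rfl this, ← Finset.sum_filter, Finset.sum_const, hz hzK, nsmul_eq_mul]
  · rw [hK z hzK, mul_zero]
    refine Finset.sum_eq_zero fun t _ => ?_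
    by_cases h : z ∈ pvqdT t
    · rw [indicator_of_mem h, hK z hzK]
    · rw [indicator_of_notMem h]

/-! ## 5. integration by parts -/

section parts

variable {f χ : ℂ → ℝ} {M L A M' L' A' : ℝ}

theorem pvqd_parts_real (hf : PvqdC2 f M L A) (hχ : PvqdC2 χ M' L' A') (hfc : HasCompactSupport f) (v : ℂ) :
    Integrable (fun z => f z * fderiv ℝ χ z v) ∧ Integrable (fun z => fderiv ℝ f z v * χ z) ∧
      ∫ z, f z * fderiv ℝ χ z v = - ∫ z, fderiv ℝ f z v * χ z := by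
  have c1 : Continuous fun z => fderiv ℝ χ z v := hχ.cont_fderiv.clm_apply continuous_const
  have c2 : Continuous fun z => fderiv ℝ f z v := hf.cont_fderiv.clm_apply continuous_const
  have s2 : HasCompactSupport fun z => fderiv ℝ f z v := (hfc.fderiv ℝ).comp_left (g := fun ℓ : ℂ →L[ℝ] ℝ => ℓ v) (by simp)
  have i1 : Integrable (fun z => f z * fderiv ℝ χ z v) := (hf.cont.mul c1).integrable_of_hasCompactSupport hfc.mul_right
  have i2 : Integrable (fun z => fderiv ℝ f z v * χ z) := (c2.mul hχ.cont).integrable_of_hasCompactSupport s2.mul_right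
  have i3 : Integrable (fun z => f z * χ z) := (hf.cont.mul hχ.cont).integrable_of_hasCompactSupport hfc.mul_right
  exact ⟨i1, i2, integral_mul_fderiv_eq_neg_fderiv_mul_of_integrable i2 i1 i3 (fun x _ => hf.diff x) (fun x _ => hχ.diff x)⟩

theorem pvqd_integral_reim {u v : ℂ → ℝ} (hu : Integrable u) (hv : Integrable v) :
    ∫ z, ((u z : ℂ) + I * (v z : ℂ)) = ((∫ z, u z : ℝ) : ℂ) + I * ((∫ z, v z : ℝ) : ℂ) := by
  have hu' : Integrable (fun z => (u z : ℂ)) := hu.ofReal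
  have hv' : Integrable (fun z => (v z : ℂ)) := hv.ofReal
  rw [integral_add hu' (hv'.const_mul I), integral_const_mul, integral_complex_ofReal, integral_complex_ofReal]

/-- `∫ f (χ_x + i χ_y) = - ∫ χ (f_x + i f_y)` -/
theorem pvqd_parts (hf : PvqdC2 f M L A) (hχ : PvqdC2 χ M' L' A') (hfc : HasCompactSupport f) :
    ∫ z, (f z : ℂ) * pvoH χ z = - ∫ z, (χ z : ℂ) * pvoH f z := by
  obtain ⟨a1, a2, a3⟩ := pvqd_parts_real hf hχ hfc 1
  obtain ⟨b1, b2, b3⟩ := pvqd_parts_real hf hχ hfc I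
  have e1 : (fun z => (f z : ℂ) * pvoH χ z) = fun z => (((f z * fderiv ℝ χ z 1 : ℝ) : ℂ) + I * ((f z * fderiv ℝ χ z I : ℝ) : ℂ)) := by
    funext z; unfold pvoH; push_cast; ring
  have e2 : (fun z => (χ z : ℂ) * pvoH f z) = fun z => (((fderiv ℝ f z 1 * χ z : ℝ) : ℂ) + I * ((fderiv ℝ f z I * χ z : ℝ) : ℂ)) := by
    funext z; unfold pvoH; push_cast; ring
  rw [e1, e2, pvqd_integral_reim a1 b1, pvqd_integral_reim a2 b2, a3, b3]
  push_cast; ring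

end parts

/-! ## 6. Q1 -/

section q1

variable {f χ : ℂ → ℝ} {M L A M' L' A' : ℝ}

open Classical in
/-- **Q1, triangle form, multiplicity `m`** (`m = 1`: one name per triangle;  `m = 3`: all three rotations) -/
theorem pvqd_q1 (hf : PvqdC2 f M L A) (hχ : PvqdC2 χ M' L' A') (hfc : HasCompactSupport f) (𝒯 : Finset (ℂ × ℂ × ℂ)) (m : ℕ) {δ : ℝ}
    (hpos : ∀ t ∈ 𝒯, 0 < pvqdDet t) (hδ : ∀ t ∈ 𝒯, pvqdDm t ≤ δ)
    (hm : ∀ᵐ z : ℂ, z ∈ tsupport f → (𝒯.filter (fun t => z ∈ pvqdT t)).card = m) :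
    ‖∑ t ∈ 𝒯, (f (pvqdBar t) : ℂ) * pvqdCt χ t - (m : ℂ) * (I * ∫ z, (χ z : ℂ) * pvoH f z)‖
      ≤ (4 * M * A' + L * L') * δ * ∑ t ∈ 𝒯, pvqdDm t ^ 2 := by
  have h1 := pvqd_core hf hχ 𝒯 hpos hδ
  have h2 := pvqd_mult 𝒯 m (tsupport f) (pvqd_prod_integrable hf hχ hfc)
    (fun z hz => by rw [image_eq_zero_of_notMem_tsupport hz]; simp) hm
  rw [h2, pvqd_parts hf hχ hfc] at h1
  convert h1 using 2
  ring

end q1

/-! ## 7. families closed under rotation = darts -/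

/-- the contribution of the dart `a → b` of the triangle `a b c`: `f(z_t) d_{t,e} χ(m_e)` -/
noncomputable def pvqdW (f χ : ℂ → ℝ) (t : ℂ × ℂ × ℂ) : ℂ := (f (pvqdBar t) : ℂ) * pvqdD t * (χ (pvqdMid t) : ℂ)

theorem pvqd_rot_sum {𝒯 : Finset (ℂ × ℂ × ℂ)} (hrot : ∀ t ∈ 𝒯, pvqdRot t ∈ 𝒯) (G : ℂ × ℂ × ℂ → ℂ) :
    ∑ t ∈ 𝒯, G (pvqdRot t) = ∑ t ∈ 𝒯, G t :=
  Finset.sum_nbij' pvqdRot (fun t => pvqdRot (pvqdRot t)) hrot (fun t ht => hrot _ (hrot t ht)) (fun _ _ => rfl) (fun _ _ => rfl) (fun _ _ => rfl)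

theorem pvqd_W_sum (f χ : ℂ → ℝ) (t : ℂ × ℂ × ℂ) :
    (f (pvqdBar t) : ℂ) * pvqdCt χ t = pvqdW f χ t + pvqdW f χ (pvqdRot t) + pvqdW f χ (pvqdRot (pvqdRot t)) := by
  simp only [pvqdW, pvqdCt, pvqd_bar_rot]; ring

theorem pvqd_dart_sum {𝒯 : Finset (ℂ × ℂ × ℂ)} (hrot : ∀ t ∈ 𝒯, pvqdRot t ∈ 𝒯) (f χ : ℂ → ℝ) :
    ∑ t ∈ 𝒯, (f (pvqdBar t) : ℂ) * pvqdCt χ t = 3 * ∑ t ∈ 𝒯, pvqdW f χ t := by
  simp only [pvqd_W_sum, Finset.sum_add_distrib]
  rw [pvqd_rot_sum hrot (fun t => pvqdW f χ (pvqdRot t)), pvqd_rot_sum hrot (pvqdW f χ)]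
  ring

section q1d

variable {f χ : ℂ → ℝ} {M L A M' L' A' : ℝ}

open Classical in
/-- **Q1, dart form**: the family contains the three names of each of its triangles -/
theorem pvqd_q1_dart (hf : PvqdC2 f M L A) (hχ : PvqdC2 χ M' L' A') (hfc : HasCompactSupport f) (𝒯 : Finset (ℂ × ℂ × ℂ)) {δ : ℝ}
    (hrot : ∀ t ∈ 𝒯, pvqdRot t ∈ 𝒯) (hpos : ∀ t ∈ 𝒯, 0 < pvqdDet t) (hδ : ∀ t ∈ 𝒯, pvqdDm t ≤ δ)
    (hm : ∀ᵐ z : ℂ, z ∈ tsupport f → (𝒯.filter (fun t => z ∈ pvqdT t)).card = 3) :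
    ‖∑ t ∈ 𝒯, pvqdW f χ t - I * ∫ z, (χ z : ℂ) * pvoH f z‖ ≤ (4 * M * A' + L * L') * δ * ((∑ t ∈ 𝒯, pvqdDm t ^ 2) / 3) := by
  have h := pvqd_q1 hf hχ hfc 𝒯 3 hpos hδ hm
  rw [pvqd_dart_sum hrot] at h
  have e : 3 * ∑ t ∈ 𝒯, pvqdW f χ t - ((3 : ℕ) : ℂ) * (I * ∫ z, (χ z : ℂ) * pvoH f z)
      = 3 * (∑ t ∈ 𝒯, pvqdW f χ t - I * ∫ z, (χ z : ℂ) * pvoH f z) := by push_cast; ring
  rw [e, norm_mul] at h
  have h3 : ‖(3 : ℂ)‖ = 3 := by simp
  rw [h3] at h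
  linarith

end q1d

/-! ## 8. from "disjoint interiors + covering" to the multiplicity -/

theorem pvqd_bd_null {t : ℂ × ℂ × ℂ} (ht : 0 < pvqdDet t) : volume (pvqdT t \ delTo t.1 t.2.1 t.2.2) = 0 := dela_bd_null ht

theorem pvqd_skel_null {𝒯 : Finset (ℂ × ℂ × ℂ)} (hpos : ∀ t ∈ 𝒯, 0 < pvqdDet t) :
    ∀ᵐ z : ℂ, ∀ t ∈ 𝒯, z ∈ pvqdT t → z ∈ delTo t.1 t.2.1 t.2.2 := by
  have : ∀ t ∈ 𝒯, ∀ᵐ z : ℂ, z ∈ pvqdT t → z ∈ delTo t.1 t.2.1 t.2.2 := fun t ht => by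
    have h0 := pvqd_bd_null (hpos t ht)
    rw [measure_eq_zero_iff_ae_notMem] at h0
    filter_upwards [h0] with z hz hzT
    by_contra hc
    exact hz ⟨hzT, hc⟩
  exact (Finset.eventually_all 𝒯).2 this

theorem pvqd_rot_ne {t : ℂ × ℂ × ℂ} (ht : 0 < pvqdDet t) : pvqdRot t ≠ t := by
  intro h
  obtain ⟨h1, -, -⟩ := dela_ne_of_det ht
  exact h1 (congrArg Prod.fst h).symm

open Classical in
/-- one name per triangle -/
theorem pvqd_mult_one {𝒯 : Finset (ℂ × ℂ × ℂ)} {K : Set ℂ} (hpos : ∀ t ∈ 𝒯, 0 < pvqdDet t) (hcov : ∀ z ∈ K, ∃ t ∈ 𝒯, z ∈ pvqdT t)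
    (hdis : ∀ t ∈ 𝒯, ∀ t' ∈ 𝒯, ∀ z, z ∈ delTo t.1 t.2.1 t.2.2 → z ∈ pvqdT t' → t' = t) :
    ∀ᵐ z : ℂ, z ∈ K → (𝒯.filter (fun t => z ∈ pvqdT t)).card = 1 := by
  filter_upwards [pvqd_skel_null hpos] with z hz hzK
  obtain ⟨t, ht, hzt⟩ := hcov z hzK
  rw [Finset.card_eq_one]
  refine ⟨t, ?_⟩
  ext t'
  simp only [Finset.mem_filter, Finset.mem_singleton]
  exact ⟨fun h => hdis t ht t' h.1 z (hz t ht hzt) h.2, fun h => h ▸ ⟨ht, hzt⟩⟩

open Classical in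
/-- all three names of each triangle (the form of `delp_tile_disj`) -/
theorem pvqd_mult_three {𝒯 : Finset (ℂ × ℂ × ℂ)} {K : Set ℂ} (hrot : ∀ t ∈ 𝒯, pvqdRot t ∈ 𝒯) (hpos : ∀ t ∈ 𝒯, 0 < pvqdDet t)
    (hcov : ∀ z ∈ K, ∃ t ∈ 𝒯, z ∈ pvqdT t)
    (hdis : ∀ t ∈ 𝒯, ∀ t' ∈ 𝒯, ∀ z, z ∈ delTo t.1 t.2.1 t.2.2 → z ∈ pvqdT t' → t' = t ∨ t' = pvqdRot t ∨ t' = pvqdRot (pvqdRot t)) :
    ∀ᵐ z : ℂ, z ∈ K → (𝒯.filter (fun t => z ∈ pvqdT t)).card = 3 := by
  filter_upwards [pvqd_skel_null hpos] with z hz hzK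
  obtain ⟨t, ht, hzt⟩ := hcov z hzK
  have e : 𝒯.filter (fun t => z ∈ pvqdT t) = {t, pvqdRot t, pvqdRot (pvqdRot t)} := by
    ext t'
    simp only [Finset.mem_filter, Finset.mem_insert, Finset.mem_singleton]
    refine ⟨fun h => hdis t ht t' h.1 z (hz t ht hzt) h.2, ?_⟩
    rintro (rfl | rfl | rfl)
    · exact ⟨ht, hzt⟩
    · exact ⟨hrot _ ht, by rwa [pvqd_T_rot]⟩
    · exact ⟨hrot _ (hrot _ ht), by rwa [pvqd_T_rot, pvqd_T_rot]⟩
  rw [e]
  have n1 : t ≠ pvqdRot t := (pvqd_rot_ne (hpos t ht)).symm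
  have n2 : pvqdRot t ≠ pvqdRot (pvqdRot t) := (pvqd_rot_ne (hpos _ (hrot t ht))).symm
  have n3 : t ≠ pvqdRot (pvqdRot t) := fun h => pvqd_rot_ne (hpos _ (hrot _ (hrot t ht))) (by rw [pvqd_rot3]; exact h)
  rw [Finset.card_insert_of_notMem (by simp [n1, n3]), Finset.card_insert_of_notMem (by simp [n2]), Finset.card_singleton]

/-! ## 9. one geometry as a dart system: Q2, Q3 and the variation -/

/-- **a dart system**: `E` the darts (both orientations of every bulk edge), `tr e = (a, b, c)` the face on the left of the dart `a → b`, `op` the opposite dart -/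
structure PvqdOk {Ed : Type} (E : Finset Ed) (tr : Ed → ℂ × ℂ × ℂ) (op : Ed → Ed) : Prop where
  op_mem : ∀ e ∈ E, op e ∈ E
  op_op : ∀ e ∈ E, op (op e) = e
  opp1 : ∀ e ∈ E, (tr (op e)).1 = (tr e).2.1
  opp2 : ∀ e ∈ E, (tr (op e)).2.1 = (tr e).1
  pos : ∀ e ∈ E, 0 < pvqdDet (tr e)
  inj : Set.InjOn tr E

/-- the weight `d_{t,e} (f(z_t) - f(z_t'))` of a dart -/
noncomputable def pvqdC {Ed : Type} (f : ℂ → ℝ) (tr : Ed → ℂ × ℂ × ℂ) (op : Ed → Ed) (e : Ed) : ℂ :=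
  pvqdD (tr e) * ((f (pvqdBar (tr e)) - f (pvqdBar (tr (op e))) : ℝ) : ℂ)

open Classical in
/-- `∑ diam²` over the darts whose face meets `A` -/
noncomputable def pvqdS2 {Ed : Type} (E : Finset Ed) (tr : Ed → ℂ × ℂ × ℂ) (A : Set ℂ) : ℝ :=
  ∑ e ∈ E.filter (fun e => (pvqdT (tr e) ∩ A).Nonempty), pvqdDm (tr e) ^ 2

theorem pvqd_eqns_cite2 : True := by
  have := @pvqdW.eq_1
  have := @pvqdC.eq_1
  have := @pvqdS2.eq_1
  trivial

section sys

variable {Ed : Type} {E : Finset Ed} {tr : Ed → ℂ × ℂ × ℂ} {op : Ed → Ed} {f : ℂ → ℝ} {M L A : ℝ}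

theorem PvqdOk.mid_op (h : PvqdOk E tr op) {e : Ed} (he : e ∈ E) : pvqdMid (tr (op e)) = pvqdMid (tr e) := by
  unfold pvqdMid; rw [h.opp1 e he, h.opp2 e he, add_comm]

theorem PvqdOk.D_op (h : PvqdOk E tr op) {e : Ed} (he : e ∈ E) : pvqdD (tr (op e)) = - pvqdD (tr e) := by
  unfold pvqdD; rw [h.opp1 e he, h.opp2 e he]; ring

theorem PvqdOk.C_op (h : PvqdOk E tr op) (f : ℂ → ℝ) {e : Ed} (he : e ∈ E) : pvqdC f tr op (op e) = pvqdC f tr op e := by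
  unfold pvqdC; rw [h.D_op he, h.op_op e he]; push_cast; ring

theorem PvqdOk.sum_op (h : PvqdOk E tr op) {β : Type*} [AddCommMonoid β] (w : Ed → β) : ∑ e ∈ E, w (op e) = ∑ e ∈ E, w e :=
  Finset.sum_nbij' op op h.op_mem h.op_mem h.op_op h.op_op (fun _ _ => rfl)

theorem PvqdOk.bar_dist (h : PvqdOk E tr op) {e : Ed} (he : e ∈ E) : ‖pvqdMid (tr e) - pvqdBar (tr e)‖ ≤ pvqdDm (tr e) :=
  pvqd_dist_le (h.pos e he) (pvqd_mid_mem (h.pos e he)) (pvqd_bar_mem (h.pos e he))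

/-- **Q2** -/
theorem PvqdOk.C_le (h : PvqdOk E tr op) (hf : PvqdC2 f M L A) {e : Ed} (he : e ∈ E) :
    ‖pvqdC f tr op e‖ ≤ L * (pvqdDm (tr e) ^ 2 + pvqdDm (tr (op e)) ^ 2) := by
  have he' := h.op_mem e he
  have d1 : ‖pvqdD (tr e)‖ ≤ pvqdDm (tr e) := pvqd_D_le _
  have d2 : ‖pvqdD (tr e)‖ ≤ pvqdDm (tr (op e)) := by
    have := pvqd_D_le (tr (op e)); rwa [h.D_op he, norm_neg] at this
  have b1 := h.bar_dist he
  have b2 := h.bar_dist he'
  rw [h.mid_op he] at b2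
  have b3 : ‖pvqdBar (tr e) - pvqdBar (tr (op e))‖ ≤ pvqdDm (tr e) + pvqdDm (tr (op e)) := by
    have e1 : pvqdBar (tr e) - pvqdBar (tr (op e)) = (pvqdMid (tr e) - pvqdBar (tr (op e))) - (pvqdMid (tr e) - pvqdBar (tr e)) := by ring
    rw [e1]
    exact (norm_sub_le _ _).trans (by linarith)
  have l1 := (hf.lip (pvqdBar (tr e)) (pvqdBar (tr (op e)))).trans (mul_le_mul_of_nonneg_left b3 hf.L0)
  unfold pvqdC
  rw [norm_mul, norm_real, Real.norm_eq_abs]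
  have n0 := norm_nonneg (pvqdD (tr e))
  have D1 := pvqd_dm_nonneg (tr e)
  have D2 := pvqd_dm_nonneg (tr (op e))
  calc ‖pvqdD (tr e)‖ * |f (pvqdBar (tr e)) - f (pvqdBar (tr (op e)))| ≤ ‖pvqdD (tr e)‖ * (L * (pvqdDm (tr e) + pvqdDm (tr (op e)))) :=
        mul_le_mul_of_nonneg_left l1 n0
    _ = L * (‖pvqdD (tr e)‖ * pvqdDm (tr e) + ‖pvqdD (tr e)‖ * pvqdDm (tr (op e))) := by ring
    _ ≤ L * (pvqdDm (tr e) ^ 2 + pvqdDm (tr (op e)) ^ 2) := by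
        refine mul_le_mul_of_nonneg_left ?_ hf.L0
        rw [sq, sq]
        exact add_le_add (mul_le_mul_of_nonneg_right d1 D1) (mul_le_mul_of_nonneg_right d2 D2)

/-- the crude bound -/
theorem PvqdOk.C_le' (h : PvqdOk E tr op) (hf : PvqdC2 f M L A) {e : Ed} (he : e ∈ E) :
    ‖pvqdC f tr op e‖ ≤ 2 * M * pvqdDm (tr e) ∧ ‖pvqdC f tr op e‖ ≤ 2 * M * pvqdDm (tr (op e)) := by
  have d1 : ‖pvqdD (tr e)‖ ≤ pvqdDm (tr e) := pvqd_D_le _
  have d2 : ‖pvqdD (tr e)‖ ≤ pvqdDm (tr (op e)) := by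
    have := pvqd_D_le (tr (op e)); rwa [h.D_op he, norm_neg] at this
  have a1 : |f (pvqdBar (tr e)) - f (pvqdBar (tr (op e)))| ≤ 2 * M := by
    have := abs_sub (f (pvqdBar (tr e))) (f (pvqdBar (tr (op e))))
    linarith [hf.bd (pvqdBar (tr e)), hf.bd (pvqdBar (tr (op e)))]
  have hM : 0 ≤ 2 * M := by linarith [hf.M0]
  unfold pvqdC
  rw [norm_mul, norm_real, Real.norm_eq_abs, mul_comm]
  exact ⟨mul_le_mul a1 d1 (norm_nonneg _) hM, mul_le_mul a1 d2 (norm_nonneg _) hM⟩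

/-- **Q3**: a dart of nonzero weight has a face (its own or the opposite one) whose barycentre lies in the support -/
theorem pvqd_C_ne {e : Ed} (hne : pvqdC f tr op e ≠ 0) : pvqdBar (tr e) ∈ tsupport f ∨ pvqdBar (tr (op e)) ∈ tsupport f := by
  by_contra hcon
  rw [not_or] at hcon
  apply hne
  unfold pvqdC
  rw [image_eq_zero_of_notMem_tsupport hcon.1, image_eq_zero_of_notMem_tsupport hcon.2]
  simp

open Classical in
/-- the variation in `A` -/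
theorem PvqdOk.tv_le (h : PvqdOk E tr op) (hf : PvqdC2 f M L A) (B : Set ℂ) :
    ∑ e ∈ E.filter (fun e => pvqdMid (tr e) ∈ B), ‖pvqdC f tr op e‖ ≤ 2 * L * pvqdS2 E tr B := by
  set w : Ed → ℝ := fun e => if pvqdMid (tr e) ∈ B then pvqdDm (tr e) ^ 2 else 0 with hw
  have h1 : ∑ e ∈ E.filter (fun e => pvqdMid (tr e) ∈ B), ‖pvqdC f tr op e‖ ≤ ∑ e ∈ E, L * (w e + w (op e)) := by
    rw [Finset.sum_filter]
    refine Finset.sum_le_sum fun e he => ?_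
    by_cases hm : pvqdMid (tr e) ∈ B
    · have hm' : pvqdMid (tr (op e)) ∈ B := by rwa [h.mid_op he]
      simp only [hw, if_pos hm, if_pos hm']
      exact h.C_le hf he
    · have hm' : pvqdMid (tr (op e)) ∉ B := by rwa [h.mid_op he]
      simp only [hw, if_neg hm, if_neg hm']
      simp
  have h2 : ∑ e ∈ E, w e ≤ pvqdS2 E tr B := by
    unfold pvqdS2
    rw [Finset.sum_filter]
    refine Finset.sum_le_sum fun e he => ?_
    by_cases hm : pvqdMid (tr e) ∈ B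
    · rw [if_pos ⟨pvqdMid (tr e), pvqd_mid_mem (h.pos e he), hm⟩]
      simp only [hw, if_pos hm]; exact le_rfl
    · simp only [hw, if_neg hm]
      split_ifs
      · positivity
      · exact le_rfl
  rw [← Finset.mul_sum, Finset.sum_add_distrib, h.sum_op w] at h1
  have := mul_le_mul_of_nonneg_left h2 hf.L0
  linarith

theorem pvqd_S2_nonneg (E : Finset Ed) (tr : Ed → ℂ × ℂ × ℂ) (B : Set ℂ) : 0 ≤ pvqdS2 E tr B :=
  Finset.sum_nonneg fun _ _ => by positivity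

theorem pvqd_S2_mono (E : Finset Ed) (tr : Ed → ℂ × ℂ × ℂ) {B B' : Set ℂ} (h : B ⊆ B') : pvqdS2 E tr B ≤ pvqdS2 E tr B' := by
  classical
  unfold pvqdS2
  refine Finset.sum_le_sum_of_subset_of_nonneg (fun e he => ?_) fun _ _ _ => by positivity
  rw [Finset.mem_filter] at he ⊢
  exact ⟨he.1, he.2.mono (inter_subset_inter_right _ h)⟩

theorem pvqd_S2_cover (E : Finset Ed) (tr : Ed → ℂ × ℂ × ℂ) {ι : Type*} (I : Finset ι) (U : ι → Set ℂ) {B : Set ℂ} (h : B ⊆ ⋃ i ∈ I, U i) :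
    pvqdS2 E tr B ≤ ∑ i ∈ I, pvqdS2 E tr (U i) := by
  classical
  unfold pvqdS2
  simp only [Finset.sum_filter]
  rw [Finset.sum_comm]
  refine Finset.sum_le_sum fun e _ => ?_
  split_ifs with hB
  · obtain ⟨z, hz1, hz2⟩ := hB
    obtain ⟨i, hi, hzi⟩ := mem_iUnion₂.1 (h hz2)
    have this : (if (pvqdT (tr e) ∩ U i).Nonempty then pvqdDm (tr e) ^ 2 else 0) = pvqdDm (tr e) ^ 2 := if_pos ⟨z, hz1, hzi⟩
    refine (le_of_eq this.symm).trans ?_
    exact Finset.single_le_sum (f := fun i => if (pvqdT (tr e) ∩ U i).Nonempty then pvqdDm (tr e) ^ 2 else 0)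
      (fun i _ => by split_ifs <;> positivity) hi
  · exact Finset.sum_nonneg fun i _ => by split_ifs <;> positivity

/-- the whole variation sits on the faces meeting the unit neighbourhood of the support: ALWAYS, no mesh hypothesis -/
theorem PvqdOk.tv_univ (h : PvqdOk E tr op) (hf : PvqdC2 f M L A) :
    ∑ e ∈ E, ‖pvqdC f tr op e‖ ≤ 2 * (L + 2 * M) * pvqdS2 E tr (Metric.thickening 1 (tsupport f)) := by
  classical
  set N := Metric.thickening 1 (tsupport f) with hN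
  set w : Ed → ℝ := fun e => if (pvqdT (tr e) ∩ N).Nonempty then pvqdDm (tr e) ^ 2 else 0 with hw
  have w0 : ∀ e, 0 ≤ w e := fun e => by simp only [hw]; split_ifs <;> positivity
  have hLM : 0 ≤ L + 2 * M := by linarith [hf.L0, hf.M0]
  -- a face with barycentre in the support, far from the midpoint
  have far : ∀ e ∈ E, ∀ m : ℂ, m ∈ pvqdT (tr e) → m ∉ N → pvqdBar (tr e) ∈ tsupport f → pvqdDm (tr e) ≤ w e := fun e he m hm hmN hb => by
    have h1 : 1 ≤ pvqdDm (tr e) := by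
      by_contra hlt
      rw [not_le] at hlt
      apply hmN
      rw [hN, Metric.mem_thickening_iff]
      exact ⟨_, hb, by rw [dist_eq_norm]; exact (pvqd_dist_le (h.pos e he) hm (pvqd_bar_mem (h.pos e he))).trans_lt hlt⟩
    have h2 : w e = pvqdDm (tr e) ^ 2 := by
      simp only [hw]
      exact if_pos ⟨_, pvqd_bar_mem (h.pos e he), Metric.self_subset_thickening one_pos _ hb⟩
    rw [h2]; nlinarith
  have key : ∀ e ∈ E, ‖pvqdC f tr op e‖ ≤ (L + 2 * M) * (w e + w (op e)) := fun e he => by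
    have he' := h.op_mem e he
    have m1 := pvqd_mid_mem (h.pos e he)
    have m2 : pvqdMid (tr e) ∈ pvqdT (tr (op e)) := by rw [← h.mid_op he]; exact pvqd_mid_mem (h.pos _ he')
    by_cases hm : pvqdMid (tr e) ∈ N
    · have e1 : w e = pvqdDm (tr e) ^ 2 := by simp only [hw]; exact if_pos ⟨_, m1, hm⟩
      have e2 : w (op e) = pvqdDm (tr (op e)) ^ 2 := by simp only [hw]; exact if_pos ⟨_, m2, hm⟩
      rw [e1, e2]
      refine (h.C_le hf he).trans (mul_le_mul_of_nonneg_right (by linarith [hf.M0]) (by positivity))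
    · by_cases hc : pvqdC f tr op e = 0
      · rw [hc, norm_zero]; exact mul_nonneg hLM (add_nonneg (w0 _) (w0 _))
      · have hM2 : 0 ≤ 2 * M := by linarith [hf.M0]
        rcases pvqd_C_ne hc with hb | hb
        · have := far e he _ m1 hm hb
          calc _ ≤ 2 * M * pvqdDm (tr e) := (h.C_le' hf he).1
            _ ≤ 2 * M * w e := mul_le_mul_of_nonneg_left this hM2
            _ ≤ (L + 2 * M) * (w e + w (op e)) := by
                have a1 := mul_nonneg hf.L0 (w0 e)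
                have a2 := mul_nonneg hLM (w0 (op e))
                nlinarith
        · have := far (op e) he' _ m2 hm hb
          calc _ ≤ 2 * M * pvqdDm (tr (op e)) := (h.C_le' hf he).2
            _ ≤ 2 * M * w (op e) := mul_le_mul_of_nonneg_left this hM2
            _ ≤ (L + 2 * M) * (w e + w (op e)) := by
                have a1 := mul_nonneg hf.L0 (w0 (op e))
                have a2 := mul_nonneg hLM (w0 e)
                nlinarith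
  have h1 := Finset.sum_le_sum key
  rw [← Finset.mul_sum, Finset.sum_add_distrib, h.sum_op w] at h1
  have h2 : ∑ e ∈ E, w e = pvqdS2 E tr N := by
    unfold pvqdS2; rw [Finset.sum_filter]
  rw [h2] at h1
  linarith

open Classical in
/-- **Q3 for the variation**: if the faces with barycentre in the support are smaller than `r`, there is no weight at distance `≥ r` of the support -/
theorem PvqdOk.tv_out (h : PvqdOk E tr op) (f : ℂ → ℝ) {r : ℝ} (hr : ∀ e ∈ E, pvqdBar (tr e) ∈ tsupport f → pvqdDm (tr e) < r) :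
    ∑ e ∈ E.filter (fun e => pvqdMid (tr e) ∈ {z | r ≤ Metric.infDist z (tsupport f)}), ‖pvqdC f tr op e‖ = 0 := by
  refine Finset.sum_eq_zero fun e he => ?_
  rw [Finset.mem_filter] at he
  obtain ⟨he, hm⟩ := he
  rw [norm_eq_zero]
  by_contra hc
  have hm' : r ≤ Metric.infDist (pvqdMid (tr e)) (tsupport f) := hm
  rcases pvqd_C_ne hc with hb | hb
  · have h1 := Metric.infDist_le_dist_of_mem (x := pvqdMid (tr e)) hb
    rw [dist_eq_norm] at h1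
    linarith [h.bar_dist he, hr e he hb]
  · have h1 := Metric.infDist_le_dist_of_mem (x := pvqdMid (tr e)) hb
    rw [dist_eq_norm] at h1
    have h2 := h.bar_dist (h.op_mem e he)
    rw [h.mid_op he] at h2
    linarith [hr _ (h.op_mem e he) hb]

end sys

/-! ## 10. Q1 for a dart system -/

/-- **good geometry at mesh `δ` near `K`**: the faces meeting `K` are complete, cover `K`, have disjoint interiors and diameter `< δ` -/
structure PvqdGood {Ed : Type} (E : Finset Ed) (tr : Ed → ℂ × ℂ × ℂ) (K : Set ℂ) (δ : ℝ) : Prop where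
  rot : ∀ e ∈ E, (pvqdT (tr e) ∩ K).Nonempty → ∃ e' ∈ E, tr e' = pvqdRot (tr e)
  cov : ∀ z ∈ K, ∃ e ∈ E, z ∈ pvqdT (tr e)
  dis : ∀ e ∈ E, ∀ e' ∈ E, ∀ z, z ∈ delTo (tr e).1 (tr e).2.1 (tr e).2.2 → z ∈ pvqdT (tr e') →
    tr e' = tr e ∨ tr e' = pvqdRot (tr e) ∨ tr e' = pvqdRot (pvqdRot (tr e))
  mesh : ∀ e ∈ E, (pvqdT (tr e) ∩ K).Nonempty → pvqdDm (tr e) < δ

section sysq

variable {Ed : Type} {E : Finset Ed} {tr : Ed → ℂ × ℂ × ℂ} {op : Ed → Ed} {f χ : ℂ → ℝ} {M L A M' L' A' : ℝ}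

theorem PvqdOk.sum1 (h : PvqdOk E tr op) (f χ : ℂ → ℝ) :
    ∑ e ∈ E, pvqdC f tr op e * (χ (pvqdMid (tr e)) : ℂ) = 2 * ∑ e ∈ E, pvqdW f χ (tr e) := by
  have e1 : ∀ e ∈ E, pvqdC f tr op e * (χ (pvqdMid (tr e)) : ℂ) = pvqdW f χ (tr e) + pvqdW f χ (tr (op e)) := fun e he => by
    unfold pvqdC pvqdW
    rw [h.D_op he, h.mid_op he]; push_cast; ring
  rw [Finset.sum_congr rfl e1, Finset.sum_add_distrib, h.sum_op (fun e => pvqdW f χ (tr e))]
  ring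

/-- **Q1 for a dart system** (both orientations of every edge are counted: `κ = 2 i`) -/
theorem PvqdOk.quad (h : PvqdOk E tr op) (hf : PvqdC2 f M L A) (hχ : PvqdC2 χ M' L' A') (hfc : HasCompactSupport f) {δ : ℝ}
    (hg : PvqdGood E tr (tsupport f) δ) :
    ‖∑ e ∈ E, pvqdC f tr op e * (χ (pvqdMid (tr e)) : ℂ) - 2 * I * ∫ z, (χ z : ℂ) * pvoH f z‖
      ≤ (4 * M * A' + L * L') * δ * pvqdS2 E tr (tsupport f) := by
  classical
  set K := tsupport f with hK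
  set E' := E.filter (fun e => (pvqdT (tr e) ∩ K).Nonempty) with hE'
  set 𝒯 := E'.image tr with h𝒯
  have hinj : Set.InjOn tr E' := h.inj.mono (by intro e he; exact (Finset.mem_filter.1 he).1)
  have mem𝒯 : ∀ t, t ∈ 𝒯 ↔ ∃ e ∈ E, (pvqdT (tr e) ∩ K).Nonempty ∧ tr e = t := fun t => by
    simp only [h𝒯, hE', Finset.mem_image, Finset.mem_filter, and_assoc]
  have hrot : ∀ t ∈ 𝒯, pvqdRot t ∈ 𝒯 := fun t ht => by
    obtain ⟨e, he, hne, rfl⟩ := (mem𝒯 t).1 ht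
    obtain ⟨e', he', hee⟩ := hg.rot e he hne
    exact (mem𝒯 _).2 ⟨e', he', by rw [hee, pvqd_T_rot]; exact hne, hee⟩
  have hpos : ∀ t ∈ 𝒯, 0 < pvqdDet t := fun t ht => by
    obtain ⟨e, he, -, rfl⟩ := (mem𝒯 t).1 ht
    exact h.pos e he
  have hδ : ∀ t ∈ 𝒯, pvqdDm t ≤ δ := fun t ht => by
    obtain ⟨e, he, hne, rfl⟩ := (mem𝒯 t).1 ht
    exact (hg.mesh e he hne).le
  have hm := pvqd_mult_three (K := K) hrot hpos
    (fun z hz => by
      obtain ⟨e, he, hze⟩ := hg.cov z hz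
      exact ⟨tr e, (mem𝒯 _).2 ⟨e, he, ⟨z, hze, hz⟩, rfl⟩, hze⟩)
    (fun t ht t' ht' z hz hz' => by
      obtain ⟨e, he, -, rfl⟩ := (mem𝒯 t).1 ht
      obtain ⟨e', he', -, rfl⟩ := (mem𝒯 t').1 ht'
      exact hg.dis e he e' he' z hz hz')
  have key := pvqd_q1_dart hf hχ hfc 𝒯 hrot hpos hδ hm
  have s1 : ∑ t ∈ 𝒯, pvqdW f χ t = ∑ e ∈ E, pvqdW f χ (tr e) := by
    rw [h𝒯, Finset.sum_image hinj, hE', Finset.sum_filter]
    refine Finset.sum_congr rfl fun e he => ?_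
    split_ifs with hne
    · rfl
    · have : pvqdBar (tr e) ∉ K := fun hb => hne ⟨_, pvqd_bar_mem (h.pos e he), hb⟩
      unfold pvqdW
      rw [image_eq_zero_of_notMem_tsupport this]; simp
  have s2 : ∑ t ∈ 𝒯, pvqdDm t ^ 2 = pvqdS2 E tr K := by
    rw [h𝒯, Finset.sum_image hinj]; rfl
  rw [s1, s2] at key
  rw [h.sum1]
  have e : 2 * ∑ e ∈ E, pvqdW f χ (tr e) - 2 * I * ∫ z, (χ z : ℂ) * pvoH f z
      = 2 * (∑ e ∈ E, pvqdW f χ (tr e) - I * ∫ z, (χ z : ℂ) * pvoH f z) := by ring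
  rw [e, norm_mul]
  have h2 : ‖(2 : ℂ)‖ = 2 := by simp
  rw [h2]
  have hC : 0 ≤ 4 * M * A' + L * L' := by
    have := mul_nonneg hf.L0 hχ.L0
    have := mul_nonneg hf.M0 hχ.A0
    nlinarith
  have hS := pvqd_S2_nonneg E tr K
  by_cases hE0 : ∃ e ∈ E, (pvqdT (tr e) ∩ K).Nonempty
  · obtain ⟨e, he, hne⟩ := hE0
    have hδ0 : 0 ≤ δ := (pvqd_dm_nonneg _).trans (hg.mesh e he hne).le
    have := mul_nonneg (mul_nonneg hC hδ0) hS
    nlinarith
  · have hS0 : pvqdS2 E tr K = 0 := by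
      unfold pvqdS2
      refine Finset.sum_eq_zero fun e he => ?_
      rw [Finset.mem_filter] at he
      exact absurd ⟨e, he.1, he.2⟩ hE0
    rw [hS0] at key ⊢
    linarith

end sysq

/-! ## 11. the exit: the four deterministic fields of `PvoiIn` -/

theorem pvqd_net {K : Set ℂ} (hK : IsCompact K) : ∃ I : Finset ℂ, Metric.thickening 1 K ⊆ ⋃ p ∈ I, Metric.ball p 1 := by
  obtain ⟨t, -, htf, hcov⟩ := (hK.cthickening (r := 1)).finite_cover_balls one_pos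
  refine ⟨htf.toFinset, (Metric.thickening_subset_cthickening 1 K).trans ?_⟩
  simpa using hcov

section exit

variable {Ω : Type} [MeasurableSpace Ω]

/-- the dictionary between a `PvoSys` and dart systems, for one test function -/
structure PvqdDict (S : PvoSys Ω) (f : ℂ → ℝ) (tr : ℕ → Ω → S.Ed → ℂ × ℂ × ℂ) (op : ℕ → Ω → S.Ed → S.Ed) : Prop where
  ok : ∀ k o, PvqdOk (S.E k o) (tr k o) (op k o)
  mid : ∀ k o, ∀ e ∈ S.E k o, S.mid k o e = pvqdMid (tr k o e)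
  c : ∀ k o, ∀ e ∈ S.E k o, S.c f k o e = pvqdC f (tr k o) (op k o) e

variable {S : PvoSys Ω} {f : ℂ → ℝ} {tr : ℕ → Ω → S.Ed → ℂ × ℂ × ℂ} {op : ℕ → Ω → S.Ed → S.Ed}

open Classical in
theorem PvqdDict.tv_eq (h : PvqdDict S f tr op) (B : Set ℂ) (k : ℕ) (o : Ω) :
    S.tv f B k o = ∑ e ∈ (S.E k o).filter (fun e => pvqdMid (tr k o e) ∈ B), ‖pvqdC f (tr k o) (op k o) e‖ := by
  unfold PvoSys.tv
  rw [Finset.filter_congr (fun e he => by rw [h.mid k o e he])]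
  exact Finset.sum_congr rfl fun e he => by rw [h.c k o e (Finset.mem_filter.1 he).1]

theorem PvqdDict.sum1_eq (h : PvqdDict S f tr op) (χ : ℂ → ℝ) (k : ℕ) (o : Ω) :
    S.sum1 f χ k o = ∑ e ∈ S.E k o, pvqdC f (tr k o) (op k o) e * (χ (pvqdMid (tr k o e)) : ℂ) := by
  unfold PvoSys.sum1
  exact Finset.sum_congr rfl fun e he => by rw [h.c k o e he, h.mid k o e he]

/-- **EXIT of QUAD**: MESH (`W_meas`, `W_mom`, `G_prob`) + DISC (`hG`) + the dictionary give the record of `Obs/InstCr`, with `κ = 2 i` -/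
theorem pvqd_in (h : PvqdDict S f tr op) (hf : ContDiff ℝ ∞ f) (hfc : HasCompactSupport f) {W : ℂ → ℝ → ℕ → Ω → ℝ} {G : ℝ → ℕ → Set Ω}
    (prob : ∀ k, IsProbabilityMeasure (S.P k)) (W_meas : ∀ p r k, Measurable (W p r k)) (W0 : ∀ p r k o, 0 ≤ W p r k o)
    (hW : ∀ (p : ℂ) (r : ℝ), 0 < r → r ≤ 1 → ∀ k o, pvqdS2 (S.E k o) (tr k o) (Metric.ball p r) ≤ W p r k o)
    (W_mom : ∃ C : ℝ, ∀ (p : ℂ) (r : ℝ), 0 < r → r ≤ 1 →
      ∀ᶠ k in atTop, ∫⁻ o, ENNReal.ofReal (W p r k o ^ 2) ∂S.P k ≤ ENNReal.ofReal (C * r ^ 4))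
    (G_meas : ∀ δ k, MeasurableSet (G δ k)) (G_prob : ∀ δ : ℝ, 0 < δ → Tendsto (fun k => S.P k (G δ k)ᶜ) atTop (𝓝 0))
    (hG : ∀ δ : ℝ, 0 < δ → ∀ k, ∀ o ∈ G δ k, PvqdGood (S.E k o) (tr k o) (tsupport f) δ) :
    PvoiIn S (2 * I) f W G := by
  obtain ⟨M, L, A, hc2⟩ := pvqd_c2_of_smooth hf hfc
  obtain ⟨J, hJ⟩ := pvqd_net hfc.isCompact
  have hS : ∀ k o, pvqdS2 (S.E k o) (tr k o) (Metric.thickening 1 (tsupport f)) ≤ ∑ p ∈ J, W p 1 k o := fun k o =>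
    (pvqd_S2_cover _ _ J (fun p => Metric.ball p 1) hJ).trans (Finset.sum_le_sum fun p _ => hW p 1 one_pos le_rfl k o)
  refine ⟨prob, W_meas, W0, W_mom, G_meas, G_prob, ⟨2 * L, fun p r hr hr1 k o => ?_⟩, ⟨2 * (L + 2 * M), J, fun k o => ?_⟩, fun r hr k o ho => ?_,
    fun χ hχ hχc => ?_⟩
  · rw [h.tv_eq]
    exact ((h.ok k o).tv_le hc2 _).trans (mul_le_mul_of_nonneg_left (hW p r hr hr1 k o) (by linarith [hc2.L0]))
  · rw [pvoi_tv_univ, Finset.sum_congr rfl (fun e he => by rw [h.c k o e he])]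
    exact ((h.ok k o).tv_univ hc2).trans (mul_le_mul_of_nonneg_left (hS k o) (by linarith [hc2.L0, hc2.M0]))
  · rw [h.tv_eq]
    exact (h.ok k o).tv_out f fun e he hb => (hG r hr k o ho).mesh e he ⟨_, pvqd_bar_mem ((h.ok k o).pos e he), hb⟩
  · obtain ⟨M', L', A', hχ2⟩ := pvqd_c2_of_smooth hχ hχc
    have hC : 0 ≤ 4 * M * A' + L * L' := by
      have := mul_nonneg hc2.L0 hχ2.L0
      have := mul_nonneg hc2.M0 hχ2.A0
      nlinarith
    refine ⟨4 * M * A' + L * L', 1, J, one_pos, fun δ hδ _ k o ho => ?_⟩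
    rw [h.sum1_eq]
    refine ((h.ok k o).quad hc2 hχ2 hfc (hG δ hδ k o ho)).trans (mul_le_mul_of_nonneg_left ?_ (mul_nonneg hC hδ.le))
    have := (pvqd_S2_mono (S.E k o) (tr k o) (Metric.self_subset_thickening one_pos (tsupport f))).trans (hS k o)
    linarith

end exit

end Claimed.Agent.R289
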