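-- KEEP
import Claimed.Agent.R289.Obs.Quad
import Claimed.Agent.R289.Del.Tile
import Claimed.Agent.R289.Mesh.Tri
import Claimed.Agent.R289.S1.Meas

/-!
# Row 289 (S0537, Cardy for Poisson-Voronoi), unit OBS, file Obs/QuadBase: MESH + TILE + QUAD ON `PvfBase`      (owner helper199; prefix `pvob_`, `pvob*`)

0 sorry.   The sub-exit MESH / QUAD of the instance of Sec. 8, on the sample space `PvfBase` (counts and positions, seam of helper268) with the laws `pvfBaseLaw (ε k)`.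
Inputs: `Obs/Quad` (deterministic quadrature), `Del/Tile` (helper19: `del_cover`, `del_T2`, `del_tri_near`), `Mesh/Tri` (helper127, helper223: `pvmZS`, `pvmt_sum_sq`, `pvmt_var`, `pvmGood`), `Del/GenPos` (helper120), `S1/Meas` (helper268).

* sec. 1  deterministic: `pvob_good` (Delaunay darts + density on the `4ρ`-collar of `K` + all faces meeting `K` present ⟹ `PvqdGood E tr K δ`, `4ρ < δ`), `pvob_S2_le_Z` (`pvqdS2 ≤ pvmZS 2 3 3`)
* sec. 2  JUNK-SAFE MAJORANT.   `pvmZS` is `ℝ≥0∞`-valued, a function of the COLOURED configuration, and `= ⊤` on a null set; `PvoiIn` wants a real measurable majorant at EVERY sample point.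
          `pvobV ε p r b = ∫⁻ colours, pvmZS(…)²` (measurable by Tonelli; no colour-blindness lemma), `pvob_V_lint` (`E V = E Z²`), `pvobW ε p r b = √V` (fallback: lattice ball of radius 2 where `V = ⊤`),
          `pvobTame ε` (countably many finiteness conditions): `pvob_tame_meas`, `pvob_tame_ae`;   `pvob_W_meas`, `pvob_W_nonneg`, **`pvob_W_mom`** ((8.4): `E W² ≤ C r⁴`, `ε ≤ r`), **`pvob_S2_le_W`** (on tame geometries, `r ≤ 1`)
* sec. 3  events: `pvob_ae_sites` (a.s. properties of the site set pass from `pvP ε` to `pvfBaseLaw ε`), `pvob_lfgp_ae`, `pvob_good_sites` (`pvmGood univ` only depends on the sites), `pvobM ρ L` with `pvob_M_meas / _dense / _prob / _tendsto`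
* sec. 4  **EXIT `pvob_in`**: dictionary `PvqdDict S f tr op` + `hT` (the darts are Delaunay darts of `pvfSites b`) + `hjunk` (`S.E k b = ∅` off `pvobTame (ε k)`) + DISC events `Gd` ⟹ `∃ G ⊆ Gd, PvoiIn S (2 * I) f (pvobW ∘ ε) G`;   then `pvoi_cr` of helper184.
-/

set_option autoImplicit false

namespace Claimed.Agent.R289

open MeasureTheory Filter Topology Set Complex
open Claims Claims.C0465
open scoped ContDiff ENNReal

/-! ## 1. Delaunay darts: deterministic part -/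

section det

variable {Y : Set ℂ} {Ed : Type} {E : Finset Ed} {tr : Ed → ℂ × ℂ × ℂ}

theorem pvob_dm_eq (t : ℂ × ℂ × ℂ) : pvmtD t = pvqdDm t := by
  unfold pvmtD pvqdDm
  rw [norm_sub_rev t.1 t.2.1, norm_sub_rev t.2.1 t.2.2, norm_sub_rev t.2.2 t.1]

/-- **good geometry from density**: Delaunay darts, sites `ρ`-dense on the `4ρ`-collar of `K`, all the faces meeting `K` are present -/
theorem pvob_good (lf : VorLF Y) (gp : VorGP Y) (hT : ∀ e ∈ E, DelTri Y (tr e).1 (tr e).2.1 (tr e).2.2) {K : Set ℂ} {ρ δ : ℝ} (hρ : 0 < ρ)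
    (hδ : 4 * ρ < δ) (hd : VorDense Y (vorNbd K (4 * ρ)) ρ)
    (hfull : ∀ a b c, DelTri Y a b c → (delT a b c ∩ K).Nonempty → ∃ e ∈ E, tr e = (a, b, c)) : PvqdGood E tr K δ := by
  have hball : ∀ p ∈ K, VorDense Y (Metric.closedBall p (4 * ρ)) ρ := fun p hp =>
    hd.mono subset_rfl (fun z hz => ⟨p, hp, by rwa [Metric.mem_closedBall, dist_eq_norm] at hz⟩) le_rfl
  refine ⟨fun e he hne => ?_, fun z hz => ?_, fun e he e' he' z hz hz' => ?_, fun e he hne => ?_⟩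
  · have h1 := del_tri_cyc (hT e he)
    have h2 : (delT (tr e).2.1 (tr e).2.2 (tr e).1 ∩ K).Nonempty := by rw [dela_cyc]; exact hne
    exact hfull _ _ _ h1 h2
  · obtain ⟨a, b, c, h, hzT⟩ := del_cover lf gp hρ (hball z hz)
    obtain ⟨e, he, hee⟩ := hfull a b c h ⟨z, hzT, hz⟩
    exact ⟨e, he, by unfold pvqdT; rw [hee]; exact hzT⟩
  · rcases del_T2 gp (hT e he) (hT e' he') hz hz' with ⟨h1, h2, h3⟩ | ⟨h1, h2, h3⟩ | ⟨h1, h2, h3⟩
    · exact Or.inl (Prod.ext h1 (Prod.ext h2 h3))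
    · exact Or.inr (Or.inl (Prod.ext h1 (Prod.ext h2 h3)))
    · exact Or.inr (Or.inr (Prod.ext h1 (Prod.ext h2 h3)))
  · obtain ⟨p, hpT, hpK⟩ := hne
    obtain ⟨h1, h2, h3⟩ := del_tri_near hρ.le (by linarith) (hball p hpK) (hT e he) hpT
    have key : ∀ u v : ℂ, ‖u - p‖ ≤ 2 * ρ → ‖v - p‖ ≤ 2 * ρ → ‖u - v‖ ≤ 4 * ρ := fun u v hu hv => by
      have : u - v = (u - p) - (v - p) := by ring
      rw [this]; exact (norm_sub_le _ _).trans (by linarith)
    refine lt_of_le_of_lt ?_ hδ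
    exact max_le (key _ _ h2 h1) (max_le (key _ _ h3 h2) (key _ _ h1 h3))

/-- `∑ diam²` over the darts whose face meets a ball is below the majorant of helper127 -/
theorem pvob_S2_le_Z {η : Conf PvPt} (hinj : Set.InjOn tr E) (hT : ∀ e ∈ E, DelTri (cfSites η) (tr e).1 (tr e).2.1 (tr e).2.2) {ε : ℝ} (hε : 0 < ε)
    (p : ℂ) (r : ℝ) : ENNReal.ofReal (pvqdS2 E tr (Metric.ball p r)) ≤ pvmZS 2 3 3 ε p r η := by
  classical
  set E' := E.filter (fun e => (pvqdT (tr e) ∩ Metric.ball p r).Nonempty) with hE'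
  have hinj' : Set.InjOn tr E' := hinj.mono (by intro e he; exact (Finset.mem_filter.1 he).1)
  have h1 := pvmt_sum_sq 2 hε p r η (E'.image tr) (by
    intro t ht
    obtain ⟨e, he, rfl⟩ := Finset.mem_image.1 ht
    rw [hE', Finset.mem_filter] at he
    exact pvmt_at_of_delT (hT e he.1) (he.2.mono (inter_subset_inter_right _ (Metric.ball_subset_closedBall.trans (pvmt_ball_sub p r)))))
  rw [Finset.sum_image hinj'] at h1
  refine le_trans (le_of_eq ?_) h1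
  unfold pvqdS2
  rw [ENNReal.ofReal_sum_of_nonneg (fun _ _ => by positivity)]
  exact Finset.sum_congr rfl fun e _ => by rw [pvob_dm_eq]

end det

/-! ## 2. the majorant on `PvfBase` -/

/-- the coloured configuration of (counts, positions, colours) -/
def pvobCf (x : PvfBase × (PvfIx → Bool)) : Conf PvPt := pvConf (pvfGlue x)

theorem pvob_cf_meas : Measurable pvobCf := measurable_pvConf.comp pvf_measurable_glue

theorem pvob_cf_sites (b : PvfBase) (s : PvfIx → Bool) : cfSites (pvobCf (b, s)) = pvfSites b := pvf_cfSites_glue b s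

/-- the quenched second moment of the majorant of `∑ diam²` -/
noncomputable def pvobV (ε : ℝ) (p : ℂ) (r : ℝ) (b : PvfBase) : ℝ≥0∞ := ∫⁻ s, pvmZS 2 3 3 ε p r (pvobCf (b, s)) ^ 2 ∂colLaw PvfIx

theorem pvob_V_meas (ε : ℝ) (p : ℂ) (r : ℝ) : Measurable (pvobV ε p r) :=
  Measurable.lintegral_prod_right' (f := fun x : PvfBase × (PvfIx → Bool) => pvmZS 2 3 3 ε p r (pvobCf x) ^ 2)
    (((pvm_ZS_meas 2 3 3 ε p r).comp pvob_cf_meas).pow_const 2)

theorem pvob_V_lint (ε : ℝ) (p : ℂ) (r : ℝ) : ∫⁻ b, pvobV ε p r b ∂pvfBaseLaw ε = ∫⁻ η, pvmZS 2 3 3 ε p r η ^ 2 ∂pvP ε := by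
  have hm : Measurable fun η => pvmZS 2 3 3 ε p r η ^ 2 := (pvm_ZS_meas 2 3 3 ε p r).pow_const 2
  unfold pvP
  rw [lintegral_map hm measurable_pvConf,
    pvf_qcol_lintegral ε (F := fun x => pvmZS 2 3 3 ε p r (pvConf x) ^ 2) (hm.comp measurable_pvConf)]
  rfl

/-- nearest lattice point -/
noncomputable def pvobC (p : ℂ) : ℂ := ⟨(round p.re : ℤ), (round p.im : ℤ)⟩

theorem pvob_C_dist (p : ℂ) : ‖p - pvobC p‖ ≤ 1 := by
  refine (Complex.norm_le_abs_re_add_abs_im _).trans ?_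
  have h1 := abs_sub_round p.re
  have h2 := abs_sub_round p.im
  simp only [pvobC, Complex.sub_re, Complex.sub_im]
  linarith

/-- **the tame geometries**: countably many finiteness conditions -/
def pvobTame (ε : ℝ) : Set PvfBase := {b | ∀ n : ℤ × ℤ, pvobV ε ⟨(n.1 : ℝ), (n.2 : ℝ)⟩ 2 b ≠ ⊤}

/-- **the majorant** of `∑ diam²` over the Delaunay darts whose face meets `ball p r` -/
noncomputable def pvobW (ε : ℝ) (p : ℂ) (r : ℝ) (b : PvfBase) : ℝ :=
  if pvobV ε p r b = ⊤ then Real.sqrt (pvobV ε (pvobC p) 2 b).toReal else Real.sqrt (pvobV ε p r b).toReal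

theorem pvob_eqns_cite : True := by
  have := @pvobCf.eq_1
  have := @pvobV.eq_1
  have := @pvobC.eq_1
  have := @pvobTame.eq_1
  have := @pvobW.eq_1
  trivial

theorem pvob_tame_meas (ε : ℝ) : MeasurableSet (pvobTame ε) := by
  have : pvobTame ε = ⋂ n : ℤ × ℤ, (pvobV ε ⟨(n.1 : ℝ), (n.2 : ℝ)⟩ 2 ⁻¹' {⊤})ᶜ := by
    ext b; simp [pvobTame]
  rw [this]
  exact MeasurableSet.iInter fun n => ((pvob_V_meas ε _ 2) (measurableSet_singleton _)).compl

theorem pvob_V_lint_lt {ε : ℝ} (hε : 0 < ε) (p : ℂ) {r : ℝ} (hr : 0 ≤ r) : ∫⁻ b, pvobV ε p r b ∂pvfBaseLaw ε < ⊤ := by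
  obtain ⟨K, -, h⟩ := pvmt_mom (p := 2) (by norm_num) 2
  rw [pvob_V_lint]
  exact (h ε hε (pvP ε) (pv_isPpp ε) p r hr).trans_lt ENNReal.ofReal_lt_top

theorem pvob_V_ae {ε : ℝ} (hε : 0 < ε) (p : ℂ) {r : ℝ} (hr : 0 ≤ r) : ∀ᵐ b ∂pvfBaseLaw ε, pvobV ε p r b ≠ ⊤ := by
  filter_upwards [ae_lt_top (pvob_V_meas ε p r) (pvob_V_lint_lt hε p hr).ne] with b hb using hb.ne

theorem pvob_tame_ae {ε : ℝ} (hε : 0 < ε) : ∀ᵐ b ∂pvfBaseLaw ε, b ∈ pvobTame ε := by
  have : ∀ᵐ b ∂pvfBaseLaw ε, ∀ n : ℤ × ℤ, pvobV ε ⟨(n.1 : ℝ), (n.2 : ℝ)⟩ 2 b ≠ ⊤ :=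
    ae_all_iff.2 fun n => pvob_V_ae hε _ (by norm_num)
  exact this

theorem pvob_W_meas (ε : ℝ) (p : ℂ) (r : ℝ) : Measurable (pvobW ε p r) := by
  unfold pvobW
  exact Measurable.ite ((pvob_V_meas ε p r) (measurableSet_singleton _)) (pvob_V_meas ε _ 2).ennreal_toReal.sqrt
    (pvob_V_meas ε p r).ennreal_toReal.sqrt

theorem pvob_W_nonneg (ε : ℝ) (p : ℂ) (r : ℝ) (b : PvfBase) : 0 ≤ pvobW ε p r b := by
  unfold pvobW; split_ifs <;> exact Real.sqrt_nonneg _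

/-- **(8.4) on `PvfBase`** -/
theorem pvob_W_mom : ∃ C : ℝ, 0 ≤ C ∧ ∀ ε : ℝ, 0 < ε → ∀ (p : ℂ) (r : ℝ), ε ≤ r →
    ∫⁻ b, ENNReal.ofReal (pvobW ε p r b ^ 2) ∂pvfBaseLaw ε ≤ ENNReal.ofReal (C * r ^ 4) := by
  obtain ⟨C, hC, h⟩ := pvmt_var
  refine ⟨C, hC, fun ε hε p r hr => ?_⟩
  refine le_trans ?_ (h ε hε (pvP ε) (pv_isPpp ε) p r hr)
  rw [← pvob_V_lint]
  refine lintegral_mono_ae ?_
  filter_upwards [pvob_V_ae hε p (hε.le.trans hr)] with b hb
  unfold pvobW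
  rw [if_neg hb, Real.sq_sqrt ENNReal.toReal_nonneg, ENNReal.ofReal_toReal hb]

section maj

variable {Ed : Type} {E : Finset Ed} {tr : Ed → ℂ × ℂ × ℂ}

theorem pvob_S2_sq_le_V {b : PvfBase} (hinj : Set.InjOn tr E) (hT : ∀ e ∈ E, DelTri (pvfSites b) (tr e).1 (tr e).2.1 (tr e).2.2) {ε : ℝ}
    (hε : 0 < ε) (p : ℂ) (r : ℝ) : ENNReal.ofReal (pvqdS2 E tr (Metric.ball p r)) ^ 2 ≤ pvobV ε p r b := by
  have h1 : ∀ s : PvfIx → Bool, ENNReal.ofReal (pvqdS2 E tr (Metric.ball p r)) ^ 2 ≤ pvmZS 2 3 3 ε p r (pvobCf (b, s)) ^ 2 := fun s =>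
    pow_le_pow_left' (pvob_S2_le_Z hinj (by rw [pvob_cf_sites]; exact hT) hε p r) 2
  calc ENNReal.ofReal (pvqdS2 E tr (Metric.ball p r)) ^ 2 = ∫⁻ _s, ENNReal.ofReal (pvqdS2 E tr (Metric.ball p r)) ^ 2 ∂colLaw PvfIx := by
        rw [lintegral_const, measure_univ, mul_one]
    _ ≤ _ := lintegral_mono h1

theorem pvob_le_sqrt {x : ℝ} (hx : 0 ≤ x) {v : ℝ≥0∞} (hv : v ≠ ⊤) (h : ENNReal.ofReal x ^ 2 ≤ v) : x ≤ Real.sqrt v.toReal := by
  apply Real.le_sqrt_of_sq_le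
  rw [← ENNReal.ofReal_pow hx] at h
  exact (ENNReal.ofReal_le_iff_le_toReal hv).1 h

/-- **the majorant property**, on the tame geometries -/
theorem pvob_S2_le_W {b : PvfBase} {ε : ℝ} (hε : 0 < ε) (hb : b ∈ pvobTame ε) (hinj : Set.InjOn tr E)
    (hT : ∀ e ∈ E, DelTri (pvfSites b) (tr e).1 (tr e).2.1 (tr e).2.2) (p : ℂ) {r : ℝ} (hr1 : r ≤ 1) :
    pvqdS2 E tr (Metric.ball p r) ≤ pvobW ε p r b := by
  unfold pvobW
  split_ifs with hV
  · have hsub : Metric.ball p r ⊆ Metric.ball (pvobC p) 2 := by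
      intro z hz
      rw [Metric.mem_ball, dist_eq_norm] at hz ⊢
      have e : z - pvobC p = (z - p) + (p - pvobC p) := by ring
      rw [e]
      exact (norm_add_le _ _).trans_lt (by linarith [pvob_C_dist p])
    refine (pvqd_S2_mono E tr hsub).trans ?_
    exact pvob_le_sqrt (pvqd_S2_nonneg _ _ _) (hb (round p.re, round p.im)) (pvob_S2_sq_le_V hinj hT hε _ 2)
  · exact pvob_le_sqrt (pvqd_S2_nonneg _ _ _) hV (pvob_S2_sq_le_V hinj hT hε p r)

end maj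

/-! ## 3. events of the geometry on `PvfBase` -/

theorem pvob_sites_base (x : PVSample) : cfSites (pvConf x) = pvfSites (pvfBase x) := pvf_cfSites_glue (pvfBase x) (pvfCol x)

/-- transfer of an almost sure property of the site set -/
theorem pvob_ae_sites (ε : ℝ) {q : Set ℂ → Prop} (h : ∀ᵐ η ∂pvP ε, q (cfSites η)) : ∀ᵐ b ∂pvfBaseLaw ε, q (pvfSites b) := by
  refine pvf_ae_base ε ?_
  have h1 := ae_of_ae_map measurable_pvConf.aemeasurable h
  filter_upwards [h1] with x hx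
  rwa [← pvob_sites_base]

theorem pvob_lfgp_ae (ε : ℝ) : ∀ᵐ b ∂pvfBaseLaw ε, VorLF (pvfSites b) ∧ VorGP (pvfSites b) :=
  pvob_ae_sites ε (q := fun Y => VorLF Y ∧ VorGP Y) ((delgp_ae_conf ε).mono fun _ h => ⟨h.1, h.2.1⟩)

theorem pvob_occ_iff (Q : Set ℂ) (η : Conf PvPt) : η ∈ pvmOcc (Q ×ˢ (univ : Set Bool)) ↔ ∃ v ∈ cfSites η, v ∈ Q := by
  rw [pvm_mem_occ]
  constructor
  · rintro ⟨p, hp, hpQ⟩
    exact ⟨p.1, ⟨p, hp, rfl⟩, hpQ.1⟩
  · rintro ⟨_, ⟨p, hp, rfl⟩, hQ⟩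
    exact ⟨p, hp, hQ, mem_univ _⟩

/-- the good mesh event (all colours) only depends on the sites -/
theorem pvob_good_sites {η η' : Conf PvPt} (h : cfSites η = cfSites η') (ρ : ℝ) (w : ℂ) (L : ℝ) :
    η ∈ pvmGood univ ρ w L ↔ η' ∈ pvmGood univ ρ w L := by
  unfold pvmGood pvmGrid
  simp only [mem_iInter, pvob_occ_iff, h]

/-- the good mesh event on `PvfBase` -/
def pvobM (ρ L : ℝ) : Set PvfBase := {b | pvobCf (b, fun _ => true) ∈ pvmGood univ ρ 0 L}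

theorem pvob_eqns_cite2 : True := by
  have := @pvobM.eq_1
  trivial

theorem pvob_M_meas (ρ L : ℝ) : MeasurableSet (pvobM ρ L) :=
  (pvob_cf_meas.comp (measurable_id.prodMk measurable_const)) (pvm_good_meas univ ρ 0 L)

theorem pvob_M_dense {ρ L : ℝ} (hρ : 0 < ρ) {b : PvfBase} (hb : b ∈ pvobM ρ L) : VorDense (pvfSites b) (pvmSq 0 L) ρ := by
  have := pvmt_good_dense hρ hb
  rwa [pvob_cf_sites] at this

theorem pvob_M_prob (ε ρ L : ℝ) : pvfBaseLaw ε (pvobM ρ L)ᶜ = pvP ε (pvmGood univ ρ 0 L)ᶜ := by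
  rw [← pvf_map_base, Measure.map_apply pvf_measurable_base (pvob_M_meas ρ L).compl]
  unfold pvP
  rw [Measure.map_apply measurable_pvConf (pvm_good_meas univ ρ 0 L).compl]
  congr 1
  ext x
  simp only [mem_preimage, mem_compl_iff, pvobM, mem_ofPred_eq]
  exact not_congr (pvob_good_sites (by rw [pvob_cf_sites, pvob_sites_base]) ρ 0 L)

theorem pvob_M_tendsto {ρ L : ℝ} (hρ : 0 < ρ) (hL : 0 ≤ L) {ε : ℕ → ℝ} (hε : ∀ k, 0 < ε k) (hε0 : Tendsto ε atTop (𝓝 0)) :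
    Tendsto (fun k => pvfBaseLaw (ε k) (pvobM ρ L)ᶜ) atTop (𝓝 0) := by
  have h1 := pvm_good_tendsto hρ hL (μ := pvP) (fun ε _ => pv_isPpp ε) (c := univ) univ_nonempty 0
  have h2 : Tendsto ε atTop (𝓝[>] 0) := tendsto_nhdsWithin_iff.2 ⟨hε0, Eventually.of_forall hε⟩
  simp only [pvob_M_prob]
  exact h1.comp h2

/-! ## 4. the exit -/

/-- **EXIT**: MESH + TILE + QUAD on `PvfBase`.   The instance owes: the dictionary, "the darts are Delaunay darts", "no dart on the wild geometries", and the DISC events `Gd`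
(every Delaunay triangle meeting the support of the test function is a face of the disc). -/
theorem pvob_in {S : PvoSys PvfBase} {f : ℂ → ℝ} {tr : ℕ → PvfBase → S.Ed → ℂ × ℂ × ℂ} {op : ℕ → PvfBase → S.Ed → S.Ed} {ε : ℕ → ℝ}
    (hε : ∀ k, 0 < ε k) (hε0 : Tendsto ε atTop (𝓝 0)) (hP : ∀ k, S.P k = pvfBaseLaw (ε k)) (h : PvqdDict S f tr op) (hf : ContDiff ℝ ∞ f)
    (hfc : HasCompactSupport f)
    (hT : ∀ k b, ∀ e ∈ S.E k b, DelTri (pvfSites b) (tr k b e).1 (tr k b e).2.1 (tr k b e).2.2)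
    (hjunk : ∀ k b, b ∉ pvobTame (ε k) → S.E k b = ∅)
    {Gd : ℝ → ℕ → Set PvfBase} (Gd_meas : ∀ δ k, MeasurableSet (Gd δ k)) (Gd_prob : ∀ δ : ℝ, 0 < δ → Tendsto (fun k => S.P k (Gd δ k)ᶜ) atTop (𝓝 0))
    (hfull : ∀ δ : ℝ, 0 < δ → ∀ k, ∀ b ∈ Gd δ k, ∀ x y z, DelTri (pvfSites b) x y z → (delT x y z ∩ tsupport f).Nonempty →
      ∃ e ∈ S.E k b, tr k b e = (x, y, z)) :
    ∃ G : ℝ → ℕ → Set PvfBase, (∀ δ k, G δ k ⊆ Gd δ k) ∧ PvoiIn S (2 * I) f (fun p r k b => pvobW (ε k) p r b) G := by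
  obtain ⟨R0, hR0⟩ := hfc.isCompact.isBounded.subset_closedBall (0 : ℂ)
  set R := max R0 0 with hR
  have hKR : tsupport f ⊆ Metric.closedBall (0 : ℂ) R := hR0.trans (Metric.closedBall_subset_closedBall (le_max_left _ _))
  have hRn : 0 ≤ R := le_max_right _ _
  set N : ℕ → Set PvfBase := fun k => toMeasurable (pvfBaseLaw (ε k)) {b | ¬ (VorLF (pvfSites b) ∧ VorGP (pvfSites b))} with hN
  have hN0 : ∀ k, pvfBaseLaw (ε k) (N k) = 0 := fun k => by
    rw [hN, measure_toMeasurable]; exact ae_iff.1 (pvob_lfgp_ae (ε k))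
  set G : ℝ → ℕ → Set PvfBase := fun δ k => Gd δ k ∩ (pvobM (δ / 5) (R + 4 * (δ / 5)) ∩ (N k)ᶜ) with hG
  refine ⟨G, fun δ k => inter_subset_left, ?_⟩
  refine pvqd_in h hf hfc (fun k => by rw [hP k]; infer_instance) (fun p r k => pvob_W_meas (ε k) p r) (fun p r k b => pvob_W_nonneg (ε k) p r b)
    (fun p r _ hr1 k b => ?_) ?_ (fun δ k => (Gd_meas δ k).inter ((pvob_M_meas _ _).inter (measurableSet_toMeasurable _ _).compl)) (fun δ hδ => ?_)
    (fun δ hδ k b hb => ?_)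
  · by_cases hb : b ∈ pvobTame (ε k)
    · exact pvob_S2_le_W (hε k) hb (h.ok k b).inj (hT k b) p hr1
    · have : pvqdS2 (S.E k b) (tr k b) (Metric.ball p r) = 0 := by
        unfold pvqdS2; rw [hjunk k b hb]; simp
      rw [this]; exact pvob_W_nonneg _ _ _ _
  · obtain ⟨C, -, hC⟩ := pvob_W_mom
    refine ⟨C, fun p r hr _ => ?_⟩
    filter_upwards [hε0.eventually (eventually_le_nhds hr)] with k hk
    rw [hP k]
    exact hC (ε k) (hε k) p r hk
  · have hρ : 0 < δ / 5 := by positivity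
    have l1 := Gd_prob δ hδ
    have l2 := pvob_M_tendsto hρ (by positivity : 0 ≤ R + 4 * (δ / 5)) hε hε0
    have l3 := l1.add l2
    rw [add_zero] at l3
    refine tendsto_of_tendsto_of_tendsto_of_le_of_le tendsto_const_nhds l3 (fun _ => zero_le) fun k => ?_
    have hsub : (G δ k)ᶜ ⊆ (Gd δ k)ᶜ ∪ ((pvobM (δ / 5) (R + 4 * (δ / 5)))ᶜ ∪ N k) := by
      intro b hb
      by_contra hcon
      simp only [mem_union, mem_compl_iff, not_or, not_not] at hcon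
      exact hb ⟨hcon.1, hcon.2.1, hcon.2.2⟩
    calc S.P k (G δ k)ᶜ ≤ S.P k ((Gd δ k)ᶜ ∪ ((pvobM (δ / 5) (R + 4 * (δ / 5)))ᶜ ∪ N k)) := measure_mono hsub
      _ ≤ S.P k (Gd δ k)ᶜ + (S.P k (pvobM (δ / 5) (R + 4 * (δ / 5)))ᶜ + S.P k (N k)) :=
          (measure_union_le _ _).trans (add_le_add le_rfl (measure_union_le _ _))
      _ = S.P k (Gd δ k)ᶜ + pvfBaseLaw (ε k) (pvobM (δ / 5) (R + 4 * (δ / 5)))ᶜ := by rw [hP k, hN0 k, add_zero]
  · obtain ⟨hb1, hb2, hb3⟩ := hb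
    have hlg : VorLF (pvfSites b) ∧ VorGP (pvfSites b) := by
      by_contra hcon
      exact hb3 (subset_toMeasurable _ _ hcon)
    have hρ : 0 < δ / 5 := by positivity
    refine pvob_good hlg.1 hlg.2 (hT k b) hρ (by linarith) ?_ (hfull δ hδ k b hb1)
    refine (pvob_M_dense hρ hb2).mono subset_rfl ?_ le_rfl
    rintro z ⟨x, hx, hzx⟩
    apply pvmt_ball_sub
    have hx' := hKR hx
    rw [Metric.mem_closedBall, dist_zero_right] at hx' ⊢
    have e : z = (z - x) + x := by ring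
    rw [e]
    exact (norm_add_le _ _).trans (by linarith)

end Claimed.Agent.R289
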