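-- KEEP
import Claimed.Agent.R289.Obs.Sys
import Claimed.Agent.R289.Obs.QuadBase
import Claimed.Agent.R289.Obs.Col

/-!
# Row 289 (S0537, Cardy for Poisson-Voronoi), unit OBS, file Obs/SysGeo: THE LEAF J-GEO OF `Obs/Sys.lean`      (helper199; prefix `pvoy_`, defs `pvoyTr`, `pvoyOp`, `pvoyG`)

`pvoy_geo` has VERBATIM the statement of `pvoj_geo` (architect helper111): the fields `var`, `out`, `lim` of `PvoCR` with `κ = 2 i` for the concrete system `𝔇.sys D ψ εs 𝒯` of Sec. 8 and for its mirror.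

## Chain
* §1  THE DICTIONARY: a dart `e = ⟨Y, d⟩` is sent to the triple `pvoyTr 𝔇 e` of the positions of `(src, tgt, apex)`, `pvoyOp 𝔇 e = ⟨Y, opp d⟩`.
      `pvoy_ok`: on a simple sphere whose embedded faces are Delaunay triangles (`PvBulk.Ok Y ∅`) the bulk darts `𝔇.edges Y` form a `PvqdOk` system (`Obs/Quad.lean`);   `pvoy_dict`: `PvqdDict` for `𝔇.sys` and its mirror.
* §2  DEPTH: `pvoy_full`: at a geometry which is `Good` with output tolerance `R`, every Delaunay triangle which meets `ball x₀ R` (`closedBall x₀ (6R) ⊆ D`) is the face of a bulk dart: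
      `Good.densD` makes the sites `R`-dense in `D`, so (`del_tri_near`) the three vertices are within `2R` of the point, hence at depth `≥ R`;   `Ok.face` gives the dart, `Ok.del` the face across.
* §3  THE EVENTS `pvoyG`: complement of the measurable hull of `(𝒯 k)ᶜ` if all geometries of `𝒯 k` are good at tolerance `R`, empty otherwise.
* §4  EXIT: `pvob_in` (`Obs/QuadBase.lean`: MESH + TILE + QUAD on the labelled geometries) + `pvoi_cr` (`Obs/InstCr.lean` of 184).      `𝒜 ε = pvobTame ε`.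
-/

set_option autoImplicit false

namespace Claimed.Agent.R289

open MeasureTheory ProbabilityTheory Set Filter Topology Claims.C0465
open scoped ContDiff ENNReal

/-! ## 1. the dictionary -/

/-- the triple of positions `(src, tgt, apex)` of a dart -/
def pvoyTr (𝔇 : PvoFam) (e : Σ Y : Set ℂ, (𝔇 Y).D) : ℂ × ℂ × ℂ :=
  (𝔇.bulk.pos e.1 ((𝔇 e.1).T.src e.2), 𝔇.bulk.pos e.1 ((𝔇 e.1).T.tgt e.2), 𝔇.bulk.pos e.1 ((𝔇 e.1).T.apex e.2))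

/-- the opposite dart -/
def pvoyOp (𝔇 : PvoFam) (e : Σ Y : Set ℂ, (𝔇 Y).D) : Σ Y : Set ℂ, (𝔇 Y).D := ⟨e.1, (𝔇 e.1).T.opp e.2⟩

open Classical in
/-- the events of DISC at the fixed tolerance `t` -/
noncomputable def pvoyG (𝔇 : PvoFam) (D : Set ℂ) (d : ℂ) (ψ : ℂ → ℂ) (x : ℝ) (εs : ℕ → ℝ) (𝒯 : ℕ → Set PvGeoT) (s t : ℝ) (k : ℕ) : Set PvGeoT :=
  if ∀ g ∈ 𝒯 k, 𝔇.Good D d ψ x (pvgSites g) s t then (toMeasurable (pvGeo (εs k)) (𝒯 k)ᶜ)ᶜ else ∅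

theorem pvoy_eqns_cite : True := by
  have := @pvoyTr.eq_1; have := @pvoyOp.eq_1; have := @pvoyG.eq_1
  trivial

variable {𝔇 : PvoFam}

theorem pvoy_mem_edges {Y : Set ℂ} {e : Σ Y : Set ℂ, (𝔇 Y).D} :
    e ∈ 𝔇.edges Y ↔ ∃ d : (𝔇 Y).D, 𝔇.bulk.Emb Y d ∧ 𝔇.bulk.Emb Y ((𝔇 Y).T.opp d) ∧ e = ⟨Y, d⟩ := by
  unfold PvoFam.edges
  simp only [Finset.mem_map, Finset.mem_filter, Finset.mem_univ, true_and, Function.Embedding.coeFn_mk]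
  constructor
  · rintro ⟨d, ⟨h1, h2⟩, rfl⟩
    exact ⟨d, h1, h2, rfl⟩
  · rintro ⟨d, h1, h2, rfl⟩
    exact ⟨d, ⟨h1, h2⟩, rfl⟩

theorem pvoy_pos {Y : Set ℂ} {v : (𝔇 Y).V} {a : ℂ} (h : (𝔇 Y).lab v = Sum.inl a) : 𝔇.bulk.pos Y v = a := by
  have : 𝔇.bulk.lab Y v = Sum.inl a := h
  unfold PvBulk.pos
  rw [this]; rfl

theorem pvoy_tr {Y : Set ℂ} {d : (𝔇 Y).D} {a b c : ℂ} (h1 : (𝔇 Y).lab ((𝔇 Y).T.src d) = Sum.inl a) (h2 : (𝔇 Y).lab ((𝔇 Y).T.tgt d) = Sum.inl b)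
    (h3 : (𝔇 Y).lab ((𝔇 Y).T.apex d) = Sum.inl c) : pvoyTr 𝔇 ⟨Y, d⟩ = (a, b, c) := by
  unfold pvoyTr
  rw [pvoy_pos h1, pvoy_pos h2, pvoy_pos h3]

theorem pvoy_tgt_opp {V D : Type} (T : PvMap V D) (d : D) : T.tgt (T.opp d) = T.src d := by
  have := T.src_opp (T.opp d)
  rw [T.opp_opp] at this
  exact this.symm

theorem pvoy_src_opp {V D : Type} (T : PvMap V D) (d : D) : T.src (T.opp d) = T.tgt d := T.src_opp d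

/-- the embedded faces are Delaunay triangles -/
theorem pvoy_del {Y K : Set ℂ} (hok : 𝔇.bulk.Ok Y K) {e : Σ Y : Set ℂ, (𝔇 Y).D} (he : e ∈ 𝔇.edges Y) :
    DelTri Y (pvoyTr 𝔇 e).1 (pvoyTr 𝔇 e).2.1 (pvoyTr 𝔇 e).2.2 := by
  obtain ⟨d, ⟨a, b, c, h1, h2, h3⟩, -, rfl⟩ := pvoy_mem_edges.1 he
  rw [pvoy_tr h1 h2 h3]
  exact hok.emb d a b c h1 h2 h3

/-- **the bulk darts form a `PvqdOk` system** -/
theorem pvoy_ok {Y K : Set ℂ} (hok : 𝔇.bulk.Ok Y K) : PvqdOk (𝔇.edges Y) (pvoyTr 𝔇) (pvoyOp 𝔇) where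
  op_mem e he := by
    obtain ⟨d, h1, h2, rfl⟩ := pvoy_mem_edges.1 he
    refine pvoy_mem_edges.2 ⟨(𝔇 Y).T.opp d, h2, ?_, rfl⟩
    rw [(𝔇 Y).T.opp_opp]; exact h1
  op_op e he := by
    obtain ⟨d, -, -, rfl⟩ := pvoy_mem_edges.1 he
    unfold pvoyOp
    simp only [(𝔇 Y).T.opp_opp]
  opp1 e he := by
    obtain ⟨d, -, -, rfl⟩ := pvoy_mem_edges.1 he
    unfold pvoyOp pvoyTr
    simp only [pvoy_src_opp]
  opp2 e he := by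
    obtain ⟨d, -, -, rfl⟩ := pvoy_mem_edges.1 he
    unfold pvoyOp pvoyTr
    simp only [pvoy_tgt_opp]
  pos e he := (pvoy_del hok he).2.2.2.1
  inj := by
    intro e he e' he' hee
    obtain ⟨d, ⟨a, b, c, h1, h2, h3⟩, -, rfl⟩ := pvoy_mem_edges.1 he
    obtain ⟨d', ⟨a', b', c', h1', h2', h3'⟩, -, rfl⟩ := pvoy_mem_edges.1 he'
    rw [pvoy_tr h1 h2 h3, pvoy_tr h1' h2' h3'] at hee
    simp only [Prod.mk.injEq] at hee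
    obtain ⟨rfl, rfl, rfl⟩ := hee
    have e1 : (𝔇 Y).T.src d = (𝔇 Y).T.src d' := hok.inj (h1.trans h1'.symm)
    have e2 : (𝔇 Y).T.tgt d = (𝔇 Y).T.tgt d' := hok.inj (h2.trans h2'.symm)
    rw [hok.simple d d' e1 e2]

theorem pvoy_ok_empty : PvqdOk (∅ : Finset (Σ Y : Set ℂ, (𝔇 Y).D)) (pvoyTr 𝔇) (pvoyOp 𝔇) :=
  ⟨fun e he => by simp at he, fun e he => by simp at he, fun e he => by simp at he, fun e he => by simp at he, fun e he => by simp at he,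
    fun e he => by simp at he⟩

theorem pvoy_E_pos {D : Set ℂ} {ψ : ℂ → ℂ} {εs : ℕ → ℝ} {𝒯 : ℕ → Set PvGeoT} {k : ℕ} {g : PvGeoT} (hg : g ∈ 𝒯 k) :
    (𝔇.sys D ψ εs 𝒯).E k g = 𝔇.edges (pvgSites g) := by
  unfold PvoFam.sys
  exact if_pos hg

theorem pvoy_E_neg {D : Set ℂ} {ψ : ℂ → ℂ} {εs : ℕ → ℝ} {𝒯 : ℕ → Set PvGeoT} {k : ℕ} {g : PvGeoT} (hg : g ∉ 𝒯 k) :
    (𝔇.sys D ψ εs 𝒯).E k g = ∅ := by
  unfold PvoFam.sys
  exact if_neg hg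

/-- **the dictionary** between the system of Sec. 8 and the darts of `Obs/Quad.lean` -/
theorem pvoy_dict {D : Set ℂ} {ψ : ℂ → ℂ} {εs : ℕ → ℝ} {𝒯 : ℕ → Set PvGeoT} (hok : ∀ k, ∀ g ∈ 𝒯 k, 𝔇.bulk.Ok (pvgSites g) ∅) (f : ℂ → ℝ) :
    PvqdDict (𝔇.sys D ψ εs 𝒯) f (fun _ _ => pvoyTr 𝔇) (fun _ _ => pvoyOp 𝔇) where
  ok k g := by
    by_cases hg : g ∈ 𝒯 k
    · rw [pvoy_E_pos hg]; exact pvoy_ok (hok k g hg)
    · rw [pvoy_E_neg hg]; exact pvoy_ok_empty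
  mid k g e _ := rfl
  c k g e _ := by
    show 𝔇.wt e.1 f e.2 = _
    unfold PvoFam.wt pvqdC pvqdD pvqdBar delBar PvMap.side PvMap.bary pvoyOp pvoyTr
    rfl

/-- the mirror system has the same geometry -/
theorem pvoy_in_conj {Ω : Type} [MeasurableSpace Ω] {S : PvoSys Ω} {κ : ℂ} {f : ℂ → ℝ} {W : ℂ → ℝ → ℕ → Ω → ℝ} {G : ℝ → ℕ → Set Ω}
    (h : PvoiIn S κ f W G) : PvoiIn S.conj κ f W G :=
  ⟨h.prob, h.W_meas, h.W_nonneg, h.W_mom, h.G_meas, h.G_prob, h.tv_ball, h.tv_univ, h.tv_out, h.quad⟩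

/-! ## 2. depth -/

/-- the sites of a good geometry are dense in `D` -/
theorem pvoy_dense {D : Set ℂ} {d : ℂ} {ψ : ℂ → ℂ} {x : ℝ} {Y : Set ℂ} {s t : ℝ} (hg : 𝔇.Good D d ψ x Y s t) : VorDense Y D t := by
  intro z hz
  obtain ⟨e, a, b, h1, -, h3⟩ := hg.densD z hz
  exact ⟨a, hg.ok.site _ a h1, by rw [norm_sub_rev]; exact h3.le⟩

/-- points near the centre of a deep ball are deep -/
theorem pvoy_deep {D : Set ℂ} (hD : (Dᶜ).Nonempty) {x₀ : ℂ} {R : ℝ} (hx : Metric.closedBall x₀ (6 * R) ⊆ D) {v : ℂ} (hv : ‖v - x₀‖ ≤ 5 * R) :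
    v ∈ {z : ℂ | R ≤ Metric.infDist z Dᶜ} := by
  refine (Metric.le_infDist hD).2 fun w hw => ?_
  by_contra hcon
  push Not at hcon
  refine hw (hx ?_)
  rw [Metric.mem_closedBall, dist_eq_norm]
  rw [dist_eq_norm] at hcon
  calc ‖w - x₀‖ = ‖(v - x₀) - (v - w)‖ := by ring_nf
    _ ≤ ‖v - x₀‖ + ‖v - w‖ := norm_sub_le _ _
    _ ≤ 6 * R := by linarith

/-- **every Delaunay triangle which meets the small ball is the face of a bulk dart** -/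
theorem pvoy_full {D : Set ℂ} {d : ℂ} {ψ : ℂ → ℂ} {x : ℝ} {Y : Set ℂ} {s R : ℝ} {x₀ : ℂ} (hD : (Dᶜ).Nonempty) (hR : 0 < R)
    (hx : Metric.closedBall x₀ (6 * R) ⊆ D) (hg : 𝔇.Good D d ψ x Y s R) {a b c p : ℂ} (ht : DelTri Y a b c) (hp : p ∈ delT a b c)
    (hpx : p ∈ Metric.ball x₀ R) : ∃ e ∈ 𝔇.edges Y, pvoyTr 𝔇 e = (a, b, c) := by
  rw [Metric.mem_ball, dist_eq_norm] at hpx
  have hd : VorDense Y (Metric.closedBall p (2 * R)) R := by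
    refine (pvoy_dense hg).mono subset_rfl (fun z hz => hx ?_) le_rfl
    rw [Metric.mem_closedBall, dist_eq_norm] at hz ⊢
    calc ‖z - x₀‖ = ‖(z - p) + (p - x₀)‖ := by ring_nf
      _ ≤ ‖z - p‖ + ‖p - x₀‖ := norm_add_le _ _
      _ ≤ 6 * R := by linarith
  obtain ⟨na, nb, -⟩ := del_tri_near hR.le (by linarith) hd ht hp
  have hdeep : ∀ v : ℂ, ‖v - p‖ ≤ 2 * R → v ∈ {z : ℂ | R ≤ Metric.infDist z Dᶜ} := fun v hv => by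
    refine pvoy_deep hD hx ?_
    calc ‖v - x₀‖ = ‖(v - p) + (p - x₀)‖ := by ring_nf
      _ ≤ ‖v - p‖ + ‖p - x₀‖ := norm_add_le _ _
      _ ≤ 5 * R := by linarith
  obtain ⟨dd, h1, h2, h3⟩ := hg.ok.face a b c ht (hdeep a na)
  have h4 : 𝔇.bulk.lab Y ((𝔇.bulk.T Y).src ((𝔇.bulk.T Y).opp dd)) = Sum.inl b := by
    rw [pvoy_src_opp]; exact h2
  obtain ⟨b', c', h5, h6, -⟩ := hg.ok.del _ b h4 (hdeep b nb)
  exact ⟨⟨Y, dd⟩, pvoy_mem_edges.2 ⟨dd, ⟨a, b, c, h1, h2, h3⟩, ⟨b, b', c', h4, h5, h6⟩, rfl⟩, pvoy_tr h1 h2 h3⟩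

/-! ## 3. the events -/

section events

variable {D : Set ℂ} {d : ℂ} {ψ : ℂ → ℂ} {x : ℝ} {εs : ℕ → ℝ} {𝒯 : ℕ → Set PvGeoT} {s t : ℝ}

theorem pvoy_G_meas (k : ℕ) : MeasurableSet (pvoyG 𝔇 D d ψ x εs 𝒯 s t k) := by
  unfold pvoyG
  split_ifs
  · exact (measurableSet_toMeasurable _ _).compl
  · exact MeasurableSet.empty

theorem pvoy_G_mem {k : ℕ} {g : PvGeoT} (hg : g ∈ pvoyG 𝔇 D d ψ x εs 𝒯 s t k) : g ∈ 𝒯 k ∧ 𝔇.Good D d ψ x (pvgSites g) s t := by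
  unfold pvoyG at hg
  split_ifs at hg with h
  · have h1 : g ∈ 𝒯 k := by
      by_contra hcon
      exact hg (subset_toMeasurable _ _ hcon)
    exact ⟨h1, h g h1⟩
  · exact hg.elim

theorem pvoy_G_prob (hev : ∀ᶠ k in atTop, ∀ g ∈ 𝒯 k, 𝔇.Good D d ψ x (pvgSites g) s t) (hp : Tendsto (fun k => pvGeo (εs k) (𝒯 k)ᶜ) atTop (𝓝 0)) :
    Tendsto (fun k => pvGeo (εs k) (pvoyG 𝔇 D d ψ x εs 𝒯 s t k)ᶜ) atTop (𝓝 0) := by
  refine hp.congr' ?_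
  filter_upwards [hev] with k hk
  unfold pvoyG
  rw [if_pos hk, compl_compl, measure_toMeasurable]

end events

/-! ## 4. the exit -/

/-- **the inputs of `Obs/InstCr.lean` for the system of Sec. 8** -/
theorem pvoy_in {D : Set ℂ} {d : ℂ} {ψ : ℂ → ℂ} (h : PvChart D d ψ) {x : ℝ} {εs : ℕ → ℝ} {𝒯 : ℕ → Set PvGeoT} (hG : PvoGuard 𝔇 D d ψ x εs 𝒯)
    (hT : ∀ k, 𝒯 k ⊆ pvobTame (εs k)) {f : ℂ → ℝ} (hf : PvoTest D f) :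
    ∃ G : ℝ → ℕ → Set PvGeoT, PvoiIn (𝔇.sys D ψ εs 𝒯) (2 * Complex.I) f (fun p r k b => pvobW (εs k) p r b) G := by
  obtain ⟨hf1, hf2, x₀, R, hR, hx, hfs⟩ := hf
  obtain ⟨s, -, hs⟩ := hG.good R hR
  have hD : (Dᶜ).Nonempty := ⟨d, h.d_notMem⟩
  have hdict := pvoy_dict (D := D) (ψ := ψ) (εs := εs) (fun k g hg => (hG.ok k g hg).2) f
  have h1 : ∀ k b, ∀ e ∈ (𝔇.sys D ψ εs 𝒯).E k b, DelTri (pvfSites b) (pvoyTr 𝔇 e).1 (pvoyTr 𝔇 e).2.1 (pvoyTr 𝔇 e).2.2 := by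
    intro k b e he
    by_cases hb : b ∈ 𝒯 k
    · rw [pvoy_E_pos hb] at he
      exact pvoy_del (hG.ok k b hb).2 he
    · rw [pvoy_E_neg hb] at he
      simp at he
  have h2 : ∀ k b, b ∉ pvobTame (εs k) → (𝔇.sys D ψ εs 𝒯).E k b = ∅ := fun k b hb => pvoy_E_neg fun hb' => hb (hT k hb')
  have h3 : ∀ δ : ℝ, 0 < δ → ∀ k, ∀ b ∈ pvoyG 𝔇 D d ψ x εs 𝒯 s R k, ∀ a' b' c', DelTri (pvfSites b) a' b' c' → (delT a' b' c' ∩ tsupport f).Nonempty →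
      ∃ e ∈ (𝔇.sys D ψ εs 𝒯).E k b, pvoyTr 𝔇 e = (a', b', c') := by
    rintro δ - k b hb a' b' c' ht ⟨p, hp1, hp2⟩
    obtain ⟨hb1, hb2⟩ := pvoy_G_mem hb
    rw [pvoy_E_pos hb1]
    exact pvoy_full hD hR hx hb2 ht hp1 (hfs hp2)
  obtain ⟨G, -, hin⟩ := pvob_in (S := 𝔇.sys D ψ εs 𝒯) (Gd := fun _ k => pvoyG 𝔇 D d ψ x εs 𝒯 s R k) hG.pos hG.lim (fun _ => rfl) hdict hf1 hf2 h1 h2
    (fun _ k => pvoy_G_meas k) (fun _ _ => pvoy_G_prob hs hG.prob) h3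
  exact ⟨G, hin⟩

/-- **J-GEO**: verbatim the statement of `pvoj_geo` of `Obs/Sys.lean` -/
theorem pvoy_geo : ∃ 𝒜 : ℝ → Set PvGeoT, (∀ ε : ℝ, 0 < ε → pvGeo ε (𝒜 ε)ᶜ = 0) ∧
    ∀ {D : Set ℂ} {d : ℂ} {ψ : ℂ → ℂ}, PvChart D d ψ → ∀ {x : ℝ} {𝔇 : PvoFam} {εs : ℕ → ℝ} {𝒯 : ℕ → Set PvGeoT}, PvoGuard 𝔇 D d ψ x εs 𝒯 → (∀ k, 𝒯 k ⊆ 𝒜 (εs k)) →
      ∀ f : ℂ → ℝ, PvoTest D f → (PvoCrLim (𝔇.sys D ψ εs 𝒯) f → PvoCR (𝔇.sys D ψ εs 𝒯) (2 * Complex.I) f) ∧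
        (PvoCrLim (𝔇.sys D ψ εs 𝒯).conj f → PvoCR (𝔇.sys D ψ εs 𝒯).conj (2 * Complex.I) f) := by
  refine ⟨pvobTame, fun ε hε => ae_iff.1 (pvob_tame_ae hε), ?_⟩
  intro D d ψ h x 𝔇 εs 𝒯 hG hT f hf
  obtain ⟨G, hin⟩ := pvoy_in h hG hT hf
  exact ⟨fun hl => pvoi_cr hin hl, fun hl => pvoi_cr (pvoy_in_conj hin) hl⟩

end Claimed.Agent.R289
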