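import Mathlib

/-!
# Row 289 (S0537, Cardy for Poisson-Voronoi), unit OBS, file Obs/Grid: THE SMOOTH GRID PARTITION OF UNITY and the deterministic half of Prop 8.4      (helper258; prefix `pvog_`, defs `pvog*`)

TEX[prop:holomorphy], 08-observable.tex l.325-470.   The paper tiles by squares and approximates indicators; here (header of Obs/Abs.lean, helper174) a SMOOTH partition of unity at scale `s` is used.
Consumer: `pvo_hol` (Obs/Abs.lean / Obs/Hol.lean, helper151).   Imports Mathlib only.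

* sec. 1  `pvogPsi`, `pvogZ s k = (s k₁, s k₂)`, `pvogChi s k`, `pvogSq z s` (closed square of half side `s`): smooth, `0 ≤ χ ≤ 1`, `χ_k = 0` off `pvogSq (pvogZ s k) s ⊆ closedBall (pvogZ s k) (2 s)`,
          `∑_{k ∈ A} χ_k ≤ 1` for every finite `A`, `= 1` at `z` as soon as `A` contains every `k` whose square contains `z`.
* sec. 2  (G1) `pvogJ K r s = {k | infDist (pvogZ s k) K < r}` as a Finset, `#J s² ≤ (2 (R + r) + 3)²`;   (G2) `pvogOut K r s = 1 - ∑_{k ∈ J} χ_k`.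
* sec. 3  (G3) `pvog_riemann`: `∑_{k ∈ J} F(z_k) ∫ χ_k h → ∫ F h` as `s → 0`.
* sec. 4  Cauchy-Schwarz in the two forms used with ARM and VAR.
-/

set_option autoImplicit false

namespace Claimed.Agent.R289

open MeasureTheory Set Filter Topology
open scoped ContDiff

noncomputable section

/-! ## 1. the partition of unity -/

/-- the bump: `1` at `0`, support `[-1,1]`, `∑_k ψ(x - k) = 1` -/
def pvogPsi (x : ℝ) : ℝ := Real.smoothTransition (x + 1) * Real.smoothTransition (1 - x)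

theorem pvog_psi_contDiff : ContDiff ℝ ∞ pvogPsi := by
  unfold pvogPsi
  exact (Real.smoothTransition.contDiff.comp (contDiff_id.add contDiff_const)).mul
    (Real.smoothTransition.contDiff.comp (contDiff_const.sub contDiff_id))

theorem pvog_psi_nonneg (x : ℝ) : 0 ≤ pvogPsi x :=
  mul_nonneg (Real.smoothTransition.nonneg _) (Real.smoothTransition.nonneg _)

theorem pvog_psi_le_one (x : ℝ) : pvogPsi x ≤ 1 :=
  mul_le_one₀ (Real.smoothTransition.le_one _) (Real.smoothTransition.nonneg _) (Real.smoothTransition.le_one _)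

theorem pvog_psi_zero {x : ℝ} (h : 1 ≤ |x|) : pvogPsi x = 0 := by
  unfold pvogPsi
  rcases le_abs.1 h with h | h
  · rw [Real.smoothTransition.zero_of_nonpos (by linarith : 1 - x ≤ 0), mul_zero]
  · rw [Real.smoothTransition.zero_of_nonpos (by linarith : x + 1 ≤ 0), zero_mul]

theorem pvog_trans_add (x : ℝ) : Real.smoothTransition x + Real.smoothTransition (1 - x) = 1 := by
  unfold Real.smoothTransition
  have h := Real.smoothTransition.pos_denom x
  have e : (1 : ℝ) - (1 - x) = x := by ring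
  rw [e, add_comm (expNegInvGlue (1 - x)) (expNegInvGlue x), ← add_div, div_self h.ne']

/-- two consecutive translates add up to one -/
theorem pvog_psi_two {x : ℝ} (h0 : 0 ≤ x) (h1 : x ≤ 1) : pvogPsi x + pvogPsi (x - 1) = 1 := by
  unfold pvogPsi
  rw [Real.smoothTransition.one_of_one_le (by linarith : 1 ≤ x + 1), Real.smoothTransition.one_of_one_le (by linarith : 1 ≤ 1 - (x - 1))]
  have := pvog_trans_add x
  have e : x - 1 + 1 = x := by ring
  rw [e]
  linarith

/-- the sum over a finite set of integers -/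
theorem pvog_psi_sum_le (A : Finset ℤ) (x : ℝ) : ∑ k ∈ A, pvogPsi (x - k) ≤ 1 := by
  classical
  have hz : ∀ k ∈ A, k ∉ ({⌊x⌋, ⌊x⌋ + 1} : Finset ℤ) → pvogPsi (x - k) = 0 := by
    intro k _ hk
    apply pvog_psi_zero
    simp only [Finset.mem_insert, Finset.mem_singleton, not_or] at hk
    have h1 := Int.floor_le x
    have h2 := Int.lt_floor_add_one x
    rcases lt_or_gt_of_ne hk.1 with h | h
    · have : (k : ℝ) + 1 ≤ ⌊x⌋ := by exact_mod_cast h
      rw [le_abs]; left; linarith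
    · have h' : ⌊x⌋ + 1 < k := lt_of_le_of_ne h (Ne.symm hk.2)
      have : ((⌊x⌋ : ℝ) + 1) + 1 ≤ k := by exact_mod_cast h'
      rw [le_abs]; right; linarith
  have e : ∑ k ∈ A, pvogPsi (x - k) = ∑ k ∈ A ∩ {⌊x⌋, ⌊x⌋ + 1}, pvogPsi (x - k) := by
    symm
    refine Finset.sum_subset Finset.inter_subset_left fun k hk hk' => hz k hk fun h => hk' (Finset.mem_inter.2 ⟨hk, h⟩)
  rw [e]
  calc ∑ k ∈ A ∩ {⌊x⌋, ⌊x⌋ + 1}, pvogPsi (x - k) ≤ ∑ k ∈ ({⌊x⌋, ⌊x⌋ + 1} : Finset ℤ), pvogPsi (x - k) :=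
        Finset.sum_le_sum_of_subset_of_nonneg Finset.inter_subset_right fun k _ _ => pvog_psi_nonneg _
    _ = 1 := by
        rw [Finset.sum_pair (by omega)]
        have := pvog_psi_two (x := x - ⌊x⌋) (by linarith [Int.floor_le x]) (by linarith [Int.lt_floor_add_one x])
        push_cast
        have e2 : x - ((⌊x⌋ : ℝ) + 1) = x - ⌊x⌋ - 1 := by ring
        rw [e2]
        exact this

theorem pvog_psi_sum_eq {A : Finset ℤ} {x : ℝ} (h0 : ⌊x⌋ ∈ A) (h1 : ⌊x⌋ + 1 ∈ A) : ∑ k ∈ A, pvogPsi (x - k) = 1 := by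
  classical
  refine le_antisymm (pvog_psi_sum_le A x) ?_
  calc (1 : ℝ) = ∑ k ∈ ({⌊x⌋, ⌊x⌋ + 1} : Finset ℤ), pvogPsi (x - k) := by
        rw [Finset.sum_pair (by omega)]
        have := pvog_psi_two (x := x - ⌊x⌋) (by linarith [Int.floor_le x]) (by linarith [Int.lt_floor_add_one x])
        push_cast
        have e2 : x - ((⌊x⌋ : ℝ) + 1) = x - ⌊x⌋ - 1 := by ring
        rw [e2]
        exact this.symm
    _ ≤ ∑ k ∈ A, pvogPsi (x - k) := by
        refine Finset.sum_le_sum_of_subset_of_nonneg ?_ fun k _ _ => pvog_psi_nonneg _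
        intro k hk
        simp only [Finset.mem_insert, Finset.mem_singleton] at hk
        rcases hk with rfl | rfl <;> assumption

/-- closed square of half side `s` -/
def pvogSq (z : ℂ) (s : ℝ) : Set ℂ := {w | |w.re - z.re| ≤ s ∧ |w.im - z.im| ≤ s}

/-- grid points -/
def pvogZ (s : ℝ) (k : ℤ × ℤ) : ℂ := ⟨s * k.1, s * k.2⟩

/-- the partition of unity at scale `s` -/
def pvogChi (s : ℝ) (k : ℤ × ℤ) (z : ℂ) : ℝ := pvogPsi (z.re / s - k.1) * pvogPsi (z.im / s - k.2)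

theorem pvog_chi_contDiff (s : ℝ) (k : ℤ × ℤ) : ContDiff ℝ ∞ (pvogChi s k) := by
  unfold pvogChi
  have h1 : ContDiff ℝ ∞ (fun z : ℂ => z.re / s - k.1) := (Complex.reCLM.contDiff.div_const s).sub contDiff_const
  have h2 : ContDiff ℝ ∞ (fun z : ℂ => z.im / s - k.2) := (Complex.imCLM.contDiff.div_const s).sub contDiff_const
  exact (pvog_psi_contDiff.comp h1).mul (pvog_psi_contDiff.comp h2)

theorem pvog_chi_nonneg (s : ℝ) (k : ℤ × ℤ) (z : ℂ) : 0 ≤ pvogChi s k z := mul_nonneg (pvog_psi_nonneg _) (pvog_psi_nonneg _)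

theorem pvog_chi_le_one (s : ℝ) (k : ℤ × ℤ) (z : ℂ) : pvogChi s k z ≤ 1 :=
  mul_le_one₀ (pvog_psi_le_one _) (pvog_psi_nonneg _) (pvog_psi_le_one _)

theorem pvog_chi_zero {s : ℝ} (hs : 0 < s) {k : ℤ × ℤ} {z : ℂ} (h : z ∉ pvogSq (pvogZ s k) s) : pvogChi s k z = 0 := by
  unfold pvogChi
  have key : ∀ (x : ℝ) (j : ℤ), s < |x - s * j| → 1 ≤ |x / s - j| := by
    intro x j hx
    have e : x / s - j = (x - s * j) / s := by field_simp
    rw [e, abs_div, abs_of_pos hs, le_div_iff₀ hs]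
    linarith
  simp only [pvogSq, pvogZ, mem_ofPred_eq, not_and_or, not_le] at h
  rcases h with h | h
  · rw [pvog_psi_zero (key _ _ h), zero_mul]
  · rw [pvog_psi_zero (key _ _ h), mul_zero]

theorem pvog_sq_isCompact (z : ℂ) (s : ℝ) : IsCompact (pvogSq z s) := by
  have e : pvogSq z s = Icc (z.re - s) (z.re + s) ×ℂ Icc (z.im - s) (z.im + s) := by
    ext w
    simp only [pvogSq, mem_ofPred_eq, abs_le, Complex.mem_reProdIm, mem_Icc]
    constructor
    · rintro ⟨⟨a, b⟩, c, d⟩; exact ⟨⟨by linarith, by linarith⟩, by linarith, by linarith⟩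
    · rintro ⟨⟨a, b⟩, c, d⟩; exact ⟨⟨by linarith, by linarith⟩, by linarith, by linarith⟩
  rw [e]
  exact isCompact_Icc.reProdIm isCompact_Icc

theorem pvog_sq_measurable (z : ℂ) (s : ℝ) : MeasurableSet (pvogSq z s) := (pvog_sq_isCompact z s).isClosed.measurableSet

theorem pvog_chi_compact {s : ℝ} (hs : 0 < s) (k : ℤ × ℤ) : HasCompactSupport (pvogChi s k) :=
  HasCompactSupport.intro (pvog_sq_isCompact (pvogZ s k) s) fun _ h => pvog_chi_zero hs h

theorem pvog_sq_dist {z w : ℂ} {s : ℝ} (h : w ∈ pvogSq z s) : dist w z ≤ 2 * s := by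
  rw [Complex.dist_eq]
  have h1 := Complex.norm_le_abs_re_add_abs_im (w - z)
  simp only [Complex.sub_re, Complex.sub_im] at h1
  linarith [h.1, h.2]

theorem pvog_chi_sum_le (s : ℝ) (A : Finset (ℤ × ℤ)) (z : ℂ) : ∑ k ∈ A, pvogChi s k z ≤ 1 := by
  classical
  calc ∑ k ∈ A, pvogChi s k z ≤ ∑ k ∈ A.image Prod.fst ×ˢ A.image Prod.snd, pvogChi s k z := by
        refine Finset.sum_le_sum_of_subset_of_nonneg ?_ fun k _ _ => pvog_chi_nonneg _ _ _
        intro k hk
        exact Finset.mem_product.2 ⟨Finset.mem_image_of_mem _ hk, Finset.mem_image_of_mem _ hk⟩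
    _ = (∑ i ∈ A.image Prod.fst, pvogPsi (z.re / s - i)) * ∑ j ∈ A.image Prod.snd, pvogPsi (z.im / s - j) := by
        rw [Finset.sum_product, Finset.sum_mul_sum]
        rfl
    _ ≤ 1 := mul_le_one₀ (pvog_psi_sum_le _ _) (Finset.sum_nonneg fun _ _ => pvog_psi_nonneg _) (pvog_psi_sum_le _ _)

theorem pvog_chi_sum_eq {s : ℝ} (hs : 0 < s) {A : Finset (ℤ × ℤ)} {z : ℂ} (h : ∀ k, z ∈ pvogSq (pvogZ s k) s → k ∈ A) : ∑ k ∈ A, pvogChi s k z = 1 := by
  classical
  set A1 := insert ⌊z.re / s⌋ (insert (⌊z.re / s⌋ + 1) (A.image Prod.fst))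
  set A2 := insert ⌊z.im / s⌋ (insert (⌊z.im / s⌋ + 1) (A.image Prod.snd))
  have hsub : A ⊆ A1 ×ˢ A2 := by
    intro k hk
    refine Finset.mem_product.2 ⟨?_, ?_⟩
    · exact Finset.mem_insert_of_mem (Finset.mem_insert_of_mem (Finset.mem_image_of_mem _ hk))
    · exact Finset.mem_insert_of_mem (Finset.mem_insert_of_mem (Finset.mem_image_of_mem _ hk))
  rw [Finset.sum_subset hsub fun k _ hk => pvog_chi_zero hs fun hz => hk (h k hz)]
  have e : ∑ k ∈ A1 ×ˢ A2, pvogChi s k z = (∑ i ∈ A1, pvogPsi (z.re / s - i)) * ∑ j ∈ A2, pvogPsi (z.im / s - j) := by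
    rw [Finset.sum_product, Finset.sum_mul_sum]
    rfl
  rw [e, pvog_psi_sum_eq (Finset.mem_insert_self _ _) (Finset.mem_insert_of_mem (Finset.mem_insert_self _ _)),
    pvog_psi_sum_eq (Finset.mem_insert_self _ _) (Finset.mem_insert_of_mem (Finset.mem_insert_self _ _)), one_mul]

/-! ## 2. the index set of a bounded set -/

open Classical in
/-- (G1) the grid points at distance `< r` from `K` -/
def pvogJ (K : Set ℂ) (r s : ℝ) : Finset (ℤ × ℤ) :=
  if h : {k : ℤ × ℤ | Metric.infDist (pvogZ s k) K < r}.Finite then h.toFinset else ∅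

/-- (G2) the remainder of the partition -/
def pvogOut (K : Set ℂ) (r s : ℝ) (z : ℂ) : ℝ := 1 - ∑ k ∈ pvogJ K r s, pvogChi s k z

theorem pvog_eqns_cite : True := by
  have := @pvogPsi.eq_1
  have := @pvogSq.eq_1
  have := @pvogZ.eq_1
  have := @pvogChi.eq_1
  have := @pvogJ.eq_1
  have := @pvogOut.eq_1
  trivial

theorem pvog_Z_box {K : Set ℂ} {R r s : ℝ} (hK : K ⊆ Metric.closedBall 0 R) (hne : K.Nonempty) (hs : 0 < s) {k : ℤ × ℤ}
    (hk : Metric.infDist (pvogZ s k) K < r) :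
    k ∈ Finset.Icc (-⌈(R + r) / s⌉) ⌈(R + r) / s⌉ ×ˢ Finset.Icc (-⌈(R + r) / s⌉) ⌈(R + r) / s⌉ := by
  obtain ⟨y, hy, hyd⟩ := (Metric.infDist_lt_iff hne).1 hk
  have hn : ‖pvogZ s k‖ < R + r := by
    have h1 : ‖y‖ ≤ R := by simpa using hK hy
    have h2 : ‖pvogZ s k‖ ≤ dist (pvogZ s k) y + ‖y‖ := by
      rw [dist_eq_norm]
      calc ‖pvogZ s k‖ = ‖(pvogZ s k - y) + y‖ := by rw [sub_add_cancel]
        _ ≤ _ := norm_add_le _ _
    linarith
  have key : ∀ j : ℤ, |s * (j : ℝ)| < R + r → j ∈ Finset.Icc (-⌈(R + r) / s⌉) ⌈(R + r) / s⌉ := by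
    intro j hj
    rw [abs_mul, abs_of_pos hs] at hj
    have h1 : |(j : ℝ)| < (R + r) / s := by rw [lt_div_iff₀ hs]; linarith
    have h2 := Int.le_ceil ((R + r) / s)
    have h3 := abs_lt.1 h1
    rw [Finset.mem_Icc]
    constructor
    · have : ((-⌈(R + r) / s⌉ : ℤ) : ℝ) ≤ j := by push_cast; linarith
      exact_mod_cast this
    · have : (j : ℝ) ≤ ⌈(R + r) / s⌉ := by linarith
      exact_mod_cast this
  refine Finset.mem_product.2 ⟨key _ ?_, key _ ?_⟩
  · exact lt_of_le_of_lt (Complex.abs_re_le_norm (pvogZ s k)) hn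
  · exact lt_of_le_of_lt (Complex.abs_im_le_norm (pvogZ s k)) hn

theorem pvog_J_mem {K : Set ℂ} (hK : Bornology.IsBounded K) (hne : K.Nonempty) {r s : ℝ} (hs : 0 < s) {k : ℤ × ℤ} :
    k ∈ pvogJ K r s ↔ Metric.infDist (pvogZ s k) K < r := by
  obtain ⟨R, hR⟩ := hK.subset_closedBall 0
  have hfin : {k : ℤ × ℤ | Metric.infDist (pvogZ s k) K < r}.Finite :=
    (Finset.finite_toSet _).subset fun k hk => pvog_Z_box hR hne hs hk
  unfold pvogJ
  rw [dif_pos hfin]
  simp

/-- (G1) the count -/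
theorem pvog_J_card {K : Set ℂ} {R r s : ℝ} (hK : K ⊆ Metric.closedBall 0 R) (hne : K.Nonempty) (hs : 0 < s) (hs1 : s ≤ 1) (hr : 0 ≤ R + r) :
    ((pvogJ K r s).card : ℝ) * s ^ 2 ≤ (2 * (R + r) + 3) ^ 2 := by
  have hKb : Bornology.IsBounded K := Metric.isBounded_closedBall.subset hK
  set N := ⌈(R + r) / s⌉ with hN
  have hN0 : 0 ≤ N := Int.ceil_nonneg (div_nonneg hr hs.le)
  have hsub : pvogJ K r s ⊆ Finset.Icc (-N) N ×ˢ Finset.Icc (-N) N := fun k hk => pvog_Z_box hK hne hs ((pvog_J_mem hKb hne hs).1 hk)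
  have hc : (pvogJ K r s).card ≤ (2 * N + 1).toNat * (2 * N + 1).toNat := by
    refine (Finset.card_le_card hsub).trans ?_
    rw [Finset.card_product, Int.card_Icc]
    have : N + 1 - -N = 2 * N + 1 := by ring
    rw [this]
  have hcast : (((2 * N + 1).toNat : ℕ) : ℝ) = 2 * (N : ℝ) + 1 := by
    have h := Int.toNat_of_nonneg (by omega : 0 ≤ 2 * N + 1)
    have h' : (((2 * N + 1).toNat : ℤ) : ℝ) = ((2 * N + 1 : ℤ) : ℝ) := by rw [h]
    push_cast at h'
    exact h'
  have hcR : ((pvogJ K r s).card : ℝ) ≤ (2 * (N : ℝ) + 1) ^ 2 := by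
    calc ((pvogJ K r s).card : ℝ) ≤ (((2 * N + 1).toNat * (2 * N + 1).toNat : ℕ) : ℝ) := by exact_mod_cast hc
      _ = _ := by push_cast; rw [hcast]; ring
  have hN0' : (0 : ℝ) ≤ N := by exact_mod_cast hN0
  have hNs : (2 * (N : ℝ) + 1) * s ≤ 2 * (R + r) + 3 := by
    have h0 : (N : ℝ) < (R + r) / s + 1 := Int.ceil_lt_add_one _
    have h1 : (N : ℝ) * s ≤ (R + r) + s := by
      calc (N : ℝ) * s ≤ ((R + r) / s + 1) * s := mul_le_mul_of_nonneg_right h0.le hs.le
        _ = R + r + s := by field_simp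
    nlinarith
  calc ((pvogJ K r s).card : ℝ) * s ^ 2 ≤ (2 * (N : ℝ) + 1) ^ 2 * s ^ 2 := mul_le_mul_of_nonneg_right hcR (sq_nonneg s)
    _ = ((2 * (N : ℝ) + 1) * s) ^ 2 := by ring
    _ ≤ _ := pow_le_pow_left₀ (by positivity) hNs 2

/-- (G2) the partition is complete near `K` -/
theorem pvog_J_sum_eq {K : Set ℂ} (hK : Bornology.IsBounded K) (hne : K.Nonempty) {r s : ℝ} (hs : 0 < s) {z : ℂ}
    (hz : Metric.infDist z K < r - 2 * s) : ∑ k ∈ pvogJ K r s, pvogChi s k z = 1 := by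
  refine pvog_chi_sum_eq hs fun k hk => (pvog_J_mem hK hne hs).2 ?_
  have h1 := pvog_sq_dist hk
  have h2 : Metric.infDist (pvogZ s k) K ≤ Metric.infDist z K + dist (pvogZ s k) z := Metric.infDist_le_infDist_add_dist
  rw [dist_comm] at h2
  linarith

theorem pvog_out_contDiff (K : Set ℂ) (r s : ℝ) : ContDiff ℝ ∞ (pvogOut K r s) := by
  unfold pvogOut
  exact contDiff_const.sub (ContDiff.sum fun k _ => pvog_chi_contDiff s k)

theorem pvog_out_nonneg (K : Set ℂ) (r s : ℝ) (z : ℂ) : 0 ≤ pvogOut K r s z := sub_nonneg.2 (pvog_chi_sum_le s _ z)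

theorem pvog_out_le_one (K : Set ℂ) (r s : ℝ) (z : ℂ) : pvogOut K r s z ≤ 1 := by
  have : 0 ≤ ∑ k ∈ pvogJ K r s, pvogChi s k z := Finset.sum_nonneg fun k _ => pvog_chi_nonneg _ _ _
  unfold pvogOut
  linarith

theorem pvog_out_zero {K : Set ℂ} (hK : Bornology.IsBounded K) (hne : K.Nonempty) {r s : ℝ} (hs : 0 < s) {z : ℂ}
    (hz : Metric.infDist z K < r - 2 * s) : pvogOut K r s z = 0 := by
  unfold pvogOut
  rw [pvog_J_sum_eq hK hne hs hz, sub_self]

theorem pvog_out_add (K : Set ℂ) (r s : ℝ) (z : ℂ) : ∑ k ∈ pvogJ K r s, pvogChi s k z + pvogOut K r s z = 1 := by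
  unfold pvogOut
  ring

/-- the support of `χ_k` in the form of a ball -/
theorem pvog_chi_zero_ball {s : ℝ} (hs : 0 < s) {k : ℤ × ℤ} {z : ℂ} {ρ : ℝ} (hρ : 2 * s < ρ) (h : z ∉ Metric.ball (pvogZ s k) ρ) : pvogChi s k z = 0 := by
  refine pvog_chi_zero hs fun hz => h ?_
  exact Metric.mem_ball.2 (lt_of_le_of_lt (pvog_sq_dist hz) hρ)

/-! ## 3. the Riemann sums -/

/-- (G3) **Riemann sums along the smooth grid** -/
theorem pvog_riemann {K : Set ℂ} (hK : IsCompact K) (hne : K.Nonempty) {r : ℝ} (hr : 0 < r) {F h : ℂ → ℂ}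
    (hF : ContinuousOn F (Metric.cthickening r K)) (hh : Continuous h) (hh0 : ∀ z, z ∉ K → h z = 0) {τ : ℝ} (hτ : 0 < τ) :
    ∃ s0 : ℝ, 0 < s0 ∧ ∀ s : ℝ, 0 < s → s ≤ s0 →
      ‖(∑ k ∈ pvogJ K r s, F (pvogZ s k) * ∫ z, (pvogChi s k z : ℂ) * h z) - ∫ z, F z * h z‖ ≤ τ := by
  have hKb := hK.isBounded
  have hK1 : IsCompact (Metric.cthickening r K) := hK.cthickening
  have hKK1 : K ⊆ Metric.cthickening r K := Metric.self_subset_cthickening K
  have hhc : HasCompactSupport h := HasCompactSupport.intro hK hh0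
  have hhi : Integrable h := hh.integrable_of_hasCompactSupport hhc
  set I := ∫ z, ‖h z‖ with hI
  have hI0 : 0 ≤ I := integral_nonneg fun _ => norm_nonneg _
  have huc := hK1.uniformContinuousOn_of_continuous hF
  rw [Metric.uniformContinuousOn_iff_le] at huc
  obtain ⟨δ, hδ, huc⟩ := huc (τ / (I + 1)) (by positivity)
  refine ⟨min (δ / 2) (r / 3), by positivity, fun s hs hs0 => ?_⟩
  have hsδ : 2 * s ≤ δ := by have := hs0.trans (min_le_left _ _); linarith
  have hsr : 2 * s < r := by have := hs0.trans (min_le_right _ _); linarith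
  -- integrability
  have hG : Integrable (fun z => F z * h z) := by
    have e : (fun z => F z * h z) = K.indicator (fun z => F z * h z) := by
      funext z
      by_cases hz : z ∈ K
      · rw [indicator_of_mem hz]
      · rw [indicator_of_notMem hz, hh0 z hz, mul_zero]
    rw [e, integrable_indicator_iff hK.measurableSet]
    exact ((hF.mono hKK1).mul hh.continuousOn).integrableOn_compact hK
  have hχc : ∀ k, Continuous (fun z => (pvogChi s k z : ℂ)) := fun k => Complex.continuous_ofReal.comp (pvog_chi_contDiff s k).continuous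
  have hχn : ∀ k z, ‖(pvogChi s k z : ℂ)‖ ≤ 1 := fun k z => by
    rw [Complex.norm_real, Real.norm_of_nonneg (pvog_chi_nonneg s k z)]; exact pvog_chi_le_one s k z
  have hχh : ∀ k, Integrable (fun z => (pvogChi s k z : ℂ) * h z) := fun k =>
    hhi.norm.mono' ((hχc k).aestronglyMeasurable.mul hhi.aestronglyMeasurable) (Eventually.of_forall fun z => by
      rw [norm_mul]; exact mul_le_of_le_one_left (norm_nonneg _) (hχn k z))
  have hχG : ∀ k, Integrable (fun z => (pvogChi s k z : ℂ) * (F z * h z)) := fun k =>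
    hG.norm.mono' ((hχc k).aestronglyMeasurable.mul hG.aestronglyMeasurable) (Eventually.of_forall fun z => by
      rw [norm_mul]; exact mul_le_of_le_one_left (norm_nonneg _) (hχn k z))
  -- the integral is cut by the partition
  have hcut : ∫ z, F z * h z = ∑ k ∈ pvogJ K r s, ∫ z, (pvogChi s k z : ℂ) * (F z * h z) := by
    rw [← integral_finsetSum _ fun k _ => hχG k]
    refine integral_congr_ae (Eventually.of_forall fun z => ?_)
    simp only
    rw [← Finset.sum_mul]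
    by_cases hz : z ∈ K
    · have h1 : ∑ k ∈ pvogJ K r s, pvogChi s k z = 1 := by
        refine pvog_J_sum_eq hKb hne hs ?_
        rw [Metric.infDist_zero_of_mem hz]; linarith
      have h2 : ∑ k ∈ pvogJ K r s, (pvogChi s k z : ℂ) = 1 := by exact_mod_cast h1
      rw [h2, one_mul]
    · rw [hh0 z hz, mul_zero, mul_zero]
  rw [hcut, ← Finset.sum_sub_distrib]
  have hterm : ∀ k ∈ pvogJ K r s, ‖(F (pvogZ s k) * ∫ z, (pvogChi s k z : ℂ) * h z) - ∫ z, (pvogChi s k z : ℂ) * (F z * h z)‖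
      ≤ ∫ z, pvogChi s k z * (τ / (I + 1) * ‖h z‖) := by
    intro k hk
    rw [← integral_const_mul, ← integral_sub ((hχh k).const_mul _) (hχG k)]
    refine norm_integral_le_of_norm_le ?_ (Eventually.of_forall fun z => ?_)
    · refine (hhi.norm.const_mul (τ / (I + 1))).mono' ((pvog_chi_contDiff s k).continuous.aestronglyMeasurable.mul
        (hhi.norm.const_mul (τ / (I + 1))).aestronglyMeasurable) (Eventually.of_forall fun z => ?_)
      rw [norm_mul, Real.norm_of_nonneg (pvog_chi_nonneg s k z)]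
      refine (mul_le_of_le_one_left (norm_nonneg _) (pvog_chi_le_one s k z)).trans (le_of_eq ?_)
      exact Real.norm_of_nonneg (by positivity)
    · have e : F (pvogZ s k) * ((pvogChi s k z : ℂ) * h z) - (pvogChi s k z : ℂ) * (F z * h z)
          = (pvogChi s k z : ℂ) * ((F (pvogZ s k) - F z) * h z) := by ring
      rw [e, norm_mul, Complex.norm_real, Real.norm_of_nonneg (pvog_chi_nonneg s k z), norm_mul]
      by_cases hz : z ∈ K
      · by_cases hzs : z ∈ pvogSq (pvogZ s k) s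
        · refine mul_le_mul_of_nonneg_left (mul_le_mul_of_nonneg_right ?_ (norm_nonneg _)) (pvog_chi_nonneg s k z)
          have hk1 : pvogZ s k ∈ Metric.cthickening r K := by
            obtain ⟨y, hy, hyd⟩ := (Metric.infDist_lt_iff hne).1 ((pvog_J_mem hKb hne hs).1 hk)
            exact Metric.mem_cthickening_of_dist_le _ y r K hy hyd.le
          have := huc _ hk1 z (hKK1 hz) (by rw [dist_comm]; exact (pvog_sq_dist hzs).trans hsδ)
          rwa [dist_eq_norm] at this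
        · rw [pvog_chi_zero hs hzs, zero_mul, zero_mul]
      · rw [hh0 z hz]; simp
  refine (norm_sum_le _ _).trans ((Finset.sum_le_sum hterm).trans ?_)
  have hi : ∀ k, Integrable (fun z => pvogChi s k z * (τ / (I + 1) * ‖h z‖)) := fun k => by
    refine (hhi.norm.const_mul (τ / (I + 1))).mono' ((pvog_chi_contDiff s k).continuous.aestronglyMeasurable.mul
      (hhi.norm.const_mul (τ / (I + 1))).aestronglyMeasurable) (Eventually.of_forall fun z => ?_)
    rw [norm_mul, Real.norm_of_nonneg (pvog_chi_nonneg s k z)]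
    refine (mul_le_of_le_one_left (norm_nonneg _) (pvog_chi_le_one s k z)).trans (le_of_eq ?_)
    exact Real.norm_of_nonneg (by positivity)
  rw [← integral_finsetSum _ fun k _ => hi k]
  calc ∫ z, ∑ k ∈ pvogJ K r s, pvogChi s k z * (τ / (I + 1) * ‖h z‖) ≤ ∫ z, τ / (I + 1) * ‖h z‖ := by
        refine integral_mono (integrable_finsetSum _ fun k _ => hi k) (hhi.norm.const_mul _) fun z => ?_
        simp only
        rw [← Finset.sum_mul]
        exact mul_le_of_le_one_left (by positivity) (pvog_chi_sum_le s _ z)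
    _ = τ / (I + 1) * I := by rw [integral_const_mul]
    _ ≤ τ := by
        rw [div_mul_eq_mul_div, div_le_iff₀ (by positivity)]
        nlinarith

/-! ## 4. Cauchy-Schwarz -/

/-- second moments given as a lower integral (form of the field `var` of `PvoCR`) -/
theorem pvog_sq_integrable {Ω : Type} [MeasurableSpace Ω] {μ : Measure Ω} {T : Ω → ℝ} (hT : Measurable T) {b : ℝ} (hb0 : 0 ≤ b)
    (hb : ∫⁻ o, ENNReal.ofReal (T o ^ 2) ∂μ ≤ ENNReal.ofReal b) : Integrable (fun o => T o ^ 2) μ ∧ ∫ o, T o ^ 2 ∂μ ≤ b := by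
  have hm : AEStronglyMeasurable (fun o => T o ^ 2) μ := (hT.pow_const 2).aestronglyMeasurable
  have h0 : 0 ≤ᵐ[μ] fun o => T o ^ 2 := Eventually.of_forall fun o => sq_nonneg _
  refine ⟨⟨hm, (hasFiniteIntegral_iff_ofReal h0).2 (lt_of_le_of_lt hb ENNReal.ofReal_lt_top)⟩, ?_⟩
  rw [integral_eq_lintegral_of_nonneg_ae h0 hm]
  exact ENNReal.toReal_le_of_le_ofReal hb0 hb

/-- Cauchy-Schwarz in the form used with ARM (`0 ≤ q ≤ 2`, `∫ q ≤ a`) and VAR (`∫⁻ T² ≤ b`): `∫ q T ≤ t a + b / (2 t)` for every `t > 0`      (with `a = η`, `b = C r⁴`, `t = r² / √η`: `≤ (1 + C/2) r² √η`) -/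
theorem pvog_cs {Ω : Type} [MeasurableSpace Ω] {μ : Measure Ω} [IsProbabilityMeasure μ] {q T : Ω → ℝ} (hq : Measurable q) (hq02 : ∀ o, 0 ≤ q o ∧ q o ≤ 2)
    (hT : Measurable T) (hT0 : ∀ o, 0 ≤ T o) {a b : ℝ} (ha : ∫ o, q o ∂μ ≤ a) (hb0 : 0 ≤ b)
    (hb : ∫⁻ o, ENNReal.ofReal (T o ^ 2) ∂μ ≤ ENNReal.ofReal b) {t : ℝ} (ht : 0 < t) :
    Integrable (fun o => q o * T o) μ ∧ ∫ o, q o * T o ∂μ ≤ t * a + b / (2 * t) := by
  obtain ⟨hT2, hT2b⟩ := pvog_sq_integrable hT hb0 hb
  have hqi : Integrable q μ := by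
    refine (integrable_const (2 : ℝ)).mono' hq.aestronglyMeasurable (Eventually.of_forall fun o => ?_)
    rw [Real.norm_of_nonneg (hq02 o).1]; exact (hq02 o).2
  have hTi : Integrable T μ := ((memLp_two_iff_integrable_sq hT.aestronglyMeasurable).2 hT2).integrable one_le_two
  have hi : Integrable (fun o => q o * T o) μ := by
    refine (hTi.const_mul 2).mono' (hq.mul hT).aestronglyMeasurable (Eventually.of_forall fun o => ?_)
    rw [Real.norm_of_nonneg (mul_nonneg (hq02 o).1 (hT0 o))]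
    exact mul_le_mul_of_nonneg_right (hq02 o).2 (hT0 o)
  refine ⟨hi, ?_⟩
  have hpt : ∀ o, q o * T o ≤ t * q o + T o ^ 2 / (2 * t) := by
    intro o
    have h1 : 0 ≤ (t * q o - T o) ^ 2 / (2 * t) := div_nonneg (sq_nonneg _) (by positivity)
    have h2 : (t * q o - T o) ^ 2 / (2 * t) = t * q o ^ 2 / 2 - q o * T o + T o ^ 2 / (2 * t) := by field_simp; ring
    have h3 : q o ^ 2 ≤ 2 * q o := by nlinarith [hq02 o]
    have h4 : t * q o ^ 2 ≤ t * (2 * q o) := mul_le_mul_of_nonneg_left h3 ht.le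
    linarith
  calc ∫ o, q o * T o ∂μ ≤ ∫ o, (t * q o + T o ^ 2 / (2 * t)) ∂μ :=
        integral_mono hi ((hqi.const_mul t).add (hT2.div_const (2 * t))) hpt
    _ = t * ∫ o, q o ∂μ + (∫ o, T o ^ 2 ∂μ) / (2 * t) := by
        rw [integral_add (hqi.const_mul t) (hT2.div_const (2 * t)), integral_const_mul, integral_div]
    _ ≤ _ := add_le_add (mul_le_mul_of_nonneg_left ha ht.le) (div_le_div_of_nonneg_right hT2b (by positivity))

/-- the optimised form -/
theorem pvog_cs' {Ω : Type} [MeasurableSpace Ω] {μ : Measure Ω} [IsProbabilityMeasure μ] {q T : Ω → ℝ} (hq : Measurable q) (hq02 : ∀ o, 0 ≤ q o ∧ q o ≤ 2)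
    (hT : Measurable T) (hT0 : ∀ o, 0 ≤ T o) {η C r : ℝ} (hη : 0 < η) (hC : 0 ≤ C) (hr : 0 < r) (ha : ∫ o, q o ∂μ ≤ η)
    (hb : ∫⁻ o, ENNReal.ofReal (T o ^ 2) ∂μ ≤ ENNReal.ofReal (C * r ^ 4)) :
    Integrable (fun o => q o * T o) μ ∧ ∫ o, q o * T o ∂μ ≤ (1 + C / 2) * (r ^ 2 * √η) := by
  have hsq : 0 < √η := Real.sqrt_pos.2 hη
  have h := pvog_cs hq hq02 hT hT0 ha (by positivity) hb (t := r ^ 2 / √η) (by positivity)
  refine ⟨h.1, h.2.trans (le_of_eq ?_)⟩
  have e : η = √η ^ 2 := (Real.sq_sqrt hη.le).symm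
  have e1 : r ^ 2 / √η * η = r ^ 2 * √η := by
    nth_rewrite 2 [e]
    field_simp
  have e2 : C * r ^ 4 / (2 * (r ^ 2 / √η)) = C / 2 * (r ^ 2 * √η) := by field_simp
  rw [e1, e2]
  ring

end
end Claimed.Agent.R289
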