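import Claimed.Agent.R289.Obs.QuadBase
import Claimed.Agent.R289.Del.Plane

/-!
# Row 289 (S0537, Cardy for Poisson-Voronoi), unit OBS, file Obs/InstVar: THE DICTIONARY OF THE DARTS = fields `var`, `out`, `lim` OF `PvoCR` FOR THE INSTANCE      (owner helper48; prefix `pviv_`, `Pviv`, `pviv*`)

Post of helper243 (09:03Z).   `Obs/QuadBase` (helper199, `pvob_in`) closes MESH + TILE + QUAD up to the dictionary between the edge system of the instance and dart systems.   This file is the dictionary.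

UNIVERSAL NAMES: `S.Ed` must not depend on the geometry, so a dart is named by the ORDERED PAIR OF ITS END POINTS: `Ed := ℂ × ℂ`.
* `pvivTr Y (a, b) = (a, b, delApex Y a b)` the face on the left, `op = Prod.swap`, midpoint `(a + b) / 2`, weight `pvqdC f (pvivTr Y) Prod.swap`  (`= (a - b) (f(z_t) - f(z_t'))`, clockwise side vector of the paper).
* `PvivDarts Y E`     `E : Finset (ℂ × ℂ)` is a set of Delaunay darts of `Y`, stable under `swap`  (`DelGood Y` only if `E ≠ ∅`).      `PvivDarts.ok : PvqdOk ..`, `PvivDarts.tri` (= `hT` of `pvob_in`).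
* `pvivBulk h A hA`   THE BULK DARTS OF A FINITE FACE SET `A` of the Delaunay plane `delPl h` (`A = c.Left`): the darts `d` with `d ∈ A` and `opp d ∈ A`.      `pviv_bulk_darts`, `pviv_mem_bulk`,
                      `pviv_bulk_full`: a Delaunay triangle whose first two vertices are INTERIOR vertices of `A` (`T.Int A`) is `pvivTr` of a bulk dart.
* `pvivSys P E Fe R : PvoSys PvfBase`     the constructor of the instance (`Fe`, `R`, `E` free); `pviv_sub`, `pviv_conj` (stable under subsequences and conjugation, by `rfl`); `pviv_dict : PvqdDict ..` for EVERY test function.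
* **EXIT** `pviv_in` (`PvoiIn`), `pviv_cr` (`PvoCR` from the field `cr` alone).      The bad events are ARBITRARY sets, only their OUTER probability is asked to tend to `0` (ruling 4 of helper174): measurable hulls are taken here.
* `PvivDisc ε E D`    THE DISC CONTRACT: for every compact `K ⊆ D`, off sets of outer probability `→ 0`, all the Delaunay darts issued from the sites of `K` are darts of the system;   `.sub`;
                      `pviv_disc_of_int` (from `E k b = pvivBulk hg A hA`, `A` a finite union of faces, sites of `K` in `T.Int A` = field `inner` of `PvgDk.Ok` + `pl_left_face`).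
* **EXIT** `pviv_cr_loc`, `pviv_cr_all : PvivDarts + junk + PvivDisc + cr ⟹ PvoCRAll (pvivSys ..) (2 * I) D`   (the mesh event is added here: `pviv_vertex_near`).
WHAT THE INSTANCE (`Obs/Inst`, helper111) STILL OWES FOR `PvoCRAll`: `S := pvivSys (pvfBaseLaw ∘ ε) E Fe R` with `E k b := if b ∈ pvobTame (ε k) ∧ (disc exists) then pvivBulk _ c.Left _ else ∅`;  `PvivDisc` (DISC, probability);  `cr` (CR seam, helper289 / helper7).
-/

set_option autoImplicit false

namespace Claimed.Agent.R289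

open MeasureTheory Filter Topology Set Complex
open Claims Claims.C0465
open scoped ContDiff ENNReal

/-! ## 1. universal darts -/

/-- the face on the left of the dart `a → b` in the Delaunay triangulation of `Y` -/
noncomputable def pvivTr (Y : Set ℂ) (e : ℂ × ℂ) : ℂ × ℂ × ℂ := (e.1, e.2, delApex Y e.1 e.2)

/-- a finite set of Delaunay darts of `Y`, both orientations of every edge -/
structure PvivDarts (Y : Set ℂ) (E : Finset (ℂ × ℂ)) : Prop where
  good : E.Nonempty → DelGood Y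
  adj : ∀ e ∈ E, DelAdj Y e.1 e.2
  swap : ∀ e ∈ E, e.swap ∈ E

theorem pviv_eqns_cite : True := by
  have := @pvivTr.eq_1
  trivial

theorem pviv_darts_empty (Y : Set ℂ) : PvivDarts Y ∅ :=
  ⟨fun h => absurd h (by simp), fun e he => absurd he (by simp), fun e he => absurd he (by simp)⟩

namespace PvivDarts

variable {Y : Set ℂ} {E : Finset (ℂ × ℂ)}

/-- `hT` of `pvob_in` -/
theorem tri (h : PvivDarts Y E) : ∀ e ∈ E, DelTri Y (pvivTr Y e).1 (pvivTr Y e).2.1 (pvivTr Y e).2.2 :=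
  fun e he => delp_apex_spec (h.good ⟨e, he⟩) (h.adj e he)

theorem ok (h : PvivDarts Y E) : PvqdOk E (pvivTr Y) Prod.swap where
  op_mem := h.swap
  op_op := fun e _ => Prod.swap_swap e
  opp1 := fun _ _ => rfl
  opp2 := fun _ _ => rfl
  pos := fun e he => (h.tri e he).2.2.2.1
  inj := fun _ _ _ _ hee => Prod.ext (congrArg (fun t : ℂ × ℂ × ℂ => t.1) hee) (congrArg (fun t : ℂ × ℂ × ℂ => t.2.1) hee)

/-- a Delaunay triangle whose first side is a dart of `E` is the face of this dart -/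
theorem tr_eq (h : PvivDarts Y E) {x y z : ℂ} (hxy : (x, y) ∈ E) (ht : DelTri Y x y z) : pvivTr Y (x, y) = (x, y, z) := by
  unfold pvivTr
  rw [del_apex_eq (h.good ⟨_, hxy⟩).gp ht]

end PvivDarts

/-! ## 2. the bulk darts of a finite face set of the Delaunay plane -/

section bulk

variable {Y : Set ℂ} (h : DelGood Y)

open Classical in
/-- the darts `d` with `d ∈ A` and `opp d ∈ A`, named by their end points -/
noncomputable def pvivBulk (A : Set (delPl h).Dart) (hA : A.Finite) : Finset (ℂ × ℂ) :=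
  (hA.toFinset.filter fun d => (delPl h).toMap.opp d ∈ A).image fun d => ((d.1.1 : ℂ), (d.1.2 : ℂ))

theorem pviv_eqns_cite2 : True := by
  have := @pvivBulk.eq_1
  trivial

variable {h}

theorem pviv_mem_bulk {A : Set (delPl h).Dart} {hA : A.Finite} {e : ℂ × ℂ} :
    e ∈ pvivBulk h A hA ↔ ∃ d : (delPl h).Dart, d ∈ A ∧ (delPl h).toMap.opp d ∈ A ∧ ((d.1.1 : ℂ), (d.1.2 : ℂ)) = e := by
  classical
  unfold pvivBulk
  simp only [Finset.mem_image, Finset.mem_filter, Set.Finite.mem_toFinset, and_assoc]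

theorem pviv_bulk_darts (A : Set (delPl h).Dart) (hA : A.Finite) : PvivDarts Y (pvivBulk h A hA) := by
  refine ⟨fun _ => h, fun e he => ?_, fun e he => ?_⟩
  · obtain ⟨d, -, -, rfl⟩ := pviv_mem_bulk.1 he
    exact d.2
  · obtain ⟨d, h1, h2, rfl⟩ := pviv_mem_bulk.1 he
    exact pviv_mem_bulk.2 ⟨(delPl h).toMap.opp d, h2, by rw [(delPl h).toMap.opp_opp]; exact h1, rfl⟩

/-- a dart both of whose end points are interior vertices of `A` is a bulk dart -/
theorem pviv_bulk_of_int {A : Set (delPl h).Dart} {hA : A.Finite} {x y : ℂ} (hxy : DelAdj Y x y)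
    (hx : (⟨x, hxy.1⟩ : ↥Y) ∈ (delPl h).toMap.Int A) (hy : (⟨y, hxy.2.1⟩ : ↥Y) ∈ (delPl h).toMap.Int A) : (x, y) ∈ pvivBulk h A hA :=
  pviv_mem_bulk.2 ⟨⟨(⟨x, hxy.1⟩, ⟨y, hxy.2.1⟩), hxy⟩, hx _ rfl, hy _ rfl, rfl⟩

/-- `A` a union of faces: ALL the darts issued from an interior vertex are bulk darts -/
theorem pviv_bulk_of_int_left {A : Set (delPl h).Dart} {hA : A.Finite} (hF : (delPl h).toMap.FaceSet A) {x y : ℂ} (hxy : DelAdj Y x y)
    (hx : (⟨x, hxy.1⟩ : ↥Y) ∈ (delPl h).toMap.Int A) : (x, y) ∈ pvivBulk h A hA := by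
  refine pviv_mem_bulk.2 ⟨⟨(⟨x, hxy.1⟩, ⟨y, hxy.2.1⟩), hxy⟩, hx _ rfl, ?_, rfl⟩
  rw [← hF]
  exact hx _ rfl

/-- **the faces with interior vertices are complete** -/
theorem pviv_bulk_full {A : Set (delPl h).Dart} {hA : A.Finite} {x y z : ℂ} (ht : DelTri Y x y z)
    (hx : (⟨x, ht.1⟩ : ↥Y) ∈ (delPl h).toMap.Int A) (hy : (⟨y, ht.2.1⟩ : ↥Y) ∈ (delPl h).toMap.Int A) :
    (x, y) ∈ pvivBulk h A hA ∧ pvivTr Y (x, y) = (x, y, z) := by
  have h1 : (x, y) ∈ pvivBulk h A hA := pviv_bulk_of_int ht.adj hx hy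
  exact ⟨h1, (pviv_bulk_darts A hA).tr_eq h1 ht⟩

end bulk

/-! ## 3. the constructor of the instance -/

/-- **the edge system of the instance**: darts named by their end points; `E`, `Fe`, `R` are free -/
noncomputable def pvivSys (P : ℕ → Measure PvfBase) (E : ℕ → PvfBase → Finset (ℂ × ℂ)) (Fe : ℕ → PvfBase → ℂ × ℂ → ℂ)
    (R : ℕ → ℂ → PvfBase → ℂ) : PvoSys PvfBase where
  P := P
  Ed := ℂ × ℂ
  E := E
  mid := fun _ _ e => (e.1 + e.2) / 2
  Fe := Fe
  c := fun f _ b e => pvqdC f (pvivTr (pvfSites b)) Prod.swap e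
  R := R

theorem pviv_eqns_cite3 : True := by
  have := @pvivSys.eq_1
  trivial

section sys

variable (P : ℕ → Measure PvfBase) (E : ℕ → PvfBase → Finset (ℂ × ℂ)) (Fe : ℕ → PvfBase → ℂ × ℂ → ℂ) (R : ℕ → ℂ → PvfBase → ℂ)

theorem pviv_sub (ns : ℕ → ℕ) :
    (pvivSys P E Fe R).sub ns = pvivSys (fun k => P (ns k)) (fun k => E (ns k)) (fun k => Fe (ns k)) (fun k => R (ns k)) := rfl

theorem pviv_conj :
    (pvivSys P E Fe R).conj = pvivSys P E (fun k b e => (starRingEnd ℂ) (Fe k b e)) (fun k p b => (starRingEnd ℂ) (R k p b)) := rfl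

/-- the weight in clear -/
theorem pviv_c_eq (f : ℂ → ℝ) (k : ℕ) (b : PvfBase) (e : ℂ × ℂ) :
    (pvivSys P E Fe R).c f k b e = (e.1 - e.2) * ((f (delBar e.1 e.2 (delApex (pvfSites b) e.1 e.2))
      - f (delBar e.2 e.1 (delApex (pvfSites b) e.2 e.1)) : ℝ) : ℂ) := rfl

variable {P E Fe R}

/-- **the dictionary**, for every test function -/
theorem pviv_dict (hD : ∀ k b, PvivDarts (pvfSites b) (E k b)) (f : ℂ → ℝ) :
    PvqdDict (pvivSys P E Fe R) f (fun _ b => pvivTr (pvfSites b)) (fun _ _ => Prod.swap) where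
  ok := fun k b => (hD k b).ok
  mid := fun _ _ _ _ => rfl
  c := fun _ _ _ _ => rfl

end sys

/-! ## 4. the exit -/

section exit

variable {ε : ℕ → ℝ} {E : ℕ → PvfBase → Finset (ℂ × ℂ)} {Fe : ℕ → PvfBase → ℂ × ℂ → ℂ} {R R' : ℕ → ℂ → PvfBase → ℂ} {f : ℂ → ℝ}

/-- **EXIT 1**: the record of helper184.   `Bad δ k` ARBITRARY sets, OUTER probability `→ 0`; off `Bad δ k` the first side of every Delaunay triangle meeting the support of `f` is a dart of the system. -/
theorem pviv_in (hε : ∀ k, 0 < ε k) (hε0 : Tendsto ε atTop (𝓝 0)) (hD : ∀ k b, PvivDarts (pvfSites b) (E k b))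
    (hjunk : ∀ k b, b ∉ pvobTame (ε k) → E k b = ∅) (hf : ContDiff ℝ ∞ f) (hfc : HasCompactSupport f)
    {Bad : ℝ → ℕ → Set PvfBase} (hBad : ∀ δ : ℝ, 0 < δ → Tendsto (fun k => pvfBaseLaw (ε k) (Bad δ k)) atTop (𝓝 0))
    (hfull : ∀ δ : ℝ, 0 < δ → ∀ k b, b ∉ Bad δ k → ∀ x y z, DelTri (pvfSites b) x y z → (delT x y z ∩ tsupport f).Nonempty → (x, y) ∈ E k b) :
    ∃ G : ℝ → ℕ → Set PvfBase, PvoiIn (pvivSys (fun k => pvfBaseLaw (ε k)) E Fe R) (2 * I) f (fun p r k b => pvobW (ε k) p r b) G := by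
  obtain ⟨G, -, hG⟩ := pvob_in (S := pvivSys (fun k => pvfBaseLaw (ε k)) E Fe R) (f := f) (tr := fun _ b => pvivTr (pvfSites b))
    (op := fun _ _ => Prod.swap) (ε := ε) hε hε0 (fun _ => rfl) (pviv_dict hD f) hf hfc (fun k b => (hD k b).tri) hjunk
    (Gd := fun δ k => (toMeasurable (pvfBaseLaw (ε k)) (Bad δ k))ᶜ) (fun δ k => (measurableSet_toMeasurable _ _).compl)
    (fun δ hδ => by
      refine (hBad δ hδ).congr fun k => ?_
      show _ = pvfBaseLaw (ε k) ((toMeasurable (pvfBaseLaw (ε k)) (Bad δ k))ᶜ)ᶜ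
      rw [compl_compl, measure_toMeasurable])
    (fun δ hδ k b hb x y z ht hne => by
      have hb' : b ∉ Bad δ k := fun hbb => hb (subset_toMeasurable _ _ hbb)
      have h1 := hfull δ hδ k b hb' x y z ht hne
      exact ⟨(x, y), h1, (hD k b).tr_eq h1 ht⟩)
  exact ⟨G, hG⟩

/-- **EXIT 2**: the CR package of one test function from its field `cr` -/
theorem pviv_cr (hε : ∀ k, 0 < ε k) (hε0 : Tendsto ε atTop (𝓝 0)) (hD : ∀ k b, PvivDarts (pvfSites b) (E k b))
    (hjunk : ∀ k b, b ∉ pvobTame (ε k) → E k b = ∅) (hf : ContDiff ℝ ∞ f) (hfc : HasCompactSupport f)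
    {Bad : ℝ → ℕ → Set PvfBase} (hBad : ∀ δ : ℝ, 0 < δ → Tendsto (fun k => pvfBaseLaw (ε k) (Bad δ k)) atTop (𝓝 0))
    (hfull : ∀ δ : ℝ, 0 < δ → ∀ k b, b ∉ Bad δ k → ∀ x y z, DelTri (pvfSites b) x y z → (delT x y z ∩ tsupport f).Nonempty → (x, y) ∈ E k b)
    (cr : Tendsto (fun k => pvoMean (pvfBaseLaw (ε k)) ((pvivSys (fun k => pvfBaseLaw (ε k)) E Fe R).sumF f (fun _ => 1) k)) atTop (𝓝 0)) :
    PvoCR (pvivSys (fun k => pvfBaseLaw (ε k)) E Fe R) (2 * I) f := by
  obtain ⟨G, hG⟩ := pviv_in (Fe := Fe) (R := R) hε hε0 hD hjunk hf hfc hBad hfull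
  exact pvoi_cr hG cr


/-- **the DISC contract in universal names**: for every compact `K ⊆ D`, off sets of OUTER probability `→ 0`, all the Delaunay darts issued from the sites of `K` are darts of the system -/
def PvivDisc (ε : ℕ → ℝ) (E : ℕ → PvfBase → Finset (ℂ × ℂ)) (D : Set ℂ) : Prop :=
  ∀ K : Set ℂ, IsCompact K → K ⊆ D → ∃ Bad : ℕ → Set PvfBase, Tendsto (fun k => pvfBaseLaw (ε k) (Bad k)) atTop (𝓝 0) ∧
    ∀ k b, b ∉ Bad k → ∀ v w, v ∈ K → DelAdj (pvfSites b) v w → (v, w) ∈ E k b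

theorem pviv_eqns_cite4 : True := by
  have := @PvivDisc.eq_1
  trivial

theorem PvivDisc.sub {D : Set ℂ} (h : PvivDisc ε E D) {ns : ℕ → ℕ} (hns : Tendsto ns atTop atTop) :
    PvivDisc (fun k => ε (ns k)) (fun k => E (ns k)) D := fun K hK hKD => by
  obtain ⟨Bad, h1, h2⟩ := h K hK hKD
  exact ⟨fun k => Bad (ns k), h1.comp hns, fun k b => h2 (ns k) b⟩

/-- DISC from the record of the discrete disc: `E k b` = bulk darts of a finite union of faces `A` (`= c.Left`) of the Delaunay plane, the sites of `K` are interior vertices of `A` -/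
theorem pviv_disc_of_int {D : Set ℂ}
    (h : ∀ K : Set ℂ, IsCompact K → K ⊆ D → ∃ Bad : ℕ → Set PvfBase, Tendsto (fun k => pvfBaseLaw (ε k) (Bad k)) atTop (𝓝 0) ∧
      ∀ k b, b ∉ Bad k → ∃ (hg : DelGood (pvfSites b)) (A : Set (delPl hg).Dart) (hA : A.Finite), (delPl hg).toMap.FaceSet A ∧
        E k b = pvivBulk hg A hA ∧ ∀ v : ↥(pvfSites b), (v : ℂ) ∈ K → v ∈ (delPl hg).toMap.Int A) : PvivDisc ε E D := fun K hK hKD => by
  obtain ⟨Bad, h1, h2⟩ := h K hK hKD
  refine ⟨Bad, h1, fun k b hb v w hv hvw => ?_⟩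
  obtain ⟨hg, A, hA, hF, hE, hint⟩ := h2 k b hb
  rw [hE]
  exact pviv_bulk_of_int_left hF hvw (hint ⟨v, hvw.1⟩ hv)

/-- at mesh `ρ` the vertices of a Delaunay triangle which meets `ball x R` lie in `closedBall x (R + 2 ρ)` -/
theorem pviv_vertex_near {b : PvfBase} {ρ L R : ℝ} {x : ℂ} (hρ : 0 < ρ) (hb : b ∈ pvobM ρ L) (hL : ‖x‖ + R + 4 * ρ ≤ L) {u v w p : ℂ}
    (ht : DelTri (pvfSites b) u v w) (hp : p ∈ delT u v w) (hpx : p ∈ Metric.ball x R) : u ∈ Metric.closedBall x (R + 2 * ρ) := by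
  have hd : VorDense (pvfSites b) (Metric.closedBall p (4 * ρ)) ρ := by
    refine (pvob_M_dense hρ hb).mono subset_rfl ?_ le_rfl
    intro z hz
    apply pvmt_ball_sub
    rw [Metric.mem_closedBall, dist_eq_norm] at hz
    rw [Metric.mem_ball, dist_eq_norm] at hpx
    rw [Metric.mem_closedBall, dist_zero_right]
    have e : z = (z - p) + (p - x) + x := by ring
    rw [e]
    have := norm_add_le ((z - p) + (p - x)) x
    have := norm_add_le (z - p) (p - x)
    linarith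
  obtain ⟨h1, -, -⟩ := del_tri_near hρ.le (by linarith) hd ht hp
  rw [Metric.mem_ball, dist_eq_norm] at hpx
  rw [Metric.mem_closedBall, dist_eq_norm]
  have e : u - x = (u - p) + (p - x) := by ring
  rw [e]
  have := norm_add_le (u - p) (p - x)
  linarith

/-- **EXIT 3**: DISC + the field `cr` give the CR package of a LOCAL test function -/
theorem pviv_cr_loc {D : Set ℂ} (hε : ∀ k, 0 < ε k) (hε0 : Tendsto ε atTop (𝓝 0)) (hD : ∀ k b, PvivDarts (pvfSites b) (E k b))
    (hjunk : ∀ k b, b ∉ pvobTame (ε k) → E k b = ∅) (hDisc : PvivDisc ε E D) {x : ℂ} {R : ℝ} (hR : 0 < R)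
    (hxD : Metric.closedBall x (6 * R) ⊆ D) (hf : ContDiff ℝ ∞ f) (hfc : HasCompactSupport f) (hfs : tsupport f ⊆ Metric.ball x R)
    (cr : Tendsto (fun k => pvoMean (pvfBaseLaw (ε k)) ((pvivSys (fun k => pvfBaseLaw (ε k)) E Fe R').sumF f (fun _ => 1) k)) atTop (𝓝 0)) :
    PvoCR (pvivSys (fun k => pvfBaseLaw (ε k)) E Fe R') (2 * I) f := by
  obtain ⟨Bad, hB1, hB2⟩ := hDisc (Metric.closedBall x (2 * R)) (isCompact_closedBall x (2 * R))
    ((Metric.closedBall_subset_closedBall (by linarith)).trans hxD)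
  have hρ : 0 < R / 2 := by positivity
  set L : ℝ := ‖x‖ + R + 4 * (R / 2) with hL
  have hL0 : 0 ≤ L := by positivity
  refine pviv_cr (Bad := fun _ k => Bad k ∪ (pvobM (R / 2) L)ᶜ) hε hε0 hD hjunk hf hfc (fun δ _ => ?_) (fun δ _ k b hb u v w ht hne => ?_) cr
  · have l2 := pvob_M_tendsto hρ hL0 hε hε0
    have l3 := hB1.add l2
    rw [add_zero] at l3
    exact tendsto_of_tendsto_of_tendsto_of_le_of_le tendsto_const_nhds l3 (fun _ => zero_le) fun k => measure_union_le _ _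
  · simp only [mem_union, mem_compl_iff, not_or, not_not] at hb
    obtain ⟨p, hp, hpf⟩ := hne
    have hu := pviv_vertex_near hρ hb.2 le_rfl ht hp (hfs hpf)
    have e : R + 2 * (R / 2) = 2 * R := by ring
    rw [e] at hu
    exact hB2 k b hb.1 u v hu ht.adj

/-- **EXIT 4**: `PvoCRAll` -/
theorem pviv_cr_all {D : Set ℂ} (hε : ∀ k, 0 < ε k) (hε0 : Tendsto ε atTop (𝓝 0)) (hD : ∀ k b, PvivDarts (pvfSites b) (E k b))
    (hjunk : ∀ k b, b ∉ pvobTame (ε k) → E k b = ∅) (hDisc : PvivDisc ε E D)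
    (cr : ∀ (x : ℂ) (R : ℝ), 0 < R → Metric.closedBall x (6 * R) ⊆ D → ∀ f : ℂ → ℝ, ContDiff ℝ ∞ f → HasCompactSupport f →
      tsupport f ⊆ Metric.ball x R →
      Tendsto (fun k => pvoMean (pvfBaseLaw (ε k)) ((pvivSys (fun k => pvfBaseLaw (ε k)) E Fe R').sumF f (fun _ => 1) k)) atTop (𝓝 0)) :
    PvoCRAll (pvivSys (fun k => pvfBaseLaw (ε k)) E Fe R') (2 * I) D :=
  fun x R hR hxD f hf hfc hfs => pviv_cr_loc hε hε0 hD hjunk hDisc hR hxD hf hfc hfs (cr x R hR hxD f hf hfc hfs)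

end exit

end Claimed.Agent.R289
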